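import Vale.Agent.P144DX.VStep

/-!
# The flow with separated sources and without flux
-/

namespace Vale.Agent.P144Z

open Finset Matrix

open W W.FD FM DX in
set_option maxHeartbeats 400000 in
theorem flowOn : ∃ ε₀ > (0 : ℝ), ∀ ε > (0 : ℝ), ε ≤ ε₀ → ∃ L₀ : ℕ, ∀ L ≥ L₀, ∃ kf : ℕ → ℕ,
    ∃ σ ≥ (0 : ℝ), ∃ η₀ > (0 : ℝ), ∀ η, 0 < η → η ≤ η₀ → ∀ R : ℕ, ∃ δ₀ > (0 : ℝ),
      ∀ q : Par, q.R = R → Crit L q η δ₀ → ∀ N k, kf N ≤ k → FlowOn (QU L ε k N) q L σ η := by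
  classical
  obtain ⟨ε₁, hε₁, hE⟩ := engT_of initU wtS
  obtain ⟨ε₂, hε₂, L₂, hS⟩ := W.Geo.R8.stepY
  obtain ⟨Cb, hCb, hbf⟩ := W.Geo.ag_bfC
  obtain ⟨Cs, hCs, hsrc⟩ := W.Geo.R8.df_srcSt
  refine ⟨min ε₁ ε₂, by positivity, fun ε hε hε' => ?_⟩
  obtain ⟨L₁, hE⟩ := hE ε hε (hε'.trans (min_le_left _ _))
  have hε2 := hε'.trans (min_le_right _ _)
  refine ⟨max (max L₁ L₂) 20, fun L hL => ?_⟩
  have hL20 : 20 ≤ L := le_of_max_le_right hL
  have hL16 : 16 ≤ L := by omega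
  have hL1 : 1 ≤ L := by omega
  have hL' : (1 : ℝ) ≤ L := by exact_mod_cast hL1
  obtain ⟨kf, δ, hδ, A, hA, σ, hσ, η₀, hη₀, hE⟩ := hE L (le_of_max_le_left (le_of_max_le_left hL))
  obtain ⟨C, Θ, hC, -, hS⟩ := hS L (le_of_max_le_right (le_of_max_le_left hL))
  refine ⟨kf 4, σ, hσ, min η₀ (min (1 / 20) (δ / (2 * A))), by positivity,
    fun η hη hη' R₀ => ?_⟩
  simp only [le_min_iff] at hη'
  obtain ⟨e1, e2, e3⟩ := hη'
  rw [le_div_iff₀ (by positivity)] at e3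
  obtain ⟨δ₀, hδ₀, hE⟩ := hE η hη e1 R₀
  refine ⟨δ₀, hδ₀, fun q hR hq N₁ k hk Λ H hH => ?_⟩
  replace hE := hE q hR hq 4 _ ⟨N₁, k, hk, rfl⟩
  obtain ⟨Ω, hΩ, hW⟩ := wtS L N₁ hL20
  obtain ⟨p₂, hp₂⟩ := pow_unbounded_of_one_lt H (one_lt_two (α := ℝ))
  set T : ℝ := (32 * Λ + 1) ^ 2 with hT
  have hT1 : 1 ≤ T := one_le_pow₀ (by have : (0 : ℝ) ≤ Λ := Nat.cast_nonneg Λ
                                      linarith)
  obtain ⟨d, hd, d1⟩ : ∃ d > (0 : ℝ), 16 * C * Ω ^ 2 * d ≤ 1 :=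
    ⟨1 / (16 * C * Ω ^ 2), by positivity, le_of_eq (by field_simp)⟩
  obtain ⟨δ', hδ', d3, d4⟩ : ∃ δ' > (0 : ℝ), L * δ' ≤ δ ∧ 4 * (Cs * Real.exp L) * δ' ≤ d :=
    ⟨min (δ / L) (d / (4 * (Cs * Real.exp L))), by positivity,
      (le_div_iff₀' (by positivity)).1 (min_le_left _ _),
      (le_div_iff₀' (by positivity)).1 (min_le_right _ _)⟩
  have d5 : δ' ≤ δ := (le_mul_of_one_le_left hδ'.le hL').trans d3
  obtain ⟨J₁, hJ₁⟩ := ex_J (x := A * η) (half_pos hd)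
  obtain ⟨J₂, hJ₂⟩ := ex_J (x := 8 * C * (Cb * Real.exp L * η)) hd
  set h := (L : ℝ) ^ 2 * 2 ^ p₂ with hh
  have hh0 : 0 < h := by positivity
  have hCΩ : 0 < C * Ω * d := by positivity
  have hT2 := mul_le_mul_of_nonneg_right hT1 hCΩ.le
  refine ⟨δ' / h ^ 2, by positivity, δ + 4 * (T * (C * Ω * d)), by positivity,
    max (max J₁ J₂) (max (max p₂ k) 1),
    fun g N hJ P hon hsep Q1 ⟨Tp, hTp, _, c', hc', hcL', hb'⟩ u hu hf hs => ?_⟩
  simp only [max_le_iff] at hJ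
  obtain ⟨⟨j1, j2⟩, ⟨j3, j4⟩, j5⟩ := hJ
  obtain ⟨ω, hω, hW⟩ := hW g.M Tp
  have hr' := rad_min hL1 p₂
  have h8 : ∀ j, 8 ≤ sc L j := eight_le_sc hL1
  have pre : g.Pre0 L q.R := ⟨P.ok, hon,
    (Nat.mul_le_mul_left _ (sc_mono hL1 P.JN)).trans P.M1, P.R_le, hsep⟩
  have H1 := (hE g _ pre P.card Q1 hr').1 u hu hf hs
  replace hS : ∀ β > 0, ∀ j, g.J ≤ j → j < N →
      g.StepX L j h h β C (ω (sc L j)) (ω (L * sc L j)) := fun β hβ j hj hjN => by
    have h1 : L * sc L j ≤ sc L N := by rw [← sc_succ]; exact sc_mono hL1 hjN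
    have hM := P.M1
    have := h8 j
    obtain ⟨κ, σ, n₂, a3, a4, a7, a5, a6⟩ := hb' j (j4.trans hj) hjN
    exact (hS g j h h β c' P.ok.sign P.nf P.card hj (by omega)
      (le_mul_of_one_le_right (by positivity) (one_le_pow₀ one_le_two)) le_rfl (by linarith) hβ hc'
      (hcL'.trans (by gcongr))).1 _ _ (RgU.bdU_mono (hW g.A (sc L j) n₂ c' κ σ ε (by omega)
        (fun p a p' a' h => by have := hTp p a p' a' h; omega) hcL' a3 a4 a7 a5 a6) (by linarith))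
  have hs0 : (0 : ℝ) < sc L g.J := by have := h8 g.J; positivity
  have wf := W.Geo.wf_flowC P.ok hu L q
  have hβ : δ' * sc L g.J / h ^ 2 = δ' / h ^ 2 * sc L g.J := by ring
  have hβ0 : 0 < δ' / h ^ 2 * sc L g.J := by positivity
  have hd0 := H1.df g.J le_rfl
  simp only [min_eq_right j3] at hd0
  have hd1 := hsrc L g P.ok.sign _ (h8 _) (by have := pre.M_le; omega)
    (W.Geo.R8.sepW_mono hsep (by omega)) h δ' hh0 hδ' _ (wf g.J) _ 0 2 _ zero_le_two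
    (fun k => by
      rw [Pi.zero_apply, sub_zero]
      exact z_le hδ H1.toEOut (by linarith) (z0_le e2 hq.x hq.Z) k)
    (anch_mono hd0 (IO.df_mono (by have := h8 g.J; omega) hh0 (by positivity) (by gcongr) (wf _)
      (Geo.wf_srcSt _).1) le_rfl)
  rw [hβ] at hd1
  set b := Cb * Real.exp L * η / 2 ^ g.J with hb
  have hb0 : 0 ≤ b := by positivity
  have b1 : 8 * C * b ≤ d := by rw [hb, ← mul_div_assoc]; exact hJ₂ _ j2
  have b2 : b ≤ d * Ω := by nlinarith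
  have hbf' : ∀ j, g.J ≤ j → j ≤ N → Anch (sc L j) L (g.bf (sc L j) h
      (g.flowC L q u j)) (b / 2 ^ (j - g.J)) := fun j hj hj' => by
    refine anch_mono (hbf L (by omega) q η hq.ok hq.bulk g P.ok u hu hf P.R_le j
      ((Nat.mul_le_mul_left _ (sc_mono hL1 hj')).trans P.M1))
      (bf_mono (by have := h8 j; omega) hh0 (by
        have := hr'.hi j
        rwa [min_eq_right (j3.trans hj)] at this) (wf j)) ?_
    refine (mul_le_mul_of_nonneg_left (th_pow hL16 j) (by positivity)).trans ?_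
    rw [hb, ← mul_div_assoc, mul_one_div]
    gcongr
    · norm_num
    · norm_num
    · omega
  obtain ⟨k1, k2⟩ := ind (J := g.J) (N := N) (d := d) (h := fun _ => h) hC hω (hS _ hβ0) (flowC_succ L q) wf hb0 b1
    (by nlinarith [mul_pos (by linarith : 0 < C) (by linarith : 0 < Ω)]) hΩ
    (anch_le hd1 (by linarith [hJ₁ _ j1])) fun j hj hj' => hbf' j hj hj'.le
  refine ⟨⟨H1.init, fun j hj => (lt_or_ge j g.J).elim (H1.ex j) fun h => (k2 j h hj).1⟩,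
    fun j hj => anch_mono (FlU.early1 (w := δ' / h ^ 2) hL1 pre hr' hu (by positivity) H1
      (by positivity) (fun i => ?_) j hj) (fun U => ?_) (by gcongr; linarith),
    fun j hj hj' => ?_, ?_⟩
  · have h3 : (2 : ℝ) ^ min i p₂ ≤ 2 ^ p₂ := pow_le_pow_right₀ one_le_two (min_le_right _ _)
    calc _ ≤ δ' / h ^ 2 * L * h ^ 2 := by rw [hh]; gcongr
      _ = L * δ' := by field_simp
      _ ≤ δ := d3
  · by_cases h1 : g.Exc U ∧ g.One U
    · rw [if_pos h1, if_pos h1.1]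
    · rw [if_neg h1, if_neg fun h2 => h1 ⟨h2, fun a a' b1 b2 => ?_⟩]
      obtain ⟨i, -, b3⟩ := MN.exc_sub P.ok hon h2
      by_contra b4
      have b5 := hsep.ss a a' b4
      have b6 := tdist_le_stein b1 b2
      have := h8 g.J
      omega
  · obtain ⟨i, rfl⟩ : ∃ i, j = i + 1 := ⟨j - 1, by omega⟩
    refine anch_mono (k2 i (by omega) (by omega)).2 (fun U => ?_) ?_
    · rw [csC_succ]
      exact W.FD.ps_le P.ok.sign (by have := h8 i; omega) (half_pos hh0) hβ0 le_rfl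
        ((wf i).Cl_mem (covP_anti (Vale.Agent.P144Z.C.Dm_anti _) _ _) U)
    · rw [show i + 1 - g.J = i - g.J + 1 by omega, pow_succ, ← div_div, div_right_comm]
      gcongr
      nlinarith
  · have hN := P.JN
    have a1 := W.FD.pn_sum_H (by have := h8 N; omega) hh0 hβ0 P.M2 (by linarith) (wf N)
      (k1 N hN le_rfl) (hbf' N hN le_rfl)
    simp only [Pi.zero_apply, zero_smul, sum_const_zero, sub_zero] at a1
    refine (RN.pn_mono (by have := h8 N; omega) hH hβ0 ?_ le_rfl subset_rfl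
      (W.FD.sum_H_mem (wf N))).trans (a1.trans ?_)
    · exact hp₂.le.trans (le_mul_of_one_le_left (by positivity) (one_le_pow₀ hL'))
    · rw [← hT, show d / 2 ^ (N - g.J) * Ω + b / 2 ^ (N - g.J) = (d * Ω + b) / 2 ^ (N - g.J) by
        ring, ← mul_div_assoc]
      gcongr
      have := mul_le_mul_of_nonneg_left (by nlinarith : d * Ω + b ≤ 2 * (C * Ω * d))
        (by linarith : 0 ≤ T)
      linarith

end Vale.Agent.P144Z
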