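import Vale.Agent.P144DX.Main
import Vale.Agent.P144U.Rg.All0

/-!
# A cluster inside a domain: all the estimates with the same weight
-/

namespace Vale.Agent.P144Z

open Finset

/-- The main estimates hold for corrections a little larger than those of the regions. -/
def UnivX (Q : Cls) (q : Par) (L m : ℕ) : Prop :=
  ∃ σ γ θ Zσ Zε : ℝ, 0 ≤ σ ∧ 0 < θ ∧ (∀ (M : ℕ) [NeZero M] (R : Reg M),
    (R.cor q).Ok ∧ (R.cor q).Off R.pw ∧ (R.cor q).Wt σ γ) ∧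
    MainU Q q Zσ Zε L 1 σ (γ + θ) ∧ EnU Q q L 1 σ (γ + θ) ∧ MainX Q q L m σ (γ + θ)

namespace DX

open GU Mn W.R5

theorem wt_anti {M : ℕ} [NeZero M] {u : Cor M} {σ σ' γ : ℝ} (h : u.Wt σ' γ) (h1 : σ ≤ σ') :
    u.Wt σ γ := by
  obtain ⟨b, h2, h3⟩ := h
  refine ⟨b, h2, fun y => le_trans (sum_le_sum fun X _ => ?_) (h3 y)⟩
  have := (abs_nonneg _).trans (h2 X fun _ => true)
  gcongr

variable {Q : Cls} {q : Par} {Zσ Zε σ σ' γ : ℝ} {L m : ℕ}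

theorem main_up (h : MainU Q q Zσ Zε L m σ γ) (h1 : σ ≤ σ') : MainU Q q Zσ Zε L m σ' γ :=
  fun N Λ Γ H a1 a2 => by
    obtain ⟨C, h⟩ := h N Λ Γ H a1 a2
    refine ⟨C, fun ε hε => ?_⟩
    obtain ⟨J₀, h⟩ := h ε hε
    exact ⟨J₀, fun J hJ M _ P B Δ ι _ _ y d n K b1 b2 b3 b4 =>
      h J hJ M P B Δ ι y d n K b1 b2 b3 (wt_anti b4 h1)⟩

theorem en_up (h : EnU Q q L m σ γ) (h1 : σ ≤ σ') : EnU Q q L m σ' γ :=
  fun N Λ Γ a1 ε hε => by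
    obtain ⟨J₀, h⟩ := h N Λ Γ a1 ε hε
    exact ⟨J₀, fun J hJ M _ P B Δ Δ' ι _ _ y d n b0 D b1 b2 b3 b4 b5 =>
      h J hJ M P B Δ Δ' ι y d n b0 D b1 (wt_anti b2 h1) b3 b4 (wt_anti b5 h1)⟩

theorem mainX_up (h : MainX Q q L m σ γ) (h1 : σ ≤ σ') : MainX Q q L m σ' γ :=
  fun n Λ₁ Λ Γ hΓ => by
    obtain ⟨B, J₀, hB, h⟩ := h n Λ₁ Λ Γ hΓ
    exact ⟨B, J₀, hB, fun g A' A₀ c N R r ρ a1 a2 a3 a4 a5 a6 a7 u a8 a9 b =>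
      h g A' A₀ c N R r ρ a1 a2 a3 a4 a5 a6 a7 u a8 a9 (wt_anti b h1)⟩

theorem cor_wt (hσ : 0 ≤ σ) (hγ : 0 < γ) : ∃ η > (0 : ℝ), η ≤ γ ∧ ∀ R : ℕ, ∃ δ > (0 : ℝ),
    ∀ (q : Par) (L : ℕ), q.R = R → Crit L q η δ → ∀ (M : ℕ) [NeZero M] (R' : Reg M),
    (R'.cor q).Ok ∧ (R'.cor q).Off R'.pw ∧ (R'.cor q).Wt σ (γ / 2) := by
  obtain ⟨C₂, hC₂, h⟩ := cor_reg
  have e1 := one_le_eR hσ 1
  refine ⟨γ / (4 * (eR σ 1 * C₂)), by positivity, div_le_self hγ.le (by nlinarith), fun R => ?_⟩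
  obtain ⟨C₃, hC₃, h⟩ := h R
  have e2 := one_le_eR hσ (2 * R + 2)
  refine ⟨γ / (4 * (eR σ (2 * R + 2) * C₃)), by positivity, fun q L hR hq M _ R' => ?_⟩
  obtain ⟨k1, k2, k3⟩ := h M R' q _ _ hR hq.ok hq.x hq.small
  refine ⟨k1, k2, wt_mono (wt_sm hσ k3) (le_of_eq ?_)⟩
  rw [hR]
  field_simp
  ring

theorem genX : ∃ ε₀ > (0 : ℝ), ∀ ε > (0 : ℝ), ε ≤ ε₀ → ∃ L₀ : ℕ, ∀ L ≥ L₀, ∃ η₀ > (0 : ℝ),
    ∀ R : ℕ, ∃ δ₀ > (0 : ℝ), ∀ q : Par, q.R = R → Crit L q η₀ δ₀ → ∀ m N : ℕ, ∃ k₁ : ℕ,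
      ∀ k ≥ k₁, UnivX (QU L ε k N) q L m := by
  obtain ⟨ε₁, hε₁, hE⟩ := engT_of initU wtS
  obtain ⟨ε₂, hε₂, hX⟩ := flowX
  obtain ⟨ε₃, -, hI⟩ := flowSU
  obtain ⟨L₁, hL₁, hP⟩ := flowU
  obtain ⟨η₃, -, L₂, hI⟩ := hI 1 le_rfl
  refine ⟨min ε₁ ε₂, by positivity, fun ε hε hε' => ?_⟩
  obtain ⟨L₃, hE⟩ := hE ε hε (hε'.trans (min_le_left _ _))
  obtain ⟨L₄, hX⟩ := hX ε hε (hε'.trans (min_le_right _ _))
  refine ⟨max (max (max L₁ L₂) 64) (max L₃ L₄), fun L hL => ?_⟩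
  simp only [ge_iff_le, max_le_iff] at hL
  obtain ⟨⟨⟨l1, l2⟩, l3⟩, l4, l5⟩ := hL
  obtain ⟨kf, hE⟩ := hE L l4
  obtain ⟨kf', a, σ', ha, hσ', ηc, hηc, hX⟩ := hX L l5
  obtain ⟨C, hC, ηa, hηa, hP⟩ := hP L l1
  obtain ⟨C', hC', σ, hσ, ηb, hηb, hI⟩ := hI L l2 _ hE
  set E := C + C' with hE'
  have hE0 : 0 < E := by linarith
  set η := min (min (min ηa ηb) ηc) (1 / (20000 * E)) with hη
  have hη0 : 0 < η := by positivity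
  have hCη : E * η ≤ 1 / 20000 := by
    calc E * η ≤ E * (1 / (20000 * E)) := mul_le_mul_of_nonneg_left (min_le_right _ _) hE0.le
      _ = _ := by field_simp
  obtain ⟨m0, m3⟩ := le_min_iff.1 (min_le_left _ _ : η ≤ min (min ηa ηb) ηc)
  obtain ⟨m1, m2⟩ := le_min_iff.1 m0
  obtain ⟨η', hη', e, hU⟩ := cor_wt (le_max_of_le_left hσ : 0 ≤ max σ σ') hη0
  refine ⟨η', hη', fun R => ?_⟩
  obtain ⟨δa, hδa, hP⟩ := hP η hη0 m1 R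
  obtain ⟨δb, hδb, hI⟩ := hI η hη0 m2 R
  obtain ⟨δc, hδc, hX⟩ := hX η hη0 m3 R
  obtain ⟨δd, hδd, hU⟩ := hU R
  refine ⟨min (min δa δb) (min δc δd), by positivity, fun q hR hq m N => ⟨max (kf 1 N) (kf' m N),
    fun k hk => ?_⟩⟩
  obtain ⟨Z, z1, z2, z3, hP⟩ := hP q hR (hq.mono e ((min_le_left _ _).trans (min_le_left _ _)))
  replace hI := (hI q hR (hq.mono e ((min_le_left _ _).trans (min_le_right _ _))) Z z2 z3 1 _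
    ⟨N, k, le_of_max_le_left hk, rfl⟩).1
  replace hX := hX q hR (hq.mono e ((min_le_right _ _).trans (min_le_left _ _))) m N k
    (le_of_max_le_right hk)
  have e1 : C * η ≤ E * η := mul_le_mul_of_nonneg_right (by linarith) hη0.le
  have e2 : C' * η ≤ E * η := mul_le_mul_of_nonneg_right (by linarith) hη0.le
  have hP' : MN.Pl L q Z (E * η) C := fun N₀ Λ hΛ => by
    obtain ⟨w, hw, J₀, hP⟩ := hP N₀ Λ hΛ
    refine ⟨w, hw, J₀, fun J hJ r h1 h2 => ?_⟩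
    obtain ⟨M₀, hP⟩ := hP J hJ r h1 h2
    exact ⟨M₀, fun g a1 a2 a3 N a4 a5 => (hP g a1 a2 a3 N a4 a5).mono e1 le_rfl⟩
  obtain ⟨w, J₀, h⟩ := MN.exists_ref l3 hq.ok hP'
  obtain ⟨s, hs, hs'⟩ := exists_sigma l3 (w := w) (J₀ := J₀) fun i => h (J₀ + i) (by omega) _
    le_rfl (Nat.mul_le_mul_left _ (sc_mono (by omega) (by omega)))
  have hZ : 1 / 2 ≤ Z := by
    have := abs_le.1 z1
    linarith
  obtain ⟨k3, k4⟩ := mainSU L 1 q Z (E * η) C s σ η (QU L ε k N) l3 hq.ok (by positivity)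
  refine ⟨max σ σ', η / 2, η / 2, Real.exp s, Z, le_max_of_le_left hσ, half_pos hη0,
    hU q L hR (hq.mono le_rfl ((min_le_right _ _).trans (min_le_right _ _))), ?_⟩
  rw [add_halves]
  exact ⟨main_up ((k4 hZ hP' hs').1 (flowQ_mono hI e2)) (le_max_left _ _),
    en_up (k3 (flowQ_mono hI e2)) (le_max_left _ _),
    mainX_up (mainX_of (by omega) hq.ok ha hX) (le_max_right _ _)⟩

end DX

end Vale.Agent.P144Z
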