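import Vale.Agent.P144DX.Core
import Vale.Agent.P144DX.Gen
import Vale.Agent.P144E.Sp.Main

/-!
# A cluster inside a finite set of sites: the correlations
-/

namespace Vale.Agent.P144Z.DX

open Finset Matrix UL P144 TiltH FrU

theorem psi_le {m : ℕ} {D b : ℝ} {A : Fin m → ℝ} {N : Finset (Fin m) → ℝ} (hb : 1 ≤ b)
    (hA : ∀ k, |A k / D| ≤ b) (hN : ∀ t, |N t / D| ≤ b) : |UL.psi D A N| ≤ 2 ^ m * (b ^ m * b) := by
  refine (abs_sum_le_sum_abs _ _).trans ((sum_le_card_nsmul _ _ (b ^ m * b) fun t _ => ?_).trans ?_)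
  · rw [abs_mul, abs_prod]
    refine mul_le_mul ((prod_le_prod (g := fun _ => b) (fun _ _ => abs_nonneg _) fun k _ => by
      rw [abs_neg]
      exact hA k).trans ?_) (hN t) (abs_nonneg _) (by positivity)
    rw [prod_const]
    exact pow_le_pow_right₀ hb (by simpa using card_le_univ tᶜ)
  · rw [card_univ, Fintype.card_finset, Fintype.card_fin, nsmul_eq_mul]
    simp

theorem comb_le {ι : Type} {m : ℕ} (s : Finset ι) (c : ι → ℝ) {B₁ B : ℝ}
    (h1 : ∑ U ∈ s, |c U| ≤ B₁) (hB : 0 ≤ B) (d : ι → Fin m → ℝ) (hd : ∀ U k, |d U k| ≤ 1)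
    (X : ι → Finset (Fin m) → ℝ) (hX : ∀ U t, |X U t| ≤ B) (t : Finset (Fin m)) :
    |∑ U ∈ s, c U * ∑ t' ∈ t.powerset, X U t' * ∏ k ∈ t \ t', d U k| ≤ B₁ * (2 ^ m * B) := by
  have k : ∀ U, |∑ t' ∈ t.powerset, X U t' * ∏ k ∈ t \ t', d U k| ≤ 2 ^ m * B := fun U => by
    refine (abs_sum_le_sum_abs _ _).trans ((sum_le_card_nsmul _ _ B fun t' _ => ?_).trans ?_)
    · rw [abs_mul, abs_prod]
      exact (mul_le_of_le_one_right (abs_nonneg _)
        (prod_le_one (fun _ _ => abs_nonneg _) fun i _ => hd U i)).trans (hX U t')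
    · rw [card_powerset, nsmul_eq_mul]
      have e2 : t.card ≤ m := by simpa using card_le_univ t
      push_cast
      gcongr
      norm_num
  refine (abs_sum_le_sum_abs _ _).trans ((sum_le_sum (g := fun U => |c U| * (2 ^ m * B))
    fun U _ => ?_).trans ?_)
  · rw [abs_mul]
    exact mul_le_mul_of_nonneg_left (k U) (abs_nonneg _)
  · rw [← sum_mul]
    exact mul_le_mul_of_nonneg_right h1 (by positivity)

set_option maxHeartbeats 400000 in
theorem halfX {Q : Cls} {q : Par} {L t m : ℕ} (hL : 2 ≤ L) (hU : UnivX Q q L m) (ht : 1 ≤ t)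
    (x1 : 1 / 4 ≤ q.x) (x2 : q.x ≤ 1 / 2) (hq : q.Small 1) {J lam β : ℝ} (hr : Rel J lam β q)
    (N₀ n H₀ Λ₀ Λ₁ Λ₂ k₀ : ℕ) (hn : Even n) (hΛ : 1 ≤ Λ₁) : ∃ (B : ℝ) (J₀ p : ℕ), ∀ J' ≥ J₀,
      ∀ (N M : ℕ) [NeZero M] (Λ P : Finset Site) (fr : Bool) (T r s H : ℕ) (x : Fin n → Site)
      (y : Fin m → Site) (j : Fin m → Fin 2) (a : Site) (hs : Fin H → Site) (c : Site), H ≤ H₀ →
      Rgh (regOf M (dig Λ P t) fr).In N₀ r →
      (∀ B, Str (regOf M (dig Λ P t) fr).pw B (s - 1) →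
        Q M ((regOf M (dig Λ P t) fr).pw * B) J') →
      (∀ B, Str (regOf M (dig Λ P t) fr).pw B (r - 1) →
        Q M ((regOf M (dig Λ P t) fr).pw * B) N) → Holes (dig Λ P t) T r a hs →
      (fr = false → Cn M (dig Λ P t) a hs) → Spins (dig Λ P t) s (Sum.elim x y) →
      (fr = true → H = 0) → (∀ v, zd v c ≤ r → v ∈ dig Λ P t) →
      (∀ k v, zd v (y k) ≤ r → v ∈ dig Λ P t) → (∀ i, zd (Sum.elim x y i) c ≤ Λ₁ * s) →
      16 * sc L J' + 1 ≤ s → s ≤ Λ₂ * sc L J' → p * s ≤ sc L N → 16 * sc L N + 1 ≤ r → r ≤ T →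
      T ≤ Λ₀ * sc L N → M = 64 * T → (∀ p ∈ P, zd p 0 ≤ T) →
      (∀ p ∈ P, ∀ p' ∈ P, p ≠ p' → r < zd p p') → P.card ≤ k₀ →
        (sc L J' : ℝ) ^ ((n : ℝ) / 8) * (sc L J' : ℝ) ^ m *
          |lcor (gibbs J lam q.V β (if fr then none else some fun _ => true) Λ) x y j| ≤ B := by
  obtain ⟨σ, γ, θ, Zσ, Zε, hσ, hθ, hΔ, hM, hE, hX⟩ := hU
  obtain ⟨C, hC, hS⟩ := spStmt q.R t
  obtain ⟨B₁, hT⟩ := tilt k₀ (t + q.R + 2) hC hθ hσ
  obtain ⟨Ba, Ja, pa, hBa, ca⟩ := coreX hL hX N₀ n H₀ Λ₀ Λ₁ Λ₂ hn hΛ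
  obtain ⟨Bb, Jb, pb, hBb, cb⟩ := coreX hL hX N₀ 0 H₀ Λ₀ Λ₁ Λ₂ Even.zero hΛ
  obtain ⟨Bc, cc⟩ := core (kStmtW_of gapW) hL hM hE N₀ 0 H₀ Λ₀
  obtain ⟨Bd, cd⟩ := core (kStmtW_of gapW) hL (GU.main_anti hM zero_le_one)
    (GU.en_anti hE zero_le_one le_rfl) N₀ 0 H₀ Λ₀
  obtain ⟨Jc, cc⟩ := cc 1 one_pos
  obtain ⟨Jd, cd⟩ := cd (1 / (2 * (B₁ ^ 2 + 1))) (by positivity)
  set b := 1 + 2 * B₁ ^ 2 * (2 ^ m * (Ba + Bb)) with hb
  refine ⟨2 ^ m * (b ^ m * b), max (max (max Ja Jb) (max Jc Jd)) (t + q.R + q.R), pa + pb + 1,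
    fun J' hJ' N M _ Λ P fr T r s H x y j a hs c h0 hR Q1 Q2 h1 hc h2 hfr hd hd' hx r1 r2 r3 r4 r5
      r6 hMT p1 p2 p3 => ?_⟩
  simp only [ge_iff_le, max_le_iff] at hJ'
  obtain ⟨⟨⟨j1, j2⟩, j3, j4⟩, j5⟩ := hJ'
  have l1 : 8 * J' + 8 ≤ sc L J' := sc_ge hL
  rw [add_mul, add_mul, one_mul] at r3
  have JN : J' ≤ N := le_of_sc hL (by omega)
  have hs0 : Spins (dig Λ P t) s (Sum.elim (Fin.elim0 : Fin 0 → Site) y) := by
    have := h2.comp (f := Sum.map (Fin.elim0 : Fin 0 → Fin n) id)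
      (Function.Injective.sumMap (fun i => i.elim0) Function.injective_id)
    have e : x ∘ (Fin.elim0 : Fin 0 → Fin n) = Fin.elim0 := funext fun i => i.elim0
    rwa [Sum.elim_comp_map, e, Function.comp_id] at this
  obtain ⟨c1, c2, c3⟩ := hΔ M (regOf M (dig Λ P t) fr)
  have hsep : ∀ p ∈ P, ∀ p' ∈ P, p ≠ p' → 2 * (t + q.R + 2) < zd p p' :=
    fun p hp p' hp' e => lt_of_le_of_lt (by omega) (p2 p hp p' hp' e)
  obtain ⟨O, hO, hb', hG⟩ := hS J lam β q hr hr.range x1 x2 hq M Λ P fr T r H a hs h1 hc hfr p1 hsep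
    (by omega)
  have x0 : 0 < q.x := by linarith
  obtain ⟨u, w, hu, s1, s2, hT⟩ := hT q x0 M (dig Λ P t) P fr T O γ h1.box
    (fun p hp => ⟨p1 p hp, fun v hv h => by
      have := (mem_dig.1 h).2 p hp
      omega⟩) hsep p3 (by omega) hO hb' c1 c2 c3
  have Z0 := (avg x0 h1.box (by omega : 4 * (T + q.R + 2) ≤ M) fr).1
  have da := ca J' j1 N M _ fr T r s H x y j a hs c h0 hR Q1 Q2 h1 h2 hfr hd hx r1 r2 (by omega) r4
    r5 r6 hMT
  have db := cb J' j2 N M _ fr T r s H Fin.elim0 y j a hs c h0 hR Q1 Q2 h1 hs0 hfr hd (by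
    rintro (i | k)
    exacts [i.elim0, hx (Sum.inr k)]) r1 r2 (by omega) r4 r5 r6 hMT
  have dc := fun k => cc N (by omega) M _ fr T r H Fin.elim0 (fun _ => y k) (fun _ => j k) a hs h0
    hR Q2 h1 ⟨by
      rintro (i | i)
      exacts [i.elim0, hd' k], by
      rintro (i | i) (i' | i') e
      exacts [i.elim0, i.elim0, i'.elim0, absurd (congrArg _ (Subsingleton.elim _ _)) e]⟩
    (fun h => ⟨hfr h, Even.zero⟩) r4 r5 r6 hMT
  have dd := cd N (by omega) M _ fr T r H Fin.elim0 Fin.elim0 Fin.elim0 a hs h0 hR Q2 h1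
    ⟨by rintro (i | i) <;> exact i.elim0, by rintro (i | i) <;> exact i.elim0⟩
    (fun h => ⟨hfr h, Even.zero⟩) r4 r5 r6 hMT
  have o1 := TiltH.one_le_mx (M := M) (a := a) (hs := hs) (Fin.elim0 : Fin 0 → Site) Fin.elim0 h1.box
    (by omega) hfr
  set R := regOf M (dig Λ P t) fr with hRR
  set e : Fin m → ℝ := fun k => enC q (u ∅) R.pw (yE M y j k) (dE y j k) with he
  set W : (Tor M × Fin 2 → Bool) → ℝ := fun n => ∏ p ∈ P, O p n with hW
  have hy : ∀ k, y k ∈ dig Λ P t ∧ y k + dir (j k) ∈ dig Λ P t := fun k =>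
    ⟨hd' k _ (by simp [zd_self]), hd' k _ ((zd_add_dir _ _).trans (by omega))⟩
  have q1 : lcor (gibbs J lam q.V β (if fr then none else some fun _ => true) Λ) x y j =
      UL.psi (nW q R a hs y j e W Fin.elim0 ∅) (fun k => nW q R a hs y j e W Fin.elim0 {k})
        (nW q R a hs y j e W x) := by
    refine recentre _ Λ _ (fun k σ => sp (σ (y k)) * sp (σ (y k + dir (j k)))) e (fun k => ?_)
      (sec_W (UG.gibbs_one _ _) hG Z0 h1 (fun i => h2.ins (Sum.inl i) _ (by simp [zd_self])) hy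
        (fun _ => hn) e)
    have h := sec_W (x := Fin.elim0) (UG.gibbs_one _ _) hG Z0 h1 (fun i => i.elim0) hy
      (fun _ => Even.zero) e {k}
    simpa only [univ_eq_empty, prod_empty, one_mul, prod_singleton] using h
  set ℓ : ℝ := ((sc L J' : ℕ) : ℝ) with hℓ
  have l0 : 0 < ℓ := by rw [hℓ]; exact_mod_cast (by omega : 0 < sc L J')
  have lN : ℓ ≤ sc L N := by rw [hℓ]; exact_mod_cast (by omega : sc L J' ≤ sc L N)
  have en : ∀ U k, |ℓ * (enC q (u U) R.pw (yE M y j k) (dE y j k) - e k)| ≤ 1 := fun U k => by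
    rw [abs_mul, abs_of_pos l0]
    exact (mul_le_mul_of_nonneg_right lN (abs_nonneg _)).trans
      ((dc k _ (hu U).1 (hu U).2.1 (hu U).2.2.1).2 _ (hu ∅).1 (hu ∅).2.1 (hu ∅).2.2.1 0)
  have b1 : 0 ≤ B₁ := (sum_nonneg fun _ _ => abs_nonneg _).trans s1
  have D1 : 1 ≤ 2 * B₁ * nW q R a hs y j e W Fin.elim0 ∅ := by
    have a1 := nW_eq (a := a) (hs := hs) (y := y) (j := j) (x := Fin.elim0) hT e 1 1 ∅
    simp only [one_pow, one_mul, powerset_empty, sum_singleton, sdiff_self, bot_eq_empty,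
      prod_empty, mul_one] at a1
    have a2 : ∀ U, |mxU q (u U) R a hs y j Fin.elim0 ∅ -
        mx par0 R a hs Fin.elim0 Fin.elim0 Fin.elim0 ∅| ≤ 1 / (2 * (B₁ ^ 2 + 1)) := fun U => by
      have a3 := ((dd _ (hu U).1 (hu U).2.1 (hu U).2.2.1).1 ∅).1
      simp only [Nat.cast_zero, zero_div, Real.rpow_zero, pow_zero, one_mul, card_empty] at a3
      refine le_trans (le_of_eq (congrArg (fun z => |z - _|) ?_)) a3
      simp only [mxU, mixC, univ_eq_empty, prod_empty]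
    generalize mx par0 R a hs Fin.elim0 Fin.elim0 Fin.elim0 ∅ = z at a2 o1
    have a4 : |nW q R a hs y j e W Fin.elim0 ∅ - (∑ U ∈ P.powerset, w U) * z| ≤
        B₁ * (1 / (2 * (B₁ ^ 2 + 1))) := by
      rw [a1, sum_mul, ← sum_sub_distrib]
      refine (abs_sum_le_sum_abs _ _).trans ((sum_le_sum (g := fun U => |w U| *
        (1 / (2 * (B₁ ^ 2 + 1)))) fun U _ => ?_).trans ?_)
      · rw [← mul_sub, abs_mul]
        exact mul_le_mul_of_nonneg_left (a2 U) (abs_nonneg _)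
      · rw [← sum_mul]
        exact mul_le_mul_of_nonneg_right s1 (by positivity)
    have a5 := mul_le_mul_of_nonneg_left (abs_le.1 a4).1 b1
    have a6 : B₁ * (B₁ * (1 / (2 * (B₁ ^ 2 + 1)))) ≤ 1 / 2 := by
      rw [← mul_assoc, mul_one_div, div_le_iff₀ (by positivity)]
      nlinarith
    have a7 := mul_le_mul s2 o1 zero_le_one (by linarith)
    nlinarith
  have D0 : 0 < nW q R a hs y j e W Fin.elim0 ∅ := by
    by_contra h
    nlinarith [mul_nonneg b1 (neg_nonneg.2 (not_lt.1 h))]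
  have dv : ∀ z : ℝ, |z| ≤ B₁ * (2 ^ m * (Ba + Bb)) →
      |z / nW q R a hs y j e W Fin.elim0 ∅| ≤ b := fun z hz => by
    rw [abs_div, abs_of_pos D0, div_le_iff₀ D0, hb]
    have := mul_le_mul_of_nonneg_left D1 (by positivity : 0 ≤ B₁ * (2 ^ m * (Ba + Bb)))
    nlinarith
  have w0 : 0 < ℓ ^ ((n : ℝ) / 8) * ℓ ^ m := by positivity
  rw [← abs_of_pos w0, ← abs_mul, q1, ← psi_scale]
  refine psi_le (le_add_of_nonneg_right (by positivity)) (fun k => dv _ ?_) fun t => dv _ ?_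
  · have := comb_le _ w s1 (add_nonneg hBa hBb) _ en
      (fun U t' => 1 * ℓ ^ t'.card * mxU q (u U) R a hs y j Fin.elim0 t') (fun U t' => by
        have := db _ (hu U).1 (hu U).2.1 (hu U).2.2.1 t'
        rw [Nat.cast_zero, zero_div, Real.rpow_zero] at this
        linarith) {k}
    rwa [← nW_eq hT, card_singleton, pow_one, one_mul] at this
  · rw [nW_eq hT]
    exact comb_le _ w s1 (add_nonneg hBa hBb) _ en _
      (fun U t' => (da _ (hu U).1 (hu U).2.1 (hu U).2.2.1 t').trans (by linarith)) t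

end Vale.Agent.P144Z.DX
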