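import Vale.Agent.P144DX.Half
import Vale.Agent.P144DY.Cont
import Vale.Agent.P144E.Ge1a.Main

/-!
# Block B
-/

namespace Vale.Agent.P144Z.DX

open Finset P144 UL ELat

set_option maxHeartbeats 400000 in
theorem latX {Raw : Finset Site → ℕ → Prop} {Cl : Cls} {q : Par} {L n m : ℕ} (hL2 : 2 ≤ L)
    (hq : q.Ok) (hsm : q.Small 1) (hU : UnivX Cl q L m) (hD : GeoF Raw Cl L) (hn : Even n) :
    P144DY.LatX Raw q n m := by
  intro J lam β rq k Λ₀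
  rcases isEmpty_or_nonempty (Fin n ⊕ Fin m) with he | ⟨⟨i₀⟩⟩
  · obtain rfl : n = 0 := by
      by_contra h
      exact he.false (Sum.inl ⟨0, by omega⟩)
    obtain rfl : m = 0 := by
      by_contra h
      exact he.false (Sum.inr ⟨0, by omega⟩)
    refine ⟨1, 0, fun s r _ _ Λ b x y j _ _ _ _ _ _ => ?_⟩
    simp [lcor, UG.gibbs_one]
  obtain ⟨t, N, Q, JG, ht, hQ, hD⟩ := hD
  obtain ⟨H₀, Qh, hQh, hO⟩ := holesW N ((Λ₀ + 1) * (2 * Q))
  obtain ⟨c, hc⟩ : ∃ c : ℕ, c = 2 * Q * (2 * Qh * (2 * 2 * ((Q + 17) * L))) := ⟨_, rfl⟩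
  have c0 : 0 < c := by rw [hc]; positivity
  obtain ⟨B, J₀, p₀, c₁⟩ := halfX hL2 hU ht hq.x_lo hq.x_hi hsm rq N n H₀
    (2 * (Λ₀ + 1) * c) (k + 1) ((Q + 17) * L) ((4 * ((Λ₀ + 1) * (2 * Q)) + 1) ^ 2) hn (by omega)
  obtain ⟨s₀, hs₀⟩ : ∃ s₀, s₀ = (Q + 17) * sc L (max J₀ JG) := ⟨_, rfl⟩
  refine ⟨(((Q + 17) * L : ℕ) : ℝ) ^ ((n : ℝ) / 8) * (((Q + 17) * L : ℕ) : ℝ) ^ m * B,
    s₀ + 1 + c * p₀ + Q * (Qh * 4) + 4 * t,
    fun s r hs hr Λ b x y j hb hR hΛ hin hsep hnear => ?_⟩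
  have s1 : 1 ≤ s := by omega
  have f0 : Q * (Qh * (2 * (s + 1))) + 4 * t + c * (p₀ * s) ≤ r := by
    have a1 : Q * (Qh * (2 * (s + 1))) ≤ Q * (Qh * (4 * s)) :=
      Nat.mul_le_mul_left _ (Nat.mul_le_mul_left _ (by omega))
    have a2 : 4 * t ≤ 4 * t * s := Nat.le_mul_of_pos_right _ s1
    have a3 : (s₀ + 1 + c * p₀ + Q * (Qh * 4) + 4 * t) * s =
      (s₀ + 1) * s + c * (p₀ * s) + Q * (Qh * (4 * s)) + 4 * t * s := by ring
    omega
  have f1 : Qh * (2 * (s + 1)) ≤ r / Q :=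
    (Nat.le_div_iff_mul_le hQ).2 (by rw [mul_comm]; omega)
  have f2 : 2 * (s + 1) ≤ r / Q / Qh := (Nat.le_div_iff_mul_le hQh).2 (by rw [mul_comm]; omega)
  have f3 : Qh ≤ r / Q := le_trans (Nat.le_mul_of_pos_right _ (by omega)) f1
  have f4 : Q ≤ r := (Nat.le_mul_of_pos_right Q (by omega : 0 < r / Q)).trans (Nat.mul_div_le r Q)
  have f5 : r / Q ≤ r := Nat.div_le_self _ _
  have f6 : r / Q / Qh ≤ r / Q := Nat.div_le_self _ _
  have g1 := le_mul_div hQ f4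
  have g2 := le_mul_div hQh f3
  have g3 := le_mul_div (Q := 2) (r := r / Q / Qh) (by norm_num) (by omega)
  obtain ⟨ρ, hρ⟩ : ∃ ρ, ρ = r / Q / Qh / 2 := ⟨_, rfl⟩
  rw [← hρ] at g3
  obtain ⟨J', m1, m2, m3⟩ := Mn.exists_scale (c := Q + 17) (J := max J₀ JG) (M := s) hL2
    (by omega) (by omega)
  obtain ⟨N', n1, n2, n3⟩ := Mn.exists_scale (c := Q + 17) (J := J') (M := ρ) hL2
    (by omega) (by omega)
  rw [show sc L (J' + 1) = L * sc L J' by unfold sc; ring, ← mul_assoc] at m3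
  rw [show sc L (N' + 1) = L * sc L N' by unfold sc; ring, ← mul_assoc] at n3
  rw [add_mul] at n2 m2
  have s9 := sc_ge (J := J') hL2
  have s8 := sc_ge (J := N') hL2
  have e1 : (Λ₀ + 1) * r = Λ₀ * r + r := by ring
  have e4 : r ≤ c * sc L N' := by
    rw [hc]
    simp only [mul_assoc] at g1 g2 g3 n3 ⊢
    refine g1.trans (by gcongr; refine g2.trans (by gcongr; exact g3.trans (by gcongr)))
  have e3 : p₀ * s ≤ sc L N' := Nat.le_of_mul_le_mul_left (by omega) c0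
  have e5 : 2 * ((Λ₀ + 1) * r) ≤ 2 * (Λ₀ + 1) * c * sc L N' := by
    simp only [mul_assoc]
    gcongr
  have e6 : (Λ₀ + 1) * r ≤ (Λ₀ + 1) * (2 * Q) * (r / Q) := by
    rw [mul_assoc]
    gcongr
  have e7 : 2 * ((Λ₀ + 1) * r + t) ≤ 4 * ((Λ₀ + 1) * (2 * Q)) * (r / Q + 1) := by
    rw [mul_assoc 4, mul_add_one ((Λ₀ + 1) * (2 * Q))]
    omega
  set T := (Λ₀ + 1) * r with hT
  have hΛ' : ∀ v ∈ Λ, zd v 0 ≤ T := fun v hv => (hΛ v hv).trans (by omega)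
  have : NeZero (64 * (2 * T)) := ⟨by omega⟩
  set M := 64 * (2 * T) with hMd
  obtain ⟨P, p1, p0, sW⟩ := hD Λ r T hR f4 (by omega) hΛ'
  obtain ⟨sW, hB⟩ := sW M (by omega)
  obtain ⟨fr, H, hH', a, hs', rfl, h1, hcn, hfr⟩ : ∃ fr : Bool, ∃ H ≤ H₀, ∃ a,
      ∃ hs' : Fin H → Site, b = (if fr then none else some fun _ => true) ∧
      Holes (dig Λ P t) (2 * T) ρ a hs' ∧ (fr = false → Cn M (dig Λ P t) a hs') ∧
      (fr = true → H = 0) := by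
    obtain ⟨H, hH', a, hs', h1, hcn⟩ := hO (dig Λ P t) T (r / Q) M sW f3 (by omega) e6
      (fun v hv => hΛ' v (mem_dig.1 hv).1) (by omega)
    have h2 := holes_mono h1 (r' := ρ) (by omega)
    rcases hb with rfl | rfl
    · exact ⟨true, 0, Nat.zero_le _, a, Fin.elim0, rfl, ⟨h2.box, h2.a_le, fun i => i.elim0,
        h2.a_out, fun i => i.elim0, fun i => i.elim0, fun i => i.elim0⟩, by simp, fun _ => rfl⟩
    · exact ⟨false, H, hH', a, hs', rfl, h2, fun _ => hcn, by simp⟩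
  have dp : ∀ i v, zd v (Sum.elim x y i) ≤ ρ → v ∈ dig Λ P t := fun i =>
    (spins_dig (r' := ρ) (x := fun _ : Unit => Sum.elim x y i)
      ⟨fun _ => hin i, fun _ _ e => absurd rfl e⟩ (fun p hp => (p1 p hp).2) (by omega)).ins ()
  have d₁ := c₁ J' (le_of_max_le_left m1) N' M Λ P fr _ ρ s H x y j a hs' (Sum.elim x y i₀) hH'
    (sW.mono (by omega))
    (fun B h => hB fr B (s - 1) J' h (by omega) (le_of_max_le_right m1) (by omega))
    (fun B h => hB fr B (ρ - 1) N' h (by omega) ((le_of_max_le_right m1).trans n1) (by omega))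
    h1 hcn ⟨fun i v hv => dp i v (by omega), hsep⟩ hfr (dp i₀) (fun k => dp (Sum.inr k))
    (fun i => (hnear i i₀).trans (Nat.mul_le_mul_right _ (Nat.le_succ _))) (by omega) m3 e3
    (by omega) (by omega) e5 rfl (fun p hp => (p1 p hp).1.trans (by omega))
    (fun p hp p' hp' e => lt_of_le_of_lt (by omega) (p0 p hp p' hp' e))
    (B5a2.card_net (fun p hp => (p1 p hp).1) p0 e7)
  have m4 : (s : ℝ) ≤ (((Q + 17) * L : ℕ) : ℝ) * (sc L J' : ℝ) := by exact_mod_cast m3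
  have h0 : (0 : ℝ) ≤ (((Q + 17) * L : ℕ) : ℝ) := Nat.cast_nonneg _
  generalize (((Q + 17) * L : ℕ) : ℝ) = κ at m4 h0 ⊢
  refine le_trans ?_ (mul_le_mul_of_nonneg_left d₁ (by positivity))
  have h0' := abs_nonneg (lcor (gibbs J lam q.V β (if fr then none else some fun _ => true) Λ) x y j)
  generalize |lcor _ x y j| = u at h0' ⊢
  calc _ ≤ u * (κ * (sc L J' : ℝ)) ^ ((n : ℝ) / 8) * (κ * (sc L J' : ℝ)) ^ m := by gcongr
    _ = _ := by
      rw [Real.mul_rpow h0 (Nat.cast_nonneg _), mul_pow]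
      ring

theorem latB : P144DY.LatB := by
  obtain ⟨ε₀, hε₀, h⟩ := genX
  refine ⟨ε₀, hε₀, fun ε hε hε' => ?_⟩
  obtain ⟨L₀, h⟩ := h ε hε hε'
  refine ⟨L₀ + 2, fun L hL => ?_⟩
  obtain ⟨η₀, hη₀, h⟩ := h L (by omega)
  refine ⟨η₀, hη₀, fun R => ?_⟩
  obtain ⟨δ₀, hδ₀, h⟩ := h R
  refine ⟨min δ₀ 1, by positivity, fun q hR hq Raw N k₀ hG n m _ hn => ?_⟩
  obtain ⟨k₁, h⟩ := h q hR (hq.mono le_rfl (min_le_left _ _)) m N
  exact latX (by omega) hq.ok (le_trans hq.small (min_le_right _ _)) (h _ (le_max_left k₁ k₀))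
    (hG _ (le_max_right _ _)) hn

theorem blkB : P144DD.BlkB := P144DY.blkB_of latB

end Vale.Agent.P144Z.DX
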