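import Vale.Agent.P144DX.VTop
import Vale.Agent.P144D.PS.Init

/-!
# The flow with sources at the bottom scale
-/

namespace Vale.Agent.P144Z.DV

open Finset Matrix

section

open Vale.Agent.P144Z.Geo Vale.Agent.P144Z.R5

theorem initY (τ h : ℝ) (hτ : 0 ≤ τ) (hh : 0 < h) : ∃ σ ≥ (0 : ℝ), ∀ ε > (0 : ℝ), ∃ β > (0 : ℝ),
    ∀ R : ℕ, ∃ C : ℝ, 1 ≤ C ∧ ∀ q : Par, q.R = R → q.Ok → ∀ δ γ, q.Small δ →
    C * δ + 10000 * γ ≤ 1 → ∀ g : Geo, g.OkW → Fintype.card g.K ≤ 4 →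
    (∀ k, ∀ v ∈ (g.src k).Y, zd v 0 ≤ 1) → ∀ c : Cor g.M, c.Ok → c.Wt σ γ →
      NormedSpace.exp (∑ U, g.W0C q c U) =
        g.E0 (q.x * q.Z) (NormedSpace.exp (∑ X, g.HinC q c X)) ∧
      Anch 8 τ (fun U => g.pn 8 h β U (g.W0C q c U)) (C * δ + 10000 * γ + ε) := by
  have hk := kp0_nonneg (2 * h)
  have hσ : 0 ≤ τ + kp0 (2 * h) + 2 := by positivity
  set σ := τ + kp0 (2 * h) + 2 with hσ'
  refine ⟨σ, hσ, fun ε hε => ?_⟩
  set β := min (1 / 96) (ε / 1156) / (Real.exp (σ * (1 + (1 * (2 * 1 + 1) ^ 2 : ℕ))) * 4) with hβ0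
  have hβ : 0 < β := by positivity
  refine ⟨β, hβ, fun R => ⟨10000 * cR σ R, by linarith [one_le_cR hσ R], ?_⟩⟩
  rintro q rfl hq δ γ hδ hC g hg hK hY c hc hw
  have γ0 := hw.nonneg
  obtain ⟨d, hd1, hd2⟩ := hw
  obtain ⟨𝓛, h1, h2⟩ := W.Geo.exists_locSys hg.sign (by norm_num : 1 ≤ 8) hh hβ
  have hE := W.R5.isExp_E0 hg h1 h2 hh hβ (abs_w hq)
  have d1 : Pt σ (fun X => (fS 𝓛).p X (W.R5.Hc g c X)) γ := hd2.mono (fun X => fS_le fun n => by
    rw [W.R5.Hc, 𝓛.p_smul]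
    exact (mul_le_of_le_one_right (abs_nonneg _) (𝓛.p_one X)).trans (hd1 X n)) le_rfl
  have b4 := mul_nonneg (zero_le_one.trans (one_le_cR hσ q.R)) (small_nonneg hδ)
  have b1 := ((pt_small (𝓛 := 𝓛) hσ hδ).add d1).mono
    (f' := fun X => (fS 𝓛).p X (Hu g q.R q.V q.μ X + W.R5.Hc g c X))
    (fun X => (fS 𝓛).p_add X _ _) le_rfl
  have b2 : Pt σ (fun X => (fS 𝓛).p X (Hs g X)) (min (1 / 96) (ε / 1156)) := by
    refine (pt_terms (c := (1 * (2 * 1 + 1) ^ 2 : ℕ)) (N := 4 * β) hσ univ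
      (fun k => g.put (g.src k).y (g.src k).Y) (fun _ => β) (fun _ _ => hβ.le)
      (fun k _ => by
        exact_mod_cast stein_le_of_ball (r := 1) fun x hx => tdist_put (fun v hv => by
          simpa [zd] using hY k v hv) hx) fun y => ?_).mono (fun X => ?_) ?_
    · rw [sum_const, nsmul_eq_mul]
      exact mul_le_mul_of_nonneg_right (by exact_mod_cast (card_le_univ _).trans hK) hβ.le
    · refine (B3.p_sum_le _ _ _ _).trans (sum_le_sum fun k hk => fS_le fun n => ?_)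
      rw [hs, 𝓛.p_smul]
      refine (mul_le_of_le_one_left (𝓛.p_nonneg _ _) ((hg.src k).bd _)).trans ?_
      rw [h2]
      exact W.Geo.pn_bv k hg.sign (by norm_num) hh hβ
        ((mem_filter.1 hk).2 ▸ self_mem_put (g.src k).y (hg.src k).zero)
    · rw [hβ0]
      apply le_of_eq
      field_simp
  have b8 := min_le_left (1 / 96 : ℝ) (ε / 1156)
  have b9 := min_le_right (1 / 96 : ℝ) (ε / 1156)
  have b3 := (b1.add b2).mono (f' := fun X => (fS 𝓛).p X (g.HinC q c X))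
    (fun X => by rw [W.R5.HinC_eq]; exact (fS 𝓛).p_add X _ _) le_rfl
  have m1 : ∀ X, g.HinC q c X ∈ (fS 𝓛).sub X := fun X => by
    rw [W.R5.HinC_eq]
    exact add_mem (add_mem (Hu_mem _ _ _ X) (W.R5.Hc_mem hc X)) (W.R5.Hs_mem hg h1 X)
  obtain ⟨-, c1, c2⟩ := pt_cl exp_ev_injective hk hτ hE (W.R3W.HinC_empty hg hc q) m1
    (by linarith) b3
  refine ⟨c2, anch_mono (c1.anch hτ fun _ => 𝓛.p_nonneg _ _) (fun U => ?_) (by linarith)⟩
  rw [h2, W0C]

end

theorem bdU_const {M : ℕ} [NeZero M] {A : Gauge M} {L ℓ n₂ : ℕ} {c κ s ε Θ : ℝ} (hΘ : 1 ≤ Θ)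
    (hκ : 0 < κ) (hκ' : 8 * κ ≤ 1) (hb : bdlW L 8 c κ s n₂ ≤ ε)
    (H : BdW A ℓ (L * ℓ) 8 c κ s n₂) : BdU A L ℓ c ε (fun _ => Θ) fun _ => Θ := by
  classical
  refine ⟨H.sch, fun _ => hΘ, fun _ _ _ => le_rfl, fun z => ?_⟩
  obtain ⟨Z₁, Z₂, h1, h2, h3, h4⟩ := H.cov z
  refine ⟨κ, Z₁, Z₂.image fun y => (y, Θ), hκ, hκ', h2, fun y hy _ _ => ?_, ?_, fun x a b =>
    (h4 x a b).imp_right (Or.imp_right fun ⟨y, hy, e⟩ => ⟨_, mem_image_of_mem _ hy, e⟩)⟩
  · obtain ⟨y, -, rfl⟩ := mem_image.1 hy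
    exact le_rfl
  · rw [sum_image fun _ _ _ _ e => congrArg Prod.fst e, sum_const, nsmul_eq_mul]
    refine le_trans ?_ (mul_le_mul_of_nonneg_right hb (by linarith))
    have h5 : (Z₂.card : ℝ) ≤ n₂ := by exact_mod_cast h1
    rw [bdlW]
    calc _ ≤ ((L : ℝ) ^ 2 * κ ^ 2 + 81 * s / L) * Θ + 81 * c ^ 2 / L * (n₂ * Θ) := by gcongr
      _ = _ := by push_cast; ring

open W W.FD FM DX in
set_option maxHeartbeats 400000 in
theorem flowOffS (hS : StepY) : FlowOffS := by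
  classical
  obtain ⟨ε₂, hε₂, L₂, hS⟩ := hS
  obtain ⟨Cb, hCb, hbf⟩ := W.Geo.ag_bfC
  refine ⟨ε₂, hε₂, fun ε hε hε2 => ⟨max L₂ 20, fun L hL => ?_⟩⟩
  have hL20 : 20 ≤ L := le_of_max_le_right hL
  have hL16 : 16 ≤ L := by omega
  have hL1 : 1 ≤ L := by omega
  have hL' : (1 : ℝ) ≤ L := by exact_mod_cast hL1
  obtain ⟨C, Θ, hC, hΘ, hS⟩ := hS L (le_of_max_le_left hL)
  obtain ⟨σ, hσ, hI⟩ := initY (2 * L) (L ^ 2) (by positivity) (by positivity)
  obtain ⟨Ci, hCi, hD⟩ := W.Geo.init_df_off (2 * L) (L ^ 2) (by positivity) (by positivity)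
  obtain ⟨d, hd, d1⟩ : ∃ d > (0 : ℝ), 16 * C * Θ ^ 2 * d = 1 :=
    ⟨1 / (16 * C * Θ ^ 2), by positivity, by field_simp⟩
  have d2 : d ≤ 1 := by
    have := one_le_mul_of_one_le_of_one_le hC (one_le_pow₀ (n := 2) hΘ)
    exact (le_mul_of_one_le_left hd.le (by linarith : 1 ≤ 16 * C * Θ ^ 2)).trans_eq d1
  obtain ⟨β, hβ, hI⟩ := hI (d / 16) (by positivity)
  refine ⟨σ, hσ, min (d / (2 * (40000 + Ci))) (d / (8 * C * (Cb * Real.exp L))), by positivity,
    fun η hη hη' R₀ => ?_⟩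
  obtain ⟨e1, e2⟩ := le_min_iff.1 hη'
  rw [le_div_iff₀ (by positivity)] at e1 e2
  obtain ⟨Cq, hCq, hI⟩ := hI R₀
  refine ⟨d / (16 * Cq), by positivity, fun q hR hq N₁ => ?_⟩
  obtain ⟨Ω, hΩ, hW⟩ := wtS L N₁ hL20
  obtain ⟨k₁, hk₁⟩ := pow_unbounded_of_one_lt (Ω ^ 2) (one_lt_two (α := ℝ))
  refine ⟨k₁, fun k hk Λ H hH => ?_⟩
  obtain ⟨p, hp⟩ := pow_unbounded_of_one_lt H (one_lt_two (α := ℝ))
  set T : ℝ := (32 * Λ + 1) ^ 2 with hT
  have hT1 : 1 ≤ T := one_le_pow₀ (by have : (0 : ℝ) ≤ Λ := Nat.cast_nonneg Λ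
                                      linarith)
  have x0 : 0 < C * Ω * (Θ * d) := by positivity
  have x1 := mul_le_mul_of_nonneg_right hT1 x0.le
  refine ⟨β / 8, by positivity, 4 * (T * (C * Ω * (Θ * d))), by positivity, max k p,
    fun g N hN hJ P hon hY ⟨Tp, hTp, ⟨c₀, hc₀, hc₀L, hb₀⟩, c', hc', hcL', hb'⟩ u hu hf hs => ?_⟩
  obtain ⟨j1, j2⟩ := max_le_iff.1 hN
  obtain ⟨ω, hω, hW⟩ := hW g.M Tp
  have hr := rad_min hL1 p
  set h := fun j => (L : ℝ) ^ 2 * 2 ^ min j p with hh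
  have hh0 : ∀ j, 0 < h j := fun j => by positivity
  have h8 : ∀ j, 8 ≤ sc L j := Mn.eight_le_sc hL1
  have s0 : sc L 0 = 8 := by simp [sc]
  have hβe : β / 8 * sc L 0 = β := by rw [s0]; push_cast; ring
  have e3 : Cq * (d / (16 * Cq)) = d / 16 := by field_simp
  have e4 : 0 ≤ Ci * η := by positivity
  obtain ⟨i1, i2⟩ := hI q hR hq.ok _ η hq.small (by linarith) g P.ok P.card hY u hu hs
  have i3 := anch_tau (hD g P.ok u hu q η hq.ok hq.x hq.Z β _ hβ hon i2)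
    (fun X => add_nonneg (RN.pn_nonneg _) (RN.pn_nonneg _)) (show (L : ℝ) ≤ 2 * L by linarith)
  have wf := W.Geo.wf_flowC P.ok hu L q
  have hM : ∀ j < N, 16 * (L * sc L j) ≤ g.M := fun j hj => by
    have h1 : L * sc L j ≤ sc L N := by rw [← sc_succ]; exact sc_mono hL1 hj
    have := P.M1
    omega
  set b := Cb * Real.exp L * η with hb
  have hb0 : 0 ≤ b := by positivity
  have b1 : 8 * C * b ≤ d := by rw [hb]; linarith
  have b2 : b ≤ d := (le_mul_of_one_le_left hb0 (by linarith : 1 ≤ 8 * C)).trans b1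
  have hbf' : ∀ j ≤ N, Anch (sc L j) L (g.bf (sc L j) (h j) (g.flowC L q u j)) (b / 2 ^ j) :=
    fun j hj => by
      refine anch_mono (hbf L (by omega) q η hq.ok hq.bulk g P.ok u hu hf P.R_le j
        ((Nat.mul_le_mul_left _ (sc_mono hL1 hj)).trans P.M1))
        (bf_mono (by have := h8 j; omega) (hh0 j) (hr.hi j) (wf j)) ?_
      refine (mul_le_mul_of_nonneg_left (th_pow hL16 j) hb0).trans ?_
      rw [← mul_div_assoc, mul_one_div]
      exact div_pow_le (by positivity) j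
  have dΘ : d ≤ d * Θ := le_mul_of_one_le_right hd.le hΘ
  obtain ⟨k1, k2⟩ := ind (g := g) (J := 0) (N := k) (d := d) (h := h) (β := β) (Ω := Θ)
    (ω := fun ℓ _ => if ℓ = 8 then 1 else Θ) hC (fun ℓ _ => by split_ifs <;> simp [hΘ])
    (fun j _ hj => by
      obtain ⟨κ, s, n₂, a1, a2, a3, a4, a5⟩ := hb₀ j hj
      have a6 := hS g j _ _ β c₀ P.ok.sign P.nf P.card (by omega) (hM j (by omega)) (hr.lo j)
        (hr.h1 j) (hr.h2 j) hβ hc₀ (hc₀L.trans (by gcongr))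
      have a7 : L * sc L j ≠ 8 := by
        have := Nat.mul_le_mul hL20 (h8 j)
        omega
      rcases Nat.eq_zero_or_pos j with rfl | h0
      · simp only [if_neg a7, if_pos s0]
        exact a6.2 a5.sch
      · have a8 : sc L j ≠ 8 := by
          have := sc_mono hL1 (show 1 ≤ j from h0)
          have h5 : sc L 1 = 8 * L := by simp [sc]
          omega
        simp only [if_neg a7, if_neg a8]
        rw [if_neg h0.ne'] at a4
        exact a6.1 _ _ (bdU_const hΘ a1 a2 (a4.trans (by linarith)) a5))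
    (flowC_succ L q) wf hb0 b1 (by
      linarith [mul_le_mul_of_nonneg_left (b2.trans dΘ) (by positivity : 0 ≤ C * Θ)])
    hΘ (by rw [s0, hr.h0]; exact anch_le i3 (by linarith)) fun j _ hj => hbf' j (by omega)
  have p2 : (0 : ℝ) < 2 ^ k := by positivity
  have y0 : d * Θ * Ω + b ≤ 2 * Ω * (Θ * d) := by
    linarith [le_mul_of_one_le_right (by positivity : 0 ≤ d * Θ) hΩ]
  have z1 : d / 2 ^ k * Θ * Ω + b / 2 ^ k ≤ 2 * Ω * (Θ * d) / 2 ^ k := by
    rw [div_mul_eq_mul_div, div_mul_eq_mul_div, ← add_div]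
    exact div_le_div_of_nonneg_right y0 p2.le
  obtain ⟨k3, k4⟩ := ind (g := g) (J := k) (N := N) (d := d / 2 ^ k * Θ) (h := h) (β := β)
    (b := b / 2 ^ k) hC hω (fun j hj hjN => by
      have := h8 j
      have h1 : L * sc L j ≤ sc L N := by rw [← sc_succ]; exact sc_mono hL1 hjN
      obtain ⟨κ, s, n₂, a3, a4, a7, a5, a6⟩ := hb' j hj hjN
      exact (hS g j _ _ β c' P.ok.sign P.nf P.card (by omega) (hM j hjN) (hr.lo j) (hr.h1 j)
        (hr.h2 j) hβ hc' (hcL'.trans (by gcongr))).1 _ _ (RgU.bdU_mono (hW g.A (sc L j) n₂ c' κ s ε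
          (by omega) (fun p a p' a' h => by have := hTp p a p' a' h; omega) hcL' a3 a4 a7 a5 a6)
          (by linarith)))
    (flowC_succ L q) wf (by positivity)
    (by
      rw [← mul_div_assoc, div_mul_eq_mul_div]
      exact div_le_div_of_nonneg_right (b1.trans dΘ) p2.le)
    (by
      have a1 : Ω ^ 2 ≤ 2 ^ k := hk₁.le.trans (pow_le_pow_right₀ one_le_two hk)
      calc _ ≤ 8 * (C * (2 * Ω * (Θ * d) / 2 ^ k)) * Ω := by gcongr
        _ = 16 * C * Θ * d * (Ω ^ 2 / 2 ^ k) := by ring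
        _ ≤ 16 * C * Θ ^ 2 * d * 1 := by
            have a2 : Θ ≤ Θ ^ 2 := le_self_pow₀ hΘ two_ne_zero
            have a3 := div_le_one_of_le₀ a1 p2.le
            gcongr
        _ = 1 := by rw [d1, one_mul]) hΩ (k1 k (Nat.zero_le _) le_rfl) fun j hj hj' => by
      rw [div_div, ← pow_add, Nat.add_sub_cancel' hj]
      exact hbf' j hj'.le
  have y1 : d * Θ + b ≤ 2 * Ω * (Θ * d) := by
    linarith [le_mul_of_one_le_right (by positivity : 0 ≤ d * Θ) hΩ]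
  have k5 : ∀ j < N, g.ExpId (covP (Dm g.A) (sc L j) (sc L (j + 1))) (g.flowC L q u j) ∧
      Anch (sc L (j + 1)) (2 * L) (fun U => g.pn (sc L j) (h j / 2) β U
        (g.intg (sc L j) (L * sc L j) (g.flowC L q u j) U)) (C * (2 * Ω * (Θ * d)) / 2 ^ j) := by
    intro j hj
    rcases lt_or_ge j k with h1 | h1
    · exact (k2 j (Nat.zero_le _) h1).imp_right fun a => anch_le a (by rw [Nat.sub_zero]; gcongr)
    · refine (k4 j h1 hj).imp_right fun a => anch_le a ?_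
      calc _ ≤ C * (2 * Ω * (Θ * d) / 2 ^ k) / 2 ^ (j - k) := by gcongr
        _ = _ := by rw [← mul_div_assoc, div_div, ← pow_add, Nat.add_sub_cancel' h1]
  refine ⟨⟨i1, fun j hj => (k5 j hj).1⟩, fun j hj => ?_, fun j hj hj' => ?_, ?_⟩
  · obtain rfl : j = 0 := by omega
    rw [hβe, s0]
    refine anch_mono i2 (fun U => ?_) ?_
    · split_ifs
      · exact RN.pn_nonneg _
      · exact W.FD.ps_le P.ok.sign (by norm_num) (by positivity) hβ le_rfl
          (W.Geo.W0C_mem P.ok hu q U)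
    · have a1 : d ≤ C * Ω * (Θ * d) := le_mul_of_one_le_left hd.le (by
        have := one_le_mul_of_one_le_of_one_le (one_le_mul_of_one_le_of_one_le hC hΩ) hΘ
        linarith) |>.trans_eq (mul_assoc (C * Ω) Θ d)
      rw [pow_zero, div_one]
      linarith
  · obtain ⟨i, rfl⟩ : ∃ i, j = i + 1 := ⟨j - 1, by omega⟩
    rw [hJ, hβe]
    refine anch_mono (k5 i (by omega)).2 (fun U => ?_) ?_
    · rw [csC_succ]
      exact W.FD.ps_le P.ok.sign (by have := h8 i; omega) (half_pos (hh0 i)) hβ le_rfl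
        ((wf i).Cl_mem (covP_anti (Vale.Agent.P144Z.C.Dm_anti _) _ _) U)
    · rw [Nat.sub_zero, pow_succ, ← div_div, div_right_comm]
      gcongr
      linarith
  · have a1 := W.FD.pn_sum_H (by have := h8 N; omega) (hh0 N) hβ P.M2 (by linarith) (wf N)
      (k3 N j1 le_rfl) (hbf' N le_rfl)
    simp only [Pi.zero_apply, zero_smul, sum_const_zero, sub_zero] at a1
    rw [hJ, hβe]
    refine (RN.pn_mono (by have := h8 N; omega) hH hβ ?_ le_rfl subset_rfl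
      (W.FD.sum_H_mem (wf N))).trans (a1.trans ?_)
    · simp only [hh, min_eq_right j2]
      exact hp.le.trans (le_mul_of_one_le_left (by positivity) (one_le_pow₀ hL'))
    · have a2 : (2 : ℝ) ^ N = 2 ^ k * 2 ^ (N - k) := by rw [← pow_add, Nat.add_sub_cancel' j1]
      rw [← hT, Nat.sub_zero, show d / 2 ^ k * Θ / 2 ^ (N - k) * Ω + b / 2 ^ N =
        (d * Θ * Ω + b) / 2 ^ N by rw [a2]; field_simp, ← mul_div_assoc]
      refine div_le_div_of_nonneg_right ?_ (by positivity)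
      have a4 := le_mul_of_one_le_left (by positivity : 0 ≤ Ω * (Θ * d)) hC
      have := mul_le_mul_of_nonneg_left (by linarith [x0] : d * Θ * Ω + b ≤ 4 * (C * Ω * (Θ * d)))
        (by linarith : 0 ≤ T)
      linarith

theorem blkV : P144DR.BlkV := blkV_off (flowOffS W.Geo.R8.stepY)

end Vale.Agent.P144Z.DV
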