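import Vale.Agent.P144DX.Flow
import Vale.Agent.P144D.I.O.Est0

/-!
# A cluster inside a domain: the exact formula for the mixed correlations
-/

namespace Vale.Agent.P144Z.DX

open Finset Matrix Geo
open Mn hiding Br Gd WW WW_eq br_good en_eq exc_sub mix_eq ok_bare ok_one ps_br ps_cf ps_wt see_en
  ss top_le
open MN hiding gen Z_eq en_eq mix_eq

/-- The sum of the constants. -/
noncomputable def CX (g : Geo) (L : ℕ) (q : Par) (u : Cor g.M) (N : ℕ) : g.E :=
  ∑ j ∈ range (N + 1), ∑ U, g.csC L q u j U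

/-- The last integration. -/
noncomputable def TX (g : Geo) (L : ℕ) (q : Par) (u : Cor g.M) (N : ℕ) : g.E :=
  g.TL (sc L N) (NormedSpace.exp (∑ X, (g.flowC L q u N).H X))

variable {g : Geo} {L N : ℕ} {q : Par} {u : Cor g.M}

theorem noF_CX : g.noF (CX g L q u N) = CX g L q u N := by
  simp only [CX, map_sum, W.I2.noF_csC]

theorem CX_mem : CX g L q u N ∈ g.sub univ := noF_CX (g := g) ▸ LM.noF_mem_univ _

theorem TX_mem : TX g L q u N ∈ g.sub univ := LM.TL_mem' _ _

theorem gen (hZ : q.Z ≠ 0) (h : g.ConvC L q u N) :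
    ∑ n, (cw n * wt g.A q.x n * Real.exp (uint q n + ∑ X, u X n)) •
      NormedSpace.exp (∑ k, (g.src k).O (g.see (g.src k).y n) • g.bv k) =
      (q.Z ^ (2 * g.M ^ 2))⁻¹ • (NormedSpace.exp (CX g L q u N) * TX g L q u N) := by
  have h1 := LM.Om_eq_TL (sc L N) (by rw [I2.noF_exp]; exact congrArg _ noF_CX)
    (W.I2.flow_eqC g u h)
  rw [W.I2.Om_initC g u q hZ] at h1
  rw [CX, TX, ← h1, smul_smul, inv_mul_cancel₀ (pow_ne_zero _ hZ), one_smul]
  exact sum_congr rfl fun n _ => by rw [KP.exp_sum']; simp only [exp_bv]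

theorem Z_eq (hZ : q.Z ≠ 0) (h : g.ConvC L q u N) : ZwC q u g.A 1 =
    (q.Z ^ (2 * g.M ^ 2))⁻¹ * (Real.exp (ag g (CX g L q u N)) * ag g (TX g L q u N)) := by
  have h1 := congrArg (ag g) (gen hZ h)
  simp only [map_sum, map_smul, ag_mul, ag_exp, ag_bv, smul_eq_mul, mul_zero, sum_const_zero,
    Real.exp_zero] at h1
  rw [← h1, ZwC]
  rfl

variable {A' : Gauge g.M}

/-- The contribution of the last integration to the mean energy. -/
noncomputable def tX (g : Geo) (A' : Gauge g.M) (L : ℕ) (q : Par) (u : Cor g.M) (N : ℕ) (k : g.K) : ℝ :=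
  cf (one g A' k) () (TX (one g A' k) L q u N) / ag (one g A' k) (TX (one g A' k) L q u N)

theorem en_eq (hg : g.OkW) (k : g.K) (hon : (g.src k).on = true) (hZ : q.Z ≠ 0)
    (hc : (one g A' k).ConvC L q u N) (h0 : ag _ (TX (one g A' k) L q u N) ≠ 0) :
    ZwC q u A' (g.sgK k) / ZwC q u A' 1 =
      cf (one g A' k) () (CX (one g A' k) L q u N) + tX g A' L q u N k := by
  have h1 : ZwC q u A' 1 = _ := Z_eq (g := one g A' k) hZ hc
  have h2 := congrArg (cf (one g A' k) ()) (gen (g := one g A' k) hZ hc)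
  have h3 := src_one (CX_mem (g := one g A' k) (L := L) (q := q) (u := u) (N := N)) noF_CX ()
    fun _ _ => rfl
  have h3' := src_one (TX_mem (g := one g A' k) (L := L) (q := q) (u := u) (N := N)) (LM.noF_TL _ _) ()
    fun _ _ => rfl
  rw [tX]
  set a := ag _ (CX (one g A' k) L q u N)
  set c := cf (one g A' k) () (CX (one g A' k) L q u N)
  set a' := ag _ (TX (one g A' k) L q u N)
  set c' := cf (one g A' k) () (TX (one g A' k) L q u N)
  rw [h3, h3', exp_add', exp_smul_one, exp_bv] at h2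
  simp only [univ_unique, sum_singleton, exp_bv, map_sum, map_smul, map_add, cf_one, cf_bv,
    smul_eq_mul, smul_mul_assoc, mul_smul_comm, one_mul, mul_one, zero_add, add_mul, mul_add, bv_sq,
    map_zero, mul_zero, add_zero] at h2
  have h4 : ZwC q u A' (g.sgK k) =
      (q.Z ^ (2 * g.M ^ 2))⁻¹ * (Real.exp a * (c * a' + c')) := by
    refine Eq.trans ?_ (h2.trans (by ring))
    rw [ZwC]
    refine sum_congr rfl fun n _ => ?_
    rw [← see_en hg k hon n]
    rfl
  rw [h4, h1]
  have := pow_ne_zero (2 * g.M ^ 2) hZ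
  have := (Real.exp_pos a).ne'
  field_simp

/-- The subtracted sum of the constants. -/
noncomputable def WX (g : Geo) (A' : Gauge g.M) (L : ℕ) (q : Par) (u : Cor g.M) (N : ℕ) : g.E :=
  br g A' (CX g L q u N) (CX (bare g A') L q u N) (fun k => CX (one g A' k) L q u N)

theorem mix_eq (hg : g.OkW) (hon : ∀ k, (g.src k).on = true) (hZ : q.Z ≠ 0)
    (hc : g.ConvC L q u N) (hc0 : (bare g A').ConvC L q u N)
    (hc1 : ∀ k, (one g A' k).ConvC L q u N) (h1 : ∀ k, ag _ (TX (one g A' k) L q u N) ≠ 0)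
    (top : g.E →ₗ[ℝ] ℝ)
    (ht : ∀ a : g.K → ℝ, top (NormedSpace.exp (∑ k, a k • g.bv k)) = ∏ k, a k) :
    g.mixD A' q u = top (NormedSpace.exp (WX g A' L q u N - ∑ k, tX g A' L q u N k • g.bv k) *
      TX g L q u N) / ag _ (TX (bare g A') L q u N) := by
  rw [mixD]
  simp only [fun k => en_eq hg k (hon k) hZ (hc1 k) (h1 k)]
  have h5 : ZwC q u A' 1 = _ := Z_eq (g := bare g A') hZ hc0
  set a := ag _ (CX (bare g A') L q u N) with ha
  set c := fun k => cf (one g A' k) () (CX (one g A' k) L q u N) + tX g A' L q u N k with hcc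
  have h1 := congrArg (fun F => top (F * NormedSpace.exp (-∑ k, c k • g.bv k))) (gen hZ hc)
  simp only [sum_mul, smul_mul_assoc, ← exp_add', map_sum, map_smul, smul_eq_mul] at h1
  have h2 : CX g L q u N + -∑ k, c k • g.bv k =
      a • (1 : g.E) + (WX g A' L q u N - ∑ k, tX g A' L q u N k • g.bv k) := by
    simp only [WX, br, hcc, add_smul, sum_add_distrib]
    abel
  have h3 : ∀ n : g.Cfg, ∑ k, (g.src k).O (g.see (g.src k).y n) • g.bv k + -∑ k, c k • g.bv k
      = ∑ k, (g.sgK k n - c k) • g.bv k := by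
    intro n
    simp only [sub_smul, sum_sub_distrib, see_en hg _ (hon _)]
    rw [sub_eq_add_neg]
  simp only [h3, ht] at h1
  rw [mul_right_comm, ← exp_add', h2, exp_add', exp_smul_one, smul_mul_assoc, one_mul,
    smul_mul_assoc, map_smul, smul_eq_mul] at h1
  have h4 : ZwC q u g.A (fun n => ∏ k, (g.sgK k n - c k)) = _ := h1
  rw [h4, h5]
  have := pow_ne_zero (2 * g.M ^ 2) hZ
  have := (Real.exp_pos a).ne'
  field_simp

end Vale.Agent.P144Z.DX
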