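import Vale.Agent.P144DX.Step
import Vale.Agent.P144Z.E5.Main

/-!
# The spectral gap with a cluster of fluxes inside a domain
-/

namespace Vale.Agent.P144Z.DX

open Finset Matrix E5

variable {M : ℕ} [NeZero M]

theorem Dm_pt {A A' : Gauge M} {c : Tor M} {ρ : ℕ} (h : ∀ e, tdist e.1 c ≤ ρ → A e = A' e)
    (φ : Tor M × Fin 4 → ℝ) {s : Tor M × Fin 4} (hs : tdist s.1 c + 1 ≤ ρ) :
    (Dm A *ᵥ φ) s = (Dm A' *ᵥ φ) s := by
  have := W.Dm_pow_congr (A := A) (A' := A') (z := c) φ 1 (tdist s.1 c)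
    (fun e he => h e (by omega)) s.1 s.2 le_rfl
  simpa only [pow_one] using this

theorem small (Λ : ℕ) : ∃ K : ℝ, 0 ≤ K ∧ ∀ (M : ℕ) [NeZero M] (A A₁ A₁' : Gauge M) (c : Tor M)
    (R r m : ℕ), Cluster A₁ A₁' c R r → (∀ e, tdist e.1 c ≤ 2 * m + 1 → A e = A₁ e) →
    (∃ f, flux A₁ f = -1) → 256 ≤ r → r ≤ R → R ≤ Λ * r → 4 * R ≤ m → 16 * R ≤ M →
    ∀ φ : Tor M × Fin 4 → ℝ, (m : ℝ) / R * l2sq (ball c (4 * R)) φ ≤
      K * (l2sq univ φ + m ^ 2 * l2sq univ (Dm A *ᵥ φ)) := by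
  obtain ⟨K, hK, hk⟩ := cluster_est Λ
  obtain ⟨C, hC, hc⟩ := cut_est
  refine ⟨K * (4 * C + 4), by positivity, fun M _ A A₁ A₁' c R r m h hA hf h1 h2 h3 h4 h5 φ => ?_⟩
  obtain ⟨η, e0, e1, e2, e3⟩ := hc M A₁ h.sign c m m (by omega)
  have k1 := hk M A₁ A₁' c R r h hf h1 h2 h3 h5 fun s => η s.1 * φ s
  rw [l2sq_congr (g := φ) fun s hs => by
    rw [e1 _ ((mem_ball.1 hs).trans h4), one_mul]] at k1
  have k2 := l2sq_add_le univ (Dm A₁ *ᵥ (fun s => η s.1 * φ s) - fun s => η s.1 * (Dm A₁ *ᵥ φ) s)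
    fun s => η s.1 * (Dm A₁ *ᵥ φ) s
  rw [sub_add_cancel] at k2
  have k3 := l2sq_cut e0 (B := ball c (2 * m)) (fun x hx => e2 x (by
    rw [mem_ball] at hx
    omega)) (Dm A₁ *ᵥ φ)
  rw [← l2sq_congr (f := Dm A *ᵥ φ) fun s hs => Dm_pt hA φ (by
    have := mem_ball.1 hs
    omega)] at k3
  replace k3 := k3.trans (l2sq_le_univ _ _)
  have k4 := (e3 φ).trans (mul_le_mul_of_nonneg_left (l2sq_le_univ _ φ) (by linarith))
  have k5 := l2sq_cut e0 (B := univ) (by simp) φ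
  have hN := l2sq_nonneg univ φ
  have hN' := l2sq_nonneg univ fun s => η s.1 * φ s
  have hE := l2sq_nonneg univ (Dm A *ᵥ φ)
  have hE' := l2sq_nonneg univ (Dm A₁ *ᵥ fun s => η s.1 * φ s)
  have hR : (0 : ℝ) < R := by exact_mod_cast (by omega : 0 < R)
  have hm : (R : ℝ) ≤ m := by exact_mod_cast (by omega : R ≤ m)
  generalize l2sq univ (Dm A₁ *ᵥ fun s => η s.1 * φ s) = E' at *
  generalize l2sq univ (fun s => η s.1 * φ s) = N' at *
  generalize l2sq univ (Dm A *ᵥ φ) = E at *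
  generalize l2sq univ φ = N at *
  have k6 : m * (√N' * √E') ≤ N + m ^ 2 * E' := by
    nlinarith [Real.sq_sqrt hN', Real.sq_sqrt hE', sq_nonneg (√N' - m * √E')]
  have k7 : (m : ℝ) ^ 2 * E' ≤ 2 * (C * N) + 2 * (m ^ 2 * E) := by
    nlinarith [mul_le_mul_of_nonneg_left k2 (sq_nonneg (m : ℝ)),
      mul_le_mul_of_nonneg_left k3 (sq_nonneg (m : ℝ))]
  have k8 : 0 ≤ (m : ℝ) ^ 2 * E := by positivity
  calc _ ≤ (m : ℝ) / R * (K * (R ^ 2 * E' + R * (√N' * √E'))) := by gcongr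
    _ = K * (m * R * E' + m * (√N' * √E')) := by field_simp
    _ ≤ K * (m * m * E' + (N + m ^ 2 * E')) := by gcongr
    _ ≤ K * ((4 * C + 4) * (N + m ^ 2 * E)) := by
        refine mul_le_mul_of_nonneg_left ?_ (by linarith)
        nlinarith [mul_le_mul_of_nonneg_right hC k8]
    _ = _ := by ring

theorem gapX (Λ : ℕ) {Γ : ℝ} (hΓ : 1 ≤ Γ) : ∃ p : ℕ, ∀ (M : ℕ) [NeZero M] (A A₀ : Gauge M)
    (c : Tor M) (R r ρ m : ℕ), LocX A A₀ c R r ρ → (∃ f, flux A f = -1) → 256 ≤ r → r ≤ R →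
    R ≤ Λ * r → p * R ≤ m → 2 * m + 1 ≤ ρ → 2 * m + 1 ≤ M →
    (∀ φ, l2sq univ φ ≤ (Γ * m) ^ 2 * l2sq univ (Dm A₀ *ᵥ φ)) →
    ∀ φ, l2sq univ φ ≤ (3 * Γ * m) ^ 2 * l2sq univ (Dm A *ᵥ φ) := by
  obtain ⟨K, hK, hk⟩ := small Λ
  obtain ⟨C, hC, hc⟩ := cut_est
  obtain ⟨Cf, hCf, hf⟩ := flat_est
  set κ := 2 + 16 * (Cf * Γ ^ 2 * C) with hκ
  refine ⟨16 + ⌈(4 * (κ * K)) ^ 2⌉₊, fun M _ A A₀ c R r ρ m H ⟨f, hfl⟩ h1 h2 h3 h4 h5 h6 hG φ => ?_⟩
  rw [add_mul] at h4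
  have hn := H.near (by omega) hfl
  obtain ⟨A₁, A₁', h, hA, hA₀⟩ := H.loc
  have hR : (0 : ℝ) < R := by exact_mod_cast (by omega : 0 < R)
  have hm : (R : ℝ) ≤ m := by exact_mod_cast (by omega : R ≤ m)
  have k0 := hk M A A₁ A₁' c R r m h (fun e he => hA e (by omega)) ⟨f, by
    rw [← hfl]
    exact (flux_congr fun e he => hA e (by have := tdist_triangle e.1 f c; omega)).symm⟩
    h1 h2 h3 (by omega) (by omega) φ
  obtain ⟨η, e0, e1, e2, e3⟩ := hc M A₁ h.sign c (R + 1) R (by omega)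
  have e0' : ∀ x, 0 ≤ 1 - η x ∧ 1 - η x ≤ 1 := fun x => ⟨by linarith [(e0 x).2], by
    linarith [(e0 x).1]⟩
  have sp : ∀ (B : Gauge M) (s : Tor M × Fin 4), 2 * R + 1 < tdist s.1 c →
      (Dm B *ᵥ (fun s => η s.1 * φ s) - fun s => η s.1 * (Dm B *ᵥ φ) s) s = 0 := fun B s hs => by
    have k := Dm_local B (φ := fun s => η s.1 * φ s) (φ' := 0) (z := s.1) (r := 0) 1
      (fun t ht => by
        have t1 := tdist_triangle s.1 t.1 c
        rw [tdist_comm s.1 t.1] at t1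
        rw [e2 _ (by omega), zero_mul, Pi.zero_apply]) s (by rw [tdist_self])
    rw [pow_one, mulVec_zero] at k
    rw [Pi.sub_apply, k, e2 _ (by omega), zero_mul, Pi.zero_apply, sub_zero]
  set s := Dm A₁ *ᵥ (fun s => η s.1 * φ s) - fun s => η s.1 * (Dm A₁ *ᵥ φ) s with hs
  have a0 : (Dm A *ᵥ (fun s => η s.1 * φ s) - fun s => η s.1 * (Dm A *ᵥ φ) s) = s := by
    funext u
    rcases lt_or_ge (2 * R + 1) (tdist u.1 c) with hu | hu
    · exact (sp A u hu).trans (sp A₁ u hu).symm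
    · rw [hs, Pi.sub_apply, Pi.sub_apply, Dm_pt hA _ (by omega), Dm_pt hA φ (by omega)]
  have a1 : Dm A₀ *ᵥ (fun s => (1 - η s.1) * φ s) =
      (fun s => (1 - η s.1) * (Dm A *ᵥ φ) s) - s := by
    rw [← Dm_congr H.out fun s hs => by rw [e1 _ hs, sub_self, zero_mul], ← a0]
    have : (fun s : Tor M × Fin 4 => (1 - η s.1) * φ s) = φ - fun s => η s.1 * φ s := by
      funext s
      simp only [Pi.sub_apply]
      ring
    rw [this, mulVec_sub]
    funext s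
    simp only [Pi.sub_apply]
    ring
  have a4 := (e3 φ).trans (mul_le_mul_of_nonneg_left
      (l2sq_mono (ball_mono c (by omega : R + 1 + R ≤ 4 * R)) φ) (by linarith))
  have hS := l2sq_nonneg univ s
  have t1 : 1 ≤ (m : ℝ) / R := (one_le_div hR).2 hm
  have q1 : 1 ≤ √((m : ℝ) / R) := Real.one_le_sqrt.2 t1
  obtain ⟨w, b1, b2⟩ := exists_solve A₀ univ s
    (c := 8 * (Cf * Γ ^ 2) * √((m : ℝ) / R) * (R ^ 2 * l2sq univ s)) (by positivity) fun ζ _ => by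
    have c1 := dot_sq_le (s := s) (B := ball c (2 * (R + 1))) (fun u hu => sp A₁ u (by
      rw [mem_ball] at hu
      omega)) ζ
    have c2 := hf M A₁' h.sign' h.flat c (R + 1) m (by omega) (by omega) h6 ζ
    rw [← l2sq_congr (f := Dm A₀ *ᵥ ζ) fun s hs => Dm_pt hA₀ ζ (by
      have := mem_ball.1 hs
      omega)] at c2
    have c3 := l2sq_le_univ (ball c m) (Dm A₀ *ᵥ ζ)
    have c4 := hG ζ
    have c5 := l2sq_nonneg univ (Dm A₀ *ᵥ ζ)
    have m0 : (0 : ℝ) < m := by linarith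
    have d1 : ((R + 1 : ℕ) : ℝ) / m ≤ 2 * (R / m) := by
      rw [← mul_div_assoc]
      gcongr
      exact_mod_cast (by omega : R + 1 ≤ 2 * R)
    have d2 : √(((R + 1 : ℕ) : ℝ) / m) ≤ 2 * (R / m) * √((m : ℝ) / R) := by
      refine Real.sqrt_le_iff.2 ⟨by positivity, d1.trans ?_⟩
      rw [mul_pow, Real.sq_sqrt (by positivity)]
      have : (2 * (R / m : ℝ)) ^ 2 * (m / R) = 2 * (2 * (R / m)) := by field_simp
      rw [this]
      have : (0 : ℝ) ≤ R / m := by positivity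
      linarith
    have d3 : (m : ℝ) ^ 2 ≤ (Γ * m) ^ 2 := by
      gcongr
      exact le_mul_of_one_le_left m0.le hΓ
    calc _ ≤ _ := c1
      _ ≤ l2sq univ s * (Cf * (2 * (R / m) * (2 * (R / m) * √((m : ℝ) / R))) *
          ((Γ * m) ^ 2 * l2sq univ (Dm A₀ *ᵥ ζ) + (Γ * m) ^ 2 * l2sq univ (Dm A₀ *ᵥ ζ))) := by
        refine mul_le_mul_of_nonneg_left (c2.trans ?_) hS
        have := l2sq_nonneg univ ζ
        have := l2sq_nonneg (ball c m) (Dm A₀ *ᵥ ζ)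
        gcongr
      _ = _ := by field_simp; ring
  have b3 : Dm A₀ *ᵥ ((fun s => (1 - η s.1) * φ s) + w) =
      fun s => (1 - η s.1) * (Dm A *ᵥ φ) s := by
    funext u
    rw [mulVec_add, Pi.add_apply, a1, b2 u (mem_univ _), Pi.sub_apply, sub_add_cancel]
  have b4 := hG ((fun s => (1 - η s.1) * φ s) + w)
  rw [b3] at b4
  replace b4 := b4.trans (mul_le_mul_of_nonneg_left (l2sq_cut e0' (B := univ) (by simp) _)
    (sq_nonneg _))
  have b5 := l2sq_sub_le univ (fun s => η s.1 * φ s) w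
  have b6 := l2sq_cut e0 (B := ball c (4 * R)) (fun x hx => e2 x (by
    rw [mem_ball] at hx
    omega)) φ
  have b7 := l2sq_add_le univ ((fun s => (1 - η s.1) * φ s) + w) ((fun s => η s.1 * φ s) - w)
  rw [show ((fun s => (1 - η s.1) * φ s) + w + ((fun s => η s.1 * φ s) - w)) = φ by
    funext u
    simp only [Pi.add_apply, Pi.sub_apply]
    ring] at b7
  have hX := l2sq_nonneg (ball c (4 * R)) φ
  have hE := l2sq_nonneg univ (Dm A *ᵥ φ)
  have := gap_num (E := R ^ 2 * l2sq univ (Dm A *ᵥ φ)) (κ := κ) (K := K) t1 (by positivity) hΓ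
    (l2sq_nonneg univ φ) (by positivity) (by
      rw [le_div_iff₀ hR]
      refine (mul_le_mul_of_nonneg_right (Nat.le_ceil _) hR.le).trans ?_
      exact_mod_cast (by omega : ⌈(4 * (κ * K)) ^ 2⌉₊ * R ≤ m))
    (k0.trans (le_of_eq (by field_simp))) (b5.trans (by
      have c1 := mul_le_mul_of_nonneg_left a4 (by positivity : 0 ≤ 8 * (Cf * Γ ^ 2) * √((m : ℝ) / R))
      have c2 := mul_le_mul_of_nonneg_right q1 hX
      rw [hκ]
      nlinarith)) (b4.trans (le_of_eq (by field_simp))) b7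
  refine this.trans (le_of_eq ?_)
  field_simp

end Vale.Agent.P144Z.DX
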