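import Vale.Agent.P144DX.Main
import Vale.Agent.P144DX.Gap
import Vale.Agent.P144U.Free.Half
import Vale.Agent.P144E.Ge1b.Gap
import Vale.Agent.P144E.Ge1b.K

/-!
# A cluster inside a finite set of sites: the sums over the sectors
-/

namespace Vale.Agent.P144Z.DX

open Finset Matrix UL DC
open P144 hiding sg

variable {M : ℕ} [NeZero M]

theorem strG_far {a b c : Site} {R : ℕ} (ha : zd a c ≤ R) (hb : zd b c ≤ R) {e : Tor M × Fin 2}
    (he : R + 1 < tdist e.1 (prj M c)) : strG M a b e = 1 := by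
  unfold zd at ha hb
  simp only [max_le_iff] at ha hb
  unfold strG
  rw [Finset.prod_eq_one, Finset.prod_eq_one, one_mul]
  · intro i hi
    rw [if_neg]
    rintro rfl
    have h := he.trans_le (tdist_prj_le (M := M) ((b.1, i) + uz 1) c)
    simp only [uz, mem_Ico] at h hi
    simp at h
    omega
  · intro i hi
    rw [if_neg]
    rintro rfl
    have h := he.trans_le (tdist_prj_le (M := M) ((i, a.2) + uz 0) c)
    simp only [uz, mem_Ico] at h hi
    simp at h
    omega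

omit [NeZero M] in
theorem sg_sq (f : Tor M) (u : Site) : sg f u * sg f u = 1 := by
  unfold sg
  split_ifs <;> norm_num

variable {n H : ℕ} {x : Fin n → Site} {a c : Site} {hs : Fin H → Site} {S : Finset (Fin H)}

theorem flux_even (hn : Even n) (a : Site) (f : Tor M) :
    flux (spinG M a x) f = ∏ i, sg f (x i) := by
  rw [spinG, flux_prod]
  simp only [flux_strG]
  obtain ⟨k, rfl⟩ := hn
  rw [prod_mul_distrib, prod_const, card_univ, Fintype.card_fin, pow_add, ← mul_pow, sg_sq, one_pow,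
    one_mul]

theorem flux_B0 (hn : Even n) (f : Tor M) :
    flux (spinG M a x * holeG M a hs S * spinG M c x) f =
      flux (spinG M a Fin.elim0 * holeG M a hs S) f := by
  rw [flux_mul, flux_mul, flux_mul, flux_even hn, flux_even hn, flux_even Even.zero,
    mul_right_comm, ← prod_mul_distrib]
  simp only [sg_sq, prod_const_one, univ_eq_empty, prod_empty]

theorem eqv' {P B : Gauge M} {r : ℕ} (hB : IsSign B) (h : ∀ f, flux B f = -1 →
    flux (P * B) f = -1 ∨ ∀ e, tdist e.1 f ≤ 2 * r → P e = 0) (hM : 8 * r ≤ M) (hr : 1 ≤ r)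
    (z : Tor M) (T : ℕ)
    (hT : T ≤ r) (hf : ∀ f, tdist f z ≤ T → flux (P * B) f ≠ -1) : ∃ s : Tor M → ℝ, IsSign s ∧
      ∀ x i, tdist x z ≤ T → tdist (x + uv M i) z ≤ T →
        P (x, i) = s x * s (x + uv M i) * (P * B) (x, i) := by
  rcases Nat.eq_zero_or_pos T with rfl | hT0
  · refine ⟨1, fun _ => Or.inl rfl, fun x i h1 h2 => ?_⟩
    have h3 : x + uv M i = x :=
      (tdist_eq_zero (Nat.le_zero.1 h2)).trans (tdist_eq_zero (Nat.le_zero.1 h1)).symm
    have : Fact (1 < M) := ⟨by omega⟩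
    have h4 : uv M i = 0 := add_eq_left.1 h3
    fin_cases i <;> simp [uv] at h4
  by_cases h1 : ∃ f, tdist f z ≤ T ∧ flux B f = -1
  · obtain ⟨f, h2, h3⟩ := h1
    have h4 := (h f h3).resolve_left (hf f h2)
    refine ⟨1, fun _ => Or.inl rfl, fun x i h5 _ => ?_⟩
    have h6 := tdist_triangle x z f
    rw [tdist_comm z] at h6
    simp [h4 (x, i) (by change tdist x f ≤ _; omega)]
  · obtain ⟨s, hs, h2⟩ := (W.R6.matchC_mul (w := P) (B' := 1) (c := z) hB
      (fun _ => Or.inl rfl) hT0 (by omega) fun f h3 => by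
        rw [FM.flux_one, FM.flux_eq_one hB fun h4 => h1 ⟨f, h3, h4⟩]).2.1
    refine ⟨s, hs, fun x i h3 h4 => ?_⟩
    have h5 := h2 x i h3 h4
    rwa [mul_one, show shf z z x = x by rw [shf, prj_lft, add_sub_cancel]] at h5

/-- The bound for the nearest-neighbour model. -/
theorem kX (n : ℕ) : ∃ C : ℝ, 0 ≤ C ∧ ∀ (M : ℕ) [NeZero M] (Λ : Finset Site) (fr : Bool)
    (T r H : ℕ) (x : Fin n → Site) (a : Site) (hs : Fin H → Site) (S : Finset (Fin H)),
    Holes Λ T r a hs → Spins Λ r x → (fr = true → H = 0 ∧ Even n) → 1 ≤ r → 4 * (T + 2) ≤ M →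
      |Zw par0 ((regOf M Λ fr).pw * (spinG M a x * holeG M a hs S)) 1| ≤
        C * (r : ℝ) ^ (-((n : ℝ) / 8)) * |Zw par0 (regOf M Λ fr).pw 1| := by
  obtain ⟨C₁, hC₁, h₁⟩ := plus_K n
  obtain ⟨C, hC, h⟩ := MD.spin_decay one_pos n
  refine ⟨C₁ + C, by positivity, fun M _ Λ fr T r H x a hs S h1 h2 hfr hr hM => ?_⟩
  have hp : 0 ≤ (r : ℝ) ^ (-((n : ℝ) / 8)) := by positivity
  cases fr
  · exact (h₁ M Λ T r H x a hs S h1 h2 hr hM).trans (by gcongr; linarith)
  obtain ⟨rfl, hn⟩ := hfr rfl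
  have z0 : ∀ v : Site, zd v v ≤ r := fun v => by simp [zd]
  have hinj : Function.Injective x := by
    intro i j e
    by_contra hne
    have h3 := h2.sep i j hne
    rw [e] at h3
    exact absurd (z0 _) (not_le.2 h3)
  have r0 : Rel 1 0 (Kc / 1) par0 := ⟨U1.pot_zero, fun _ h => absurd rfl h,
    (mul_zero _).symm, by
      rw [mul_assoc, div_mul_cancel₀ _ one_ne_zero]
      exact U4.tc_eq⟩
  have h3 := h r hr none Λ (univ.image x) (by rw [card_image_of_injective _ hinj]; simp)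
    (fun u hu v hv hne => by
      obtain ⟨i, -, rfl⟩ := mem_image.1 hu
      obtain ⟨j, -, rfl⟩ := mem_image.1 hv
      exact h2.sep i j fun e => hne (by rw [e])) fun u hu v hv => by
      obtain ⟨i, -, rfl⟩ := mem_image.1 hu
      exact h2.ins i v hv
  simp only [prod_image fun i _ j _ e => hinj e] at h3
  have h0 := UL.ne_zero (M := M) (fr := true) r0 h1 (by simp) hM fun _ => rfl
  have h4 := sec_eq (M := M) (fr := true) (y := Fin.elim0) (j := Fin.elim0) r0 h1 (by simp) hM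
    (fun i => h2.ins i _ (z0 _)) (fun k => k.elim0) (fun _ => ⟨rfl, hn⟩) ∅
  rw [Reg.cor_par0, ZwC_zero] at h0
  have e : ∀ S : Finset (Fin 0), holeG M a hs S = 1 := fun S => by
    rw [S.eq_empty_of_isEmpty, holeG, prod_empty]
  simp only [mx, mixC, e, prod_empty, mul_one, univ_eq_empty, Reg.cor_par0, ZwC_zero, sum_const,
    card_univ, Fintype.card_finset, Fintype.card_fin, pow_zero, one_smul, if_true] at h4
  have e2 : spinG M a (Fin.elim0 : Fin 0 → Site) = 1 := by simp [spinG]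
  rw [e2, mul_one] at h4
  change gibbs 1 0 (fun _ => 0) _ _ _ _ = Zw par0 _ 1 / _ / (Zw par0 _ 1 / _) at h4
  rw [h4, div_self h0, div_one, abs_div, div_le_iff₀ (abs_pos.2 h0)] at h3
  rw [e, mul_one]
  exact h3.trans (by gcongr; linarith)

theorem locX {P B : Gauge M} {R r ρ : ℕ} (hn : Even n) (hx : ∀ i, zd (x i) c ≤ R)
    (hsep : ∀ i i', prj M (x i) ≠ prj M (x i') → r < tdist (prj M (x i)) (prj M (x i')))
    (hB : Str P (B * spinG M c x) (2 * (ρ + 1))) (hf : ∀ f, flux (P * (B * spinG M c x)) f ≠ -1)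
    (hP : ∀ e, tdist e.1 (prj M c) ≤ ρ → P e = 1) (hM : 8 * (ρ + 1) ≤ M) :
    LocX (P * B) (P * (B * spinG M c x)) (prj M c) (R + 1) r ρ := by
  have o1 : ∀ e : Tor M × Fin 2, R + 1 < tdist e.1 (prj M c) → spinG M c x e = 1 := fun e he => by
    rw [spinG, Finset.prod_apply]
    exact prod_eq_one fun i _ => strG_far (by simp [zd]) (hx i) he
  have sq : ∀ e, spinG M c x e * spinG M c x e = 1 := fun e => by
    rcases spinG_sign (M := M) c x e with h | h <;> simp [h]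
  obtain ⟨s, s1, s2⟩ := Both.eqv hB (by omega) hM (prj M c) (ρ + 1) le_rfl fun f _ => hf f
  set G : Gauge M := fun e => s e.1 * s (e.1 + uv M e.2) with hG
  have g1 : IsSign G := fun e => P144Z.G.sign_mul (s1 _) (s1 _)
  have g2 : ∀ f, flux G f = 1 := fun f => by
    simp only [flux, hG, add_right_comm f (uv M 1)]
    rcases s1 f with a | a <;> rcases s1 (f + uv M 0) with b | b <;>
      rcases s1 (f + uv M 1) with c | c <;> rcases s1 (f + uv M 0 + uv M 1) with d | d <;>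
      simp [a, b, c, d]
  have g3 : ∀ f, flux (G * spinG M c x) f = -1 → ∃ i, f = prj M (x i) := fun f h => by
    rw [flux_mul, g2, one_mul, flux_even hn] at h
    by_contra h'
    simp only [not_exists, eq_comm (a := f)] at h'
    simp only [sg, h', if_false, prod_const_one] at h
    norm_num at h
  have g4 : ∀ e : Tor M × Fin 2, tdist e.1 (prj M c) ≤ ρ → (P * (B * spinG M c x)) e = G e := by
    rintro ⟨z, i⟩ he
    have h1 := s2 z i (he.trans (by omega)) ((E3.near_add i).trans (by exact Nat.succ_le_succ he))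
    rw [hP _ he] at h1
    have h2 : G (z, i) * G (z, i) = 1 := by rcases g1 (z, i) with h | h <;> simp [h]
    change 1 = G (z, i) * _ at h1
    linear_combination -G (z, i) * h1 - (P * (B * spinG M c x)) (z, i) * h2
  refine ⟨fun e he => by simp only [Pi.mul_apply, o1 e he, mul_one], hf, G * spinG M c x, G,
    ⟨H3.sign_mul g1 (spinG_sign c x), g1, g2, fun e he => by rw [Pi.mul_apply, o1 e he, mul_one],
      fun f h => ?_, fun f f' h h' e => ?_⟩, fun e he => ?_, g4⟩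
  · obtain ⟨i, rfl⟩ := g3 f h
    exact (tdist_prj_le _ _).trans ((hx i).trans (Nat.le_succ R))
  · obtain ⟨i, rfl⟩ := g3 f h
    obtain ⟨i', rfl⟩ := g3 f' h'
    exact hsep i i' e
  · rw [Pi.mul_apply G, ← g4 e he]
    simp only [Pi.mul_apply, mul_assoc, sq, mul_one]

theorem le_of_sc {L J N : ℕ} (hL : 2 ≤ L) (h : sc L J ≤ sc L N) : J ≤ N :=
  (Nat.pow_le_pow_iff_right (by omega : 1 < L)).1 (Nat.le_of_mul_le_mul_left h (by norm_num))

set_option maxHeartbeats 400000 in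
/-- The bound on the sums over the sectors. -/
theorem coreX {Q : Cls} {q : Par} {σ γ : ℝ} {L m : ℕ} (hL : 2 ≤ L) (hX : MainX Q q L m σ γ)
    (N₀ n H₀ Λ₀ Λ₁ Λ₂ : ℕ) (hn : Even n) (hΛ : 1 ≤ Λ₁) : ∃ (B : ℝ) (J₀ p : ℕ), 0 ≤ B ∧
    ∀ J ≥ J₀, ∀ (N M : ℕ) [NeZero M] (Λ : Finset Site) (fr : Bool) (T r s H : ℕ)
      (x : Fin n → Site) (y : Fin m → Site) (j : Fin m → Fin 2) (a : Site) (hs : Fin H → Site)
      (c : Site), H ≤ H₀ → Rgh (regOf M Λ fr).In N₀ r →
      (∀ B, Str (regOf M Λ fr).pw B (s - 1) → Q M ((regOf M Λ fr).pw * B) J) →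
      (∀ B, Str (regOf M Λ fr).pw B (r - 1) → Q M ((regOf M Λ fr).pw * B) N) →
      Holes Λ T r a hs → Spins Λ s (Sum.elim x y) → (fr = true → H = 0) →
      (∀ v, zd v c ≤ r → v ∈ Λ) → (∀ i, zd (Sum.elim x y i) c ≤ Λ₁ * s) → 16 * sc L J + 1 ≤ s →
      s ≤ Λ₂ * sc L J → p * s ≤ sc L N → 16 * sc L N + 1 ≤ r → r ≤ T → T ≤ Λ₀ * sc L N →
      M = 64 * T → ∀ u : Cor M, u.Ok → u.Off (regOf M Λ fr).pw → u.Wt σ γ → ∀ t,
        |(sc L J : ℝ) ^ ((n : ℝ) / 8) * (sc L J : ℝ) ^ t.card *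
          mxU q u (regOf M Λ fr) a hs y j x t| ≤ B := by
  obtain ⟨Γ₀, hΓ₀, r₀, HG⟩ := gapW N₀ (2 * Λ₀ + 1)
  set Γ : ℝ := Γ₀ * (Λ₀ + 1) with hΓd
  have hΓ : 1 ≤ Γ := one_le_mul_of_one_le_of_one_le hΓ₀ (by
    have : (0 : ℝ) ≤ Λ₀ := Nat.cast_nonneg _
    linarith)
  obtain ⟨p, hp⟩ := gapX (2 * Λ₁ + 2) hΓ
  obtain ⟨C, hC, hK⟩ := kX n
  obtain ⟨B₀, J₀, hB₀, hX⟩ := hX n (Λ₁ * Λ₂ + 1) (64 * Λ₀) (3 * Γ) (by linarith)
  refine ⟨2 ^ H₀ * (B₀ * C), max J₀ (r₀ + q.R + 2), (p + 1) * (Λ₁ + 2), by positivity,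
    fun J hJ N M _ Λ fr T r s H x y j a hs c hH hS Q1 Q2 h1 h2 hfr hc hd r1 r2 r3 r4 r5 r6 hMT
      u d1 d2 d3 t => ?_⟩
  have l1 : 8 * J + 8 ≤ sc L J := sc_ge hL
  have l2 : r₀ + q.R + 2 ≤ J := le_of_max_le_right hJ
  set ℓ := sc L J with hℓ
  set R := regOf M Λ fr with hR
  have l0 : (0 : ℝ) < ℓ := by exact_mod_cast (by omega : 0 < ℓ)
  have e1 : Λ₁ * s + 2 ≤ (Λ₁ + 2) * s := by rw [add_mul]; omega
  have e2 : s ≤ Λ₁ * s := Nat.le_mul_of_pos_left _ hΛ
  have e3 : p * (Λ₁ * s + 2) ≤ p * ((Λ₁ + 2) * s) := Nat.mul_le_mul_left _ e1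
  rw [mul_assoc, add_mul p, one_mul] at r3
  have e4 : Λ₁ * s + 2 ≤ (2 * Λ₁ + 2) * (s - 1) := by
    have a1 : Λ₁ * s ≤ Λ₁ * (2 * (s - 1)) := Nat.mul_le_mul_left _ (by omega)
    have a2 : (2 * Λ₁ + 2) * (s - 1) = Λ₁ * (2 * (s - 1)) + 2 * (s - 1) := by ring
    omega
  have e5 : Λ₁ * s + 2 ≤ (Λ₁ * Λ₂ + 1) * ℓ := by
    have a1 : Λ₁ * s ≤ Λ₁ * (Λ₂ * ℓ) := Nat.mul_le_mul_left _ r2
    rw [add_mul, mul_assoc]
    omega
  have hfr' : fr = true → H = 0 ∧ Even n := fun h => ⟨hfr h, hn⟩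
  have h1' := ELat.holes_mono h1 (r' := s) (by omega)
  have hx : Spins Λ s x := h2.comp Sum.inl_injective
  have hc0 : zd c 0 ≤ T := h1.box c (hc c (by simp [zd]))
  have hP : ∀ e : Tor M × Fin 2, tdist e.1 (prj M c) ≤ 8 * sc L N - 1 → R.pw e = 1 :=
    fun e he => pw_one hc fr e (by omega)
  have hsq : (Γ₀ * ((T + 1 : ℕ) : ℝ)) ^ 2 ≤ (Γ * sc L N) ^ 2 := by
    refine pow_le_pow_left₀ (by positivity) ?_ 2
    have a1 : T + 1 ≤ (Λ₀ + 1) * sc L N := by rw [add_mul]; omega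
    have a2 : ((T + 1 : ℕ) : ℝ) ≤ (Λ₀ + 1) * sc L N := by exact_mod_cast a1
    rw [hΓd, mul_assoc]
    exact mul_le_mul_of_nonneg_left a2 (by linarith)
  have hTr : T + 1 ≤ (2 * Λ₀ + 1) * (r - 1) := by
    have a1 : Λ₀ * sc L N ≤ Λ₀ * (2 * (r - 1)) := Nat.mul_le_mul_left _ (by omega)
    have a2 : (2 * Λ₀ + 1) * (r - 1) = Λ₀ * (2 * (r - 1)) + (r - 1) := by ring
    omega
  have gap : ∀ B : Gauge M, Str R.pw B (r - 1) → (∀ e, T + 1 < tdist e.1 0 → B e = 1) →
      (fr = true → ∀ f, flux B f ≠ -1) → ∀ φ, l2sq univ φ ≤ (Γ * sc L N) ^ 2 *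
        l2sq univ (Dm (R.pw * B) *ᵥ φ) := by
    intro B a1 a2 a3 φ
    have := HG M R B (T + 1) (r - 1) (hS.mono (by omega)) a1
      (fun f hf => (K.in_le h1.box f hf).trans (by omega)) a2 (by omega) (by omega) hTr (by omega)
      φ 0 (fun h f hf => absurd hf (a3 h f)) (fun f hf => absurd rfl hf)
    simp only [Pi.zero_apply, zero_smul, Finset.sum_const_zero, sub_zero] at this
    exact this.trans (mul_le_mul_of_nonneg_right hsq (E5.l2sq_nonneg _ _))
  have up : ∀ {A : Gauge M}, (∀ φ, l2sq univ φ ≤ (Γ * sc L N) ^ 2 * l2sq univ (Dm A *ᵥ φ)) →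
      ∀ φ, l2sq univ φ ≤ (3 * Γ * sc L N) ^ 2 * l2sq univ (Dm A *ᵥ φ) := fun h φ =>
    (h φ).trans (mul_le_mul_of_nonneg_right (by gcongr; linarith) (E5.l2sq_nonneg _ _))
  have n1 : ∀ f : Tor M, flux (1 : Gauge M) f ≠ -1 := fun f => by
    rw [FM.flux_one]
    norm_num
  have nP : ∀ f, flux R.pw f ≠ -1 := fun f hf => by linarith [flux_nonneg R.isP f]
  have gP := up (gap 1 (str_one _ _) (fun _ _ => rfl) fun _ => n1)
  have b1 := Q1 1 (str_one _ _)
  have b2 := Q2 1 (str_one _ _)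
  rw [mul_one] at gP b1 b2
  simp only [K.l2sq_univ'] at gP
  have hZ : 0 < |Zw par0 R.pw 1| := abs_pos.2 (Both.ne_zero gP)
  have hxy : Spins Λ s (Sum.elim x fun k : t => y k) := by
    have := h2.comp (f := Sum.map id fun k : t => k.1)
      (Function.injective_id.sumMap Subtype.val_injective)
    rwa [Sum.elim_comp_map] at this
  have cd : Fintype.card t ≤ m := by simpa using card_le_univ t
  have key : ∀ S : Finset (Fin H), (ℓ : ℝ) ^ t.card * |mixC q u R.pw
      (spinG M a x * holeG M a hs S) (fun k : t => yE M y j k) fun k : t => dE y j k| ≤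
        B₀ * (C * (ℓ : ℝ) ^ (-((n : ℝ) / 8))) := by
    intro S
    obtain ⟨s1, s2, s3, -, -, s6⟩ := str_reg (M := M) S h1' hx hfr' (by omega) (by omega)
    obtain ⟨t1, -, t3, t4, -, -⟩ := str_reg (M := M) (x := Fin.elim0) S h1
      ⟨fun i => i.elim0, fun i => i.elim0⟩ (fun h => ⟨hfr h, Even.zero⟩) (by omega) (by omega)
    set B := spinG M a x * holeG M a hs S with hB
    have f0 := flux_B0 (M := M) (x := x) (a := a) (c := c) (hs := hs) (S := S) hn
    have u1 : Str R.pw (B * spinG M c x) (r - 1) := ⟨H3.sign_mul s1.sign (spinG_sign c x),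
      fun f hf => t1.fl f (f0 f ▸ hf), fun f f' hf hf' => t1.sep f f' (f0 f ▸ hf) (f0 f' ▸ hf')⟩
    have u2 : ∀ f, flux (R.pw * (B * spinG M c x)) f ≠ -1 := fun f hf => by
      rw [flux_mul, f0, ← flux_mul] at hf
      obtain ⟨i, -⟩ := (t3 f).1 hf
      exact i.elim0
    have u3 := gap _ u1 (fun e he => by
      rw [Pi.mul_apply, s2 e he, spinG, Finset.prod_apply, one_mul]
      exact prod_eq_one fun i _ => strG_out hc0 (h1.box _ (spin_mem hx i)) he) fun h f hf => by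
      obtain ⟨i, -⟩ := (t4 h f).1 (f0 f ▸ hf)
      exact i.elim0
    have lx := locX (P := R.pw) (B := B) (R := Λ₁ * s + 1) (r := s - 1) (ρ := 8 * sc L N - 1) hn
      (fun i => (hd (Sum.inl i)).trans (Nat.le_succ _)) (fun i i' e => lt_of_le_of_lt (by omega)
        (far_in h1' (by omega) hx fun h => e (by rw [h]))) (u1.mono (by omega)) u2 hP (by omega)
    have gA : ∀ φ, l2sq univ φ ≤ (3 * Γ * sc L N) ^ 2 * l2sq univ (Dm (R.pw * B) *ᵥ φ) := by
      rcases Nat.eq_zero_or_pos n with rfl | hn0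
      · have e : spinG M c x = 1 := by simp [spinG]
        rw [e, mul_one] at u3
        exact up u3
      · exact hp M _ _ _ _ _ _ (sc L N) lx ⟨_, (s3 _).2 ⟨⟨0, hn0⟩, rfl⟩⟩ (by omega) (by omega) e4
          (e3.trans (by omega)) (by omega) (by omega) u3
    simp only [K.l2sq_univ'] at gA
    have sp := sepW_reg (M := M) S (fun k : t => j k) J h1' hxy hfr' (by omega) (by omega)
    have r7 : 8 * ℓ ≤ s - 3 := by omega
    have := hX (geoD M (R.pw * B) (fun k : t => yE M y j k) (fun k : t => dE y j k) J) R.pw _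
      (prj M c) N (Λ₁ * s + 2) (s - 1) (8 * sc L N - 1) (le_of_max_le_left hJ) cd
      { pre := ⟨⟨Both.isW_mul R.isP s1.sign, fun k => FM.enSrc_ok _ _⟩, fun _ => rfl,
          by change 16 * ℓ ≤ M; omega, by change _ ≤ M; omega,
          ⟨fun f hf f' h' h'' => sp.ff f hf f' h' (h''.trans r7),
            fun k f hf => sp.fs k f (hf.trans r7), fun k k' hk => r7.trans_lt (sp.ss k k' hk)⟩⟩
        loc := lx
        src := fun (k : t) => (tdist_prj_le _ c).trans (by
          have a1 := zd_add_dir (y k) (j k)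
          have a2 : zd (y k) c ≤ Λ₁ * s := hd (Sum.inr k)
          have a3 := GeoA.zd_tri (y k + dir (j k)) (y k) c
          change zd (y k + dir (j k)) c ≤ _
          omega)
        JN := le_of_sc hL (by change ℓ ≤ _; omega)
        r1 := by change 8 * ℓ ≤ _; omega
        r2 := by omega
        r3 := e5
        M1 := by change _ ≤ M; omega
        M2 := by change M ≤ _; rw [hMT, mul_assoc]; exact Nat.mul_le_mul_left _ r6
        deep := by omega
        w := Both.isW R.isP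
        loc' := ⟨fun _ _ => rfl, nP, 1, 1,
          ⟨fun _ => Or.inl rfl, fun _ => Or.inl rfl, FM.flux_one, fun _ _ => rfl,
            fun f hf => absurd hf (n1 f), fun f _ hf => absurd hf (n1 f)⟩, hP, hP⟩
        card := s6.le
        fl := Both.fl R.isP s1 (by omega)
        eqv := eqv' (M := M) s1.sign (fun f hf => by
          rcases ends_cases h1 (by omega) hfr' hf with h | h
          · exact Or.inl ((s3 f).2 h)
          · exact Or.inr fun e he => h e (by omega)) (by omega) (by omega)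
        gap := gA
        gap' := gP }
      (Q1 _ s1) (Q2 _ u1) b1 b2 u d1 d2 d3
    rw [← Fintype.card_coe]
    refine le_trans this (mul_le_mul_of_nonneg_left ((div_le_iff₀ hZ).2
      ((hK M Λ fr T s H x a hs S h1' hx hfr' (by omega) (by omega)).trans ?_)) hB₀)
    have := K.rpow_le (ℓ := ℓ) (r := s) (by omega) (by omega) n
    gcongr
  have cS : ((univ : Finset (Finset (Fin H))).card : ℝ) ≤ 2 ^ H₀ := by
    rw [card_univ, Fintype.card_finset, Fintype.card_fin]
    exact_mod_cast Nat.pow_le_pow_right (by norm_num) hH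
  rw [mxU, mul_sum]
  refine (abs_sum_le_sum_abs _ _).trans ((sum_le_card_nsmul _ _ (B₀ * C) fun S _ => ?_).trans ?_)
  · rw [abs_mul, abs_of_pos (by positivity), mul_assoc]
    refine (mul_le_mul_of_nonneg_left (key S) (by positivity)).trans (le_of_eq ?_)
    rw [Real.rpow_neg l0.le]
    field_simp
  · rw [nsmul_eq_mul]
    exact mul_le_mul_of_nonneg_right cS (by positivity)

end Vale.Agent.P144Z.DX
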