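import Vale.Agent.P144DX.Alg

/-!
# A cluster inside a domain: the subtracted constants
-/

namespace Vale.Agent.P144Z

open Finset Matrix Geo

open Classical in
/-- The field `g.A` has a cluster of fluxes more than the reference field `A'`. -/
structure Geo.DomX (g : Geo) (A' A₀ : Gauge g.M) (c : g.P) (L R₀ N R r ρ Λ₁ Λ n : ℕ) (Γ : ℝ) :
    Prop extends g.PreX A₀ c L R₀ N R r ρ Λ₁ Λ where
  w : IsW A'
  loc' : LocX A' A' c R r ρ
  card : (univ.filter fun f => flux g.A f = -1).card ≤ n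
  fl : ∀ f, flux A' f = if flux g.A f = -1 then 1 else flux g.A f
  eqv : ∀ z, ∀ T ≤ 4 * sc L N, (∀ f, tdist f z ≤ T → flux g.A f ≠ -1) → ∃ s : g.P → ℝ, IsSign s ∧
    ∀ x i, tdist x z ≤ T → tdist (x + uv g.M i) z ≤ T →
      A' (x, i) = s x * s (x + uv g.M i) * g.A (x, i)
  gap : ∀ φ, φ ⬝ᵥ φ ≤ (Γ * sc L N) ^ 2 * ((Dm g.A *ᵥ φ) ⬝ᵥ (Dm g.A *ᵥ φ))
  gap' : ∀ φ, φ ⬝ᵥ φ ≤ (Γ * sc L N) ^ 2 * ((Dm A' *ᵥ φ) ⬝ᵥ (Dm A' *ᵥ φ))

namespace DX

open Mn hiding Br Gd WW WW_eq br_good en_eq exc_sub mix_eq ok_bare ok_one ps_br ps_cf ps_wt see_en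
  ss top_le bad_sum
open MN hiding gen Z_eq en_eq mix_eq br_good Gd

open Classical in
theorem bad_sum {M : ℕ} [NeZero M] {L j N Λ T k n : ℕ} (hL : 8 ≤ L) (hj : j ≤ N)
    (hM : M ≤ Λ * sc L N) {f f' : Finset (Tor M) → ℝ} {ε G G₂ : ℝ} (hf : ∀ U, 0 ≤ f U)
    (hA : Anch (sc L j) (2 * L) f ε) (S : Finset (Finset (Tor M))) (Z Y : Finset (Tor M))
    (hZ : Z.card ≤ n) (hY : Y.card ≤ k) (hG0 : 0 ≤ G) (hG : G ≤ 4 * (L : ℝ) ^ (N - j))
    (hT : G ^ k * Real.exp (-(L * T / sc L j)) ≤ G₂) (h1 : ∀ U ∈ S, f' U ≤ G ^ k * f U)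
    (h2 : ∀ U ∈ S, 8 * sc L N / 20 < stein U ∨
      (f' U ≤ f U ∧ ∃ z ∈ Z, ∃ x ∈ U, tdist z x ≤ 2 * stein U + 3 * sc L j) ∨
      (T ≤ stein U ∧ ∃ y ∈ Y, y ∈ U)) :
    ∑ U ∈ S, f' U ≤
      ((Λ + 1) ^ 2 * (4 ^ (k + 2) * (k + 3).factorial) + n * 1600 + k * G₂) * ε := by
  have hε := P144Z.G.anch_nonneg hf hA
  have h8 := eight_le_sc (L := L) (by omega) j
  have hl : (0 : ℝ) < sc L j := by positivity
  have hL0 : (0 : ℝ) ≤ L := Nat.cast_nonneg _
  have hGk : 0 ≤ G ^ k := pow_nonneg hG0 k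
  set x : ℝ := (L : ℝ) ^ (N - j) with hx
  have hx1 : 1 ≤ x := one_le_pow₀ (by exact_mod_cast (by omega : 1 ≤ L))
  set f₁ : Finset (Tor M) → ℝ := fun U => if 8 * sc L N / 20 + 1 ≤ stein U then f U else 0 with hf₁
  set f₂ : Tor M → Finset (Tor M) → ℝ := fun z U =>
    if ∃ x ∈ U, tdist z x ≤ 2 * stein U + 3 * sc L j then f U else 0 with hf₂
  set f₃ : Tor M → Finset (Tor M) → ℝ := fun y U =>
    if y ∈ U then (if T ≤ stein U then f U else 0) else 0 with hf₃
  have nn : ∀ (p : Prop) [Decidable p] {x : ℝ}, 0 ≤ x → 0 ≤ if p then x else 0 := by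
    intro p _ x hx
    split_ifs
    exacts [hx, le_rfl]
  have n1 : ∀ U, 0 ≤ f₁ U := fun U => nn _ (hf U)
  have n2 : ∀ z U, 0 ≤ f₂ z U := fun z U => nn _ (hf U)
  have n3 : ∀ y U, 0 ≤ f₃ y U := fun y U => nn _ (nn _ (hf U))
  have k0 : ∀ U ∈ S, f' U ≤ G ^ k * f₁ U + ∑ z ∈ Z, f₂ z U + G ^ k * ∑ y ∈ Y, f₃ y U := by
    intro U hU
    have a1 := mul_nonneg hGk (n1 U)
    have a2 : 0 ≤ ∑ z ∈ Z, f₂ z U := sum_nonneg fun z _ => n2 z U
    have a3 := mul_nonneg hGk (sum_nonneg fun y (_ : y ∈ Y) => n3 y U)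
    rcases h2 U hU with h | ⟨h, z, hz, h'⟩ | ⟨h, y, hy, h'⟩
    · have : f₁ U = f U := if_pos h
      rw [this]
      linarith [h1 U hU]
    · have a4 := single_le_sum (f := fun z => f₂ z U) (fun z _ => n2 z U) hz
      have : f₂ z U = f U := if_pos h'
      linarith
    · have a4 := mul_le_mul_of_nonneg_left
        (single_le_sum (f := fun y => f₃ y U) (fun y _ => n3 y U) hy) hGk
      have : f₃ y U = f U := (if_pos h').trans (if_pos h)
      rw [this] at a4
      linarith [h1 U hU]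
  have k1 : G ^ k * ∑ U, f₁ U ≤ (Λ + 1) ^ 2 * (4 ^ (k + 2) * (k + 3).factorial) * ε := by
    have a1 := Anch.large (by omega) (by positivity) hf hA (8 * sc L N / 20 + 1) (by omega)
    rw [sum_filter] at a1
    refine (mul_le_mul_of_nonneg_left a1 hGk).trans ?_
    have a2 : (M : ℝ) / sc L j + 1 ≤ (Λ + 1) * (4 * x) := by
      have b1 : (M : ℝ) / sc L j ≤ Λ * x := by
        rw [div_le_iff₀ hl, hx, mul_assoc]
        rw [sc_eq hj] at hM
        exact_mod_cast hM
      have b2 : (0 : ℝ) ≤ Λ * x := by positivity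
      linarith
    have a3 := (gain (L := L) (by omega) hj le_rfl (k + 2)).trans
      (mul_le_of_le_one_right (by positivity) (div_le_one_of_le₀ (one_le_pow₀ (by norm_num))
        (by positivity)))
    have a4 : Real.exp (-(2 * L * (8 * sc L N / 20 + 1 : ℕ) / sc L j)) ≤
        Real.exp (-(L * (8 * sc L N / 20 + 1 : ℕ) / sc L j)) := by
      rw [Real.exp_le_exp, neg_le_neg_iff, mul_assoc, mul_div_assoc 2]
      exact le_mul_of_one_le_left (by positivity) one_le_two
    calc _ ≤ (4 * x) ^ k * (((Λ + 1) * (4 * x)) ^ 2 *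
          Real.exp (-(L * (8 * sc L N / 20 + 1 : ℕ) / sc L j)) * ε) := by gcongr
      _ = (Λ + 1) ^ 2 * ((4 * x) ^ (k + 2) *
          Real.exp (-(L * (8 * sc L N / 20 + 1 : ℕ) / sc L j))) * ε := by ring
      _ ≤ _ := by gcongr
  have k2 : ∑ z ∈ Z, ∑ U, f₂ z U ≤ n * 1600 * ε := by
    refine (sum_le_card_nsmul _ _ (1600 * ε) fun z _ => ?_).trans ?_
    · rw [hf₂, ← sum_filter]
      exact near_sum (by omega) (by have : (8 : ℝ) ≤ L := by exact_mod_cast hL
                                    linarith) hf hA z _ fun X hX => (mem_filter.1 hX).2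
    · rw [nsmul_eq_mul, mul_assoc]
      gcongr
  have k3 : G ^ k * ∑ y ∈ Y, ∑ U, f₃ y U ≤ k * G₂ * ε := by
    have a1 : ∑ y ∈ Y, ∑ U, f₃ y U ≤ k * (Real.exp (-(L * T / sc L j)) * ε) := by
      refine (sum_le_card_nsmul _ _ (Real.exp (-(L * T / sc L j)) * ε) fun y _ => ?_).trans ?_
      · rw [hf₃, ← sum_filter]
        exact R8.sum_mem_le hL0 (fun U => nn _ (hf U)) (anch_cut hL0 hf hA T) y _
          fun X hX => (mem_filter.1 hX).2
      · rw [nsmul_eq_mul]
        gcongr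
    calc _ ≤ G ^ k * (k * (Real.exp (-(L * T / sc L j)) * ε)) := by gcongr
      _ = k * (G ^ k * Real.exp (-(L * T / sc L j))) * ε := by ring
      _ ≤ _ := by gcongr
  have s1 := (sum_le_sum k0).trans (sum_le_sum_of_subset_of_nonneg (subset_univ S) fun U _ _ =>
    add_nonneg (add_nonneg (mul_nonneg hGk (n1 U)) (sum_nonneg fun z (_ : z ∈ Z) => n2 z U))
    (mul_nonneg hGk (sum_nonneg fun y (_ : y ∈ Y) => n3 y U)))
  rw [sum_add_distrib, sum_add_distrib, ← mul_sum, ← mul_sum, sum_comm (t := Z),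
    sum_comm (t := Y)] at s1
  linarith

variable {g : Geo} {A' A₀ : Gauge g.M}

theorem ps_nosrc (hA : IsW g.A) {β β' : ℝ} (hβ : 0 < β) (h : β ≤ β') {U : Finset g.P} {F : g.E}
    (hF : F ∈ g.sub U) (hU : ∀ k, (g.src k).y ∉ U) : g.ps β' U F ≤ g.ps β U F := by
  classical
  have := W.Geo.pn_weight hA le_rfl one_pos hβ hF h
  rwa [filter_eq_empty_iff.2 fun k _ => hU k, card_empty, pow_zero, one_mul] at this

/-- Small sets that see no flux and at most one source. -/
def Gd (g : Geo) (ℓ r : ℕ) (U : Finset g.P) : Prop :=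
  MN.Gd g ℓ r U ∧ ∀ k k', (g.src k).y ∈ U → (g.src k').y ∈ U → k = k'

variable {c : g.P} {L R₀ N R r ρ Λ₁ Λ n : ℕ} {Γ : ℝ}
  (D : g.DomX A' A₀ c L R₀ N R r ρ Λ₁ Λ n Γ)
include D

theorem br_good (hL : 8 ≤ L) {q : Par} (hq : q.Ok) (hR : 16 * (q.R + 1) ≤ g.M) {u : Cor g.M}
    (hu : u.Ok) {j : ℕ} (hj : j ≤ N) {U : Finset g.P} (hU : Gd g (sc L j) (8 * sc L N) U) :
    Br g A' L q u j U = 0 := by
  have ok := D.pre.ok
  rcases U.eq_empty_or_nonempty with rfl | ⟨x, hx⟩
  · rw [Br, csC_empty ok hu, csC_empty (ok_bare D.w) hu]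
    simp only [fun k => csC_empty (ok_one ok D.w k) hu L q j]
    exact br_zero
  obtain ⟨⟨hs, hfl⟩, h6⟩ := hU
  have h1 := sc_mono (L := L) (by omega) hj
  have h3 := D.M1
  have h8 := eight_le_sc (L := L) (by omega) j
  have hT : tdist x x + 2 * stein U + 3 * sc L j ≤ 2 * stein U + 3 * sc L j := by
    rw [tdist_self]; omega
  have hM : 4 * (2 * stein U + 3 * sc L j) + 1 ≤ g.M := by omega
  have hn : ∀ f, tdist f x ≤ 2 * stein U + 3 * sc L j → flux g.A f ≠ -1 := fun f hf e =>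
    absurd hf (not_le.2 (hfl f e x hx))
  have m1 : ∀ f, tdist f x ≤ 2 * stein U + 3 * sc L j → flux A' (shf x x f) = flux g.A f :=
    fun f hf => by rw [shf_self, D.fl, if_neg (hn f hf)]
  have m2 := D.eqv x _ (by omega) hn
  have m3 : ∀ (X : Finset g.P) n', u (X.image (shf x x)) n' =
      u X fun e => n' (shf x x e.1, e.2) := fun X n' => by
    rw [image_shf]
    simp only [shf_self]
  have h0 : ag _ ((bare g A').csC L q u j U) = ag g (g.csC L q u j U) := by
    have := W.Geo.ag_csC (g := g) (g' := bare g A') (c := x) (c' := x) hL ok (ok_bare D.w) hu hu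
      hq hR hR ⟨hM, hM, m1, by simpa only [shf_self] using m2, fun X _ => m3 X⟩ j hx hT
    rwa [image_shf] at this
  have h4 : ∀ k, (g.src k).y ∈ U →
      cf (one g A' k) () ((one g A' k).csC L q u j U) = cf g k (g.csC L q u j U) := by
    intro k hk
    have := W.Geo.ag_cs_srcC (g := g) (g' := one g A' k) (c := x) (c' := x) hL ok
      (ok_one ok D.w k) hu hu hq hR hR
      ⟨hM, hM, m1, by simpa only [shf_self] using m2, fun X _ => m3 X⟩ j (k := k) (k' := ())
      ⟨(shf_self _ _).symm, rfl, rfl, rfl, rfl, fun _ _ => Iff.rfl⟩ (fun v hv => by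
        rw [((ok.src k).en (D.pre.on k)).1] at hv
        have : zd v 0 ≤ 1 := by
          simp only [mem_insert, mem_singleton] at hv
          rcases hv with rfl | rfl
          · simp [zd]
          · unfold uz; split_ifs <;> simp [zd]
        simp only [min_self]
        omega) hx hk hT
    rwa [image_shf] at this
  have h5 : ∀ k, (g.src k).y ∉ U → cf (one g A' k) () ((one g A' k).csC L q u j U) = 0 :=
    fun k hk => cf_not_mem (g := one g A' k) (W.Geo.csC_mem (ok_one ok D.w k) hu L q j U).1 hk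
  obtain ⟨hm, hn⟩ := W.Geo.csC_mem ok hu L q j U
  rw [Br, br, h0]
  by_cases hk : ∃ k, (g.src k).y ∈ U
  · obtain ⟨k, hk⟩ := hk
    rw [sum_eq_single k (fun k' _ hne => by rw [h5 k' fun h => hne (h6 _ _ h hk), zero_smul])
      (fun h => absurd (mem_univ _) h), h4 k hk, sub_sub, sub_eq_zero]
    exact src_one hm hn k fun k' h => h6 _ _ h hk
  · push Not at hk
    rw [sum_eq_zero fun k _ => by rw [h5 k (hk k), zero_smul], sub_zero, sub_eq_zero]
    exact src_zero hm hn hk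

/-- A bad set with a source is large at the early scales. -/
theorem src_bad (hL : 1 ≤ L) {j : ℕ} (hj : j ≤ g.J) {U : Finset g.P}
    (hU : ¬ Gd g (sc L j) (8 * sc L N) U) {k : g.K} (hk : (g.src k).y ∈ U) :
    8 * sc L g.J / 20 + 1 ≤ stein U := by
  by_contra h
  have h1 := sc_mono hL hj
  have h2 := sc_mono hL D.JN
  refine hU ⟨⟨by omega, fun f hf x hx => not_le.1 fun h3 => ?_⟩, fun a b ha hb => ?_⟩
  · have h4 := tdist_le_stein hx hk
    have h5 := tdist_triangle f x (g.src k).y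
    have h6 := D.pre.sep.fs k f (by omega)
    rw [hf] at h6
    norm_num at h6
  · by_contra hne
    have := D.pre.sep.ss a b hne
    have := tdist_le_stein ha hb
    omega

/-- The constant of one scale. -/
noncomputable def cX (Λ n k : ℕ) : ℝ :=
  (k + 2) * ((Λ + 1) ^ 2 * (4 ^ (k + 2) * (k + 3).factorial) + n * 1600 +
    k * (4 ^ k * (k + 1).factorial))

variable {q : Par} {u : Cor g.M} {w a e h : ℝ}

omit D in
open Classical in
theorem unif (F : g.FlowX L q u N w a e h) {j : ℕ} (hj : j ≤ N) :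
    Anch (sc L j) (2 * L) (fun U => if j ≤ g.J ∧ g.Exc U then 0 else
      g.ps (w * sc L (min j g.J)) U (g.csC L q u j U))
      (if j ≤ g.J then a / 2 ^ j else e / 2 ^ (j - g.J)) := by
  by_cases h : j ≤ g.J
  · simpa only [h, true_and, if_true, min_eq_left h] using F.early j h
  · simpa only [h, false_and, if_false, min_eq_right (not_le.1 h).le] using
      F.late j (not_le.1 h) hj

open Classical in
theorem scale_le (hL : 8 ≤ L) (hq : q.Ok) (hR : 16 * (q.R + 1) ≤ g.M) (hu : u.Ok) (hw : 0 < w)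
    (hJ : 1 ≤ g.J) (F : g.FlowX L q u N w a e h) (F0 : (bare g A').FlowX L q u N w a e h)
    (F1 : ∀ k, (one g A' k).FlowX L q u N w a e h) {j : ℕ} (hj : j ≤ N) :
    g.ps (w * sc L g.J) univ (∑ U, Br g A' L q u j U) ≤
      cX Λ n (Fintype.card g.K) * (if j ≤ g.J then a / 2 ^ j else e / 2 ^ (j - g.J)) := by
  have ok := D.pre.ok
  set k := Fintype.card g.K with hk
  set ε := if j ≤ g.J then a / 2 ^ j else e / 2 ^ (j - g.J) with hε
  set S := univ.filter fun U => ¬ Gd g (sc L j) (8 * sc L N) U with hS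
  rw [← sum_filter_of_ne (p := fun U => ¬ Gd g (sc L j) (8 * sc L N) U)
    fun U _ hne hU => hne (br_good D hL hq hR hu hj hU)]
  have h8 := eight_le_sc (L := L) (by omega) (min j g.J)
  have hβ : 0 < w * sc L (min j g.J) := by positivity
  have hle : w * sc L (min j g.J) ≤ w * sc L g.J :=
    mul_le_mul_of_nonneg_left (by exact_mod_cast sc_mono (by omega) (min_le_right _ _)) hw.le
  have hG : 4 * (w * sc L g.J) / (w * sc L (min j g.J)) ≤ 4 * (L : ℝ) ^ (g.J - j) := by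
    rw [div_le_iff₀ hβ, sc_eq (min_le_right j g.J), show g.J - min j g.J = g.J - j by omega]
    push_cast
    exact le_of_eq (by ring)
  have hL1 : (1 : ℝ) ≤ L := by exact_mod_cast (by omega : 1 ≤ L)
  have h64 : 64 ≤ sc L g.J := by
    have := sc_mono (L := L) (by omega) hJ
    have h5 : sc L 1 = 8 * L := by simp [sc]
    omega
  have key : ∀ (p : Finset g.P → Prop) (f f' : Finset g.P → ℝ), (∀ U, 0 ≤ f U) →
      Anch (sc L j) (2 * L) (fun U => if j ≤ g.J ∧ p U then 0 else f U) ε →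
      (∀ U, p U → g.Exc U) → (∀ U, f' U ≤ (4 * (L : ℝ) ^ (g.J - j)) ^ k * f U) →
      (∀ U, (∀ i, (g.src i).y ∉ U) → f' U ≤ f U) →
      ∑ U ∈ S, f' U ≤ ((Λ + 1) ^ 2 * (4 ^ (k + 2) * (k + 3).factorial) + n * 1600 +
        k * (4 ^ k * (k + 1).factorial)) * ε := by
    intro p f f' hf hA hp h1 h2
    have ne : ∀ U ∈ S, ¬ (j ≤ g.J ∧ p U) := fun U hU ⟨a1, a2⟩ => by
      obtain ⟨i, a3, a4⟩ := exc_sub ok D.pre.on (hp U a2)
      have := src_bad D (by omega) a1 (mem_filter.1 hU).2 a3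
      omega
    refine bad_sum (T := if j ≤ g.J then 8 * sc L g.J / 20 + 1 else 0) hL hj D.M2
      (fun U => by split_ifs; exacts [le_rfl, hf U]) hA S _ (univ.image fun i => (g.src i).y)
      D.card (card_image_le.trans_eq card_univ) (G := 4 * (L : ℝ) ^ (g.J - j)) (by positivity)
      (by have := D.JN; gcongr) ?_ (fun U hU => by rw [if_neg (ne U hU)]; exact h1 U)
      fun U hU => ?_
    · split_ifs with h
      · exact (gain (L := L) (by omega) h le_rfl k).trans (mul_le_of_le_one_right (by positivity)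
          (div_le_one_of_le₀ (one_le_pow₀ (by norm_num)) (by positivity)))
      · rw [show g.J - j = 0 by omega]
        have : (1 : ℝ) ≤ (k + 1).factorial := by exact_mod_cast (k + 1).factorial_pos
        simp only [pow_zero, mul_one, Nat.cast_zero, mul_zero, zero_div, neg_zero, Real.exp_zero]
        exact le_mul_of_one_le_right (by positivity) this
    · rw [if_neg (ne U hU)]
      have hb := (mem_filter.1 hU).2
      by_cases a1 : ∃ i, (g.src i).y ∈ U
      · obtain ⟨i, hi⟩ := a1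
        refine Or.inr (Or.inr ⟨?_, _, mem_image_of_mem _ (mem_univ i), hi⟩)
        split_ifs with h
        exacts [src_bad D (by omega) h hb hi, Nat.zero_le _]
      push Not at a1
      by_cases a2 : 8 * sc L N / 20 < stein U
      · exact Or.inl a2
      refine Or.inr (Or.inl ⟨h2 U a1, ?_⟩)
      by_contra a3
      push Not at a3
      exact hb ⟨⟨not_lt.1 a2, fun f hf x hx => a3 f (mem_filter.2 ⟨mem_univ _, hf⟩) x hx⟩,
        fun i _ hi => absurd hi (a1 i)⟩
  have hβ' := hβ.trans_le hle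
  have c0 := fun U => (W.Geo.csC_mem ok hu L q j U).1
  have c1 := fun U => (W.Geo.csC_mem (ok_bare D.w) hu L q j U).1
  have c2 := fun i U => (W.Geo.csC_mem (ok_one ok D.w i) hu L q j U).1
  refine (RN.pn_sum le_rfl one_pos hβ' _ _).trans ((sum_le_sum fun U _ => ps_br ok.sign D.w hβ'
    (c0 U) fun i => c2 i U).trans ?_)
  rw [sum_add_distrib, sum_add_distrib, sum_comm]
  have b1 := key _ _ _ (fun _ => ps_nonneg _) (unif F hj) (fun _ h => h)
    (fun U => ps_wt ok.sign hβ hle hG le_rfl (c0 U)) fun U hU => ps_nosrc ok.sign hβ hle (c0 U) hU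
  have b2 := key _ _ _ (fun _ => ps_nonneg _) (unif F0 hj) (fun _ ⟨i, _⟩ => i.elim)
    (fun U => ps_wt (g := bare g A') D.w hβ hle hG (by simp) (c1 U))
    fun U _ => ps_nosrc (g := bare g A') D.w hβ hle (c1 U) fun i => i.elim
  have b3 := sum_le_card_nsmul univ _ _ fun i _ => key _ _ _ (fun _ => ps_nonneg _)
    (unif (F1 i) hj) (fun _ ⟨_, h'⟩ => ⟨i, h'⟩)
    (fun U => ps_wt (g := one g A' i) D.w hβ hle hG
      (by rw [Fintype.card_unit]; exact Fintype.card_pos_iff.2 ⟨i⟩) (c2 i U))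
    fun U hU => ps_nosrc (g := one g A' i) D.w hβ hle (c2 i U) fun _ => hU i
  rw [nsmul_eq_mul, card_univ, ← hk] at b3
  refine (add_le_add (add_le_add b1 b2) b3).trans (le_of_eq ?_)
  rw [cX]
  ring

theorem WX_le (hL : 8 ≤ L) (hq : q.Ok) (hR : 16 * (q.R + 1) ≤ g.M) (hu : u.Ok) (hw : 0 < w)
    (ha : 0 ≤ a) (he : 0 ≤ e)
    (hJ : 1 ≤ g.J) (F : g.FlowX L q u N w a e h) (F0 : (bare g A').FlowX L q u N w a e h)
    (F1 : ∀ k, (one g A' k).FlowX L q u N w a e h) :
    g.ps (w * sc L g.J) univ (WX g A' L q u N) ≤ cX Λ n (Fintype.card g.K) * (2 * a + e) := by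
  have h8 := eight_le_sc (L := L) (by omega) g.J
  have hβ : 0 < w * sc L g.J := by positivity
  have e1 : WX g A' L q u N = ∑ j ∈ range (N + 1), ∑ U, Br g A' L q u j U := by
    simp only [WX, CX, Br, ← br_sum]
  rw [e1]
  refine (RN.pn_sum le_rfl one_pos hβ _ _).trans ((sum_le_sum fun j hj =>
    scale_le D hL hq hR hu hw hJ F F0 F1 (j := j) (by have := mem_range.1 hj; omega)).trans ?_)
  rw [← mul_sum]
  refine mul_le_mul_of_nonneg_left ?_ (by unfold cX; positivity)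
  rw [sum_split N g.J D.JN]
  refine add_le_add ?_ ?_
  · rw [sum_congr rfl (g := fun j => a * (1 / 2 ^ j)) fun j hj => by
      rw [if_pos (by have := mem_range.1 hj; omega), mul_one_div], ← mul_sum, mul_comm]
    exact mul_le_mul_of_nonneg_right (geo_all _) ha
  · rw [sum_congr rfl (g := fun j => e * (1 / 2 ^ (j - g.J))) fun j hj => by
      rw [if_neg (by have := (mem_Ico.1 hj).1; omega), mul_one_div], ← mul_sum]
    exact mul_le_of_le_one_right he (geo_tail' _ _)

end DX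

end Vale.Agent.P144Z
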