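import Vale.Agent.P144DX.Step
import Vale.Agent.P144U.Rg.Early
import Vale.Agent.P144U.Rg.Wt
import Vale.Agent.P144U.Fl.Init
import Vale.Agent.P144Z.FM.Rad

/-!
# The flow of a cluster inside a domain
-/

namespace Vale.Agent.P144Z

open Finset Matrix

/-- The geometries with two scales: `g.J` for the cluster and `N` for the domain. -/
structure Geo.PreX (g : Geo) (A₀ : Gauge g.M) (c : g.P) (L R₀ N R r ρ Λ₁ Λ : ℕ) : Prop where
  pre : g.Pre0 L R₀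
  loc : LocX g.A A₀ c R r ρ
  src : ∀ k, tdist (g.src k).y c ≤ R
  JN : g.J ≤ N
  r1 : 8 * sc L g.J ≤ r
  r2 : r ≤ R
  r3 : R ≤ Λ₁ * sc L g.J
  M1 : 16 * sc L N ≤ g.M
  M2 : g.M ≤ Λ * sc L N
  deep : R + 4 * sc L N + 5 ≤ ρ

open Classical in
/-- The bounds on the flow up to the step `N`. -/
structure Geo.FlowX (g : Geo) (L : ℕ) (q : Par) (u : Cor g.M) (N : ℕ) (w a e h : ℝ) : Prop where
  conv : g.ConvC L q u N
  early : ∀ j ≤ g.J, Anch (sc L j) (2 * L)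
    (fun U => if g.Exc U then 0 else g.ps (w * sc L j) U (g.csC L q u j U)) (a / 2 ^ j)
  late : ∀ j, g.J < j → j ≤ N → Anch (sc L j) (2 * L)
    (fun U => g.ps (w * sc L g.J) U (g.csC L q u j U)) (e / 2 ^ (j - g.J))
  last : g.pn (sc L N) h (w * sc L g.J) univ (∑ X, (g.flowC L q u N).H X) ≤ e

/-- The bounds on the flow for the fields of a class. -/
def FlowXQ (Q : Cls) (q : Par) (L m : ℕ) (σ γ a : ℝ) : Prop :=
  ∀ (Λ₁ Λ : ℕ) (H e : ℝ), 0 < H → 0 < e → ∃ w > 0, ∃ J₀ : ℕ, ∀ (g : Geo) (A₀ : Gauge g.M)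
    (c : g.P) (N R r ρ : ℕ), J₀ ≤ g.J → g.PreX A₀ c L q.R N R r ρ Λ₁ Λ → Fintype.card g.K ≤ m →
    Q g.M g.A g.J → Q g.M A₀ N → ∀ u : Cor g.M, u.Ok → u.Off g.A → u.Wt σ γ →
      g.FlowX L q u N w a e H

namespace DX

open W W.FD Vale.Agent.P144Z.FM RgU W.Geo.R8 R8

set_option maxHeartbeats 400000 in
theorem steps : ∃ ε₀ > (0 : ℝ), ∀ ε > (0 : ℝ), ε ≤ ε₀ → ∃ L₀ : ℕ, ∀ L ≥ L₀, ∃ C : ℝ, 1 ≤ C ∧
    ∀ N₁ : ℕ, ∃ Ω : ℝ, 1 ≤ Ω ∧ ∀ Λ₁ : ℕ, ∃ (p₁ : ℕ) (γ : ℝ), 0 < γ ∧ γ ≤ 1 ∧ ∀ p₂ : ℕ,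
    1 ≤ 2 ^ p₂ * γ ^ p₁ → ∀ (g : Geo) (A₀ : Gauge g.M) (c : g.P) (R₀ N R r ρ Λ k : ℕ),
    g.PreX A₀ c L R₀ N R r ρ Λ₁ Λ → p₂ ≤ g.J → 1 ≤ g.J → k ≤ g.J → QU L ε k N₁ g.M A₀ N →
      ∃ ω : ℕ → g.P → ℝ, (∀ ℓ z, 1 ≤ ω ℓ z ∧ ω ℓ z ≤ Ω) ∧ ∀ β > 0, ∀ j, g.J ≤ j → j < N →
        g.StepX L j (hr L p₁ p₂ g.J γ j) (hr L p₁ p₂ g.J γ (j + 1)) β C (ω (sc L j))
          (ω (L * sc L j)) := by
  classical
  obtain ⟨L₁, hG⟩ := stepX
  obtain ⟨C₁, hC₁, hS⟩ := shr_all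
  have he6 : 1 ≤ Real.exp 6 := Real.one_le_exp (by norm_num)
  set e₀ := 1 / (32 * Real.exp 6 * 40001352) with he₀
  have he0 : 0 < e₀ := by positivity
  have he1 : 32 * Real.exp 6 * 40001352 * e₀ = 1 := by rw [he₀]; field_simp
  have he2 : 576 * e₀ ≤ 1 := by nlinarith
  have hs0 : 0 < √e₀ := Real.sqrt_pos.2 he0
  have hs1 : √e₀ ^ 2 = e₀ := Real.sq_sqrt he0.le
  refine ⟨e₀, he0, fun ε hε hε' => ⟨max L₁ (max 64 ⌈(C₁ ^ 2 / e₀) ^ 2⌉₊), fun L hL => ?_⟩⟩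
  have hL64 : 64 ≤ L := (le_max_left _ _).trans ((le_max_right _ _).trans hL)
  have hLc : (C₁ ^ 2 / e₀) ^ 2 ≤ L :=
    Nat.ceil_le.1 ((le_max_right _ _).trans ((le_max_right _ _).trans hL))
  have hL1 : (64 : ℝ) ≤ L := by exact_mod_cast hL64
  have hL0 : (0 : ℝ) < L := by linarith
  obtain ⟨C, hC, hG⟩ := hG L ((le_max_left _ _).trans hL)
  refine ⟨C, hC, fun N₁ => ?_⟩
  obtain ⟨Ω, hΩ, hW⟩ := wtS L N₁ (by omega)
  refine ⟨Ω, hΩ, fun Λ₁ => ?_⟩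
  obtain ⟨p, hS⟩ := hS Λ₁ L hL64
  set ρ₀ := 1 / (8 * Real.exp 3 * (4 * L + 1)) with hρ₀
  have he3 : 1 ≤ Real.exp 3 := Real.one_le_exp (by norm_num)
  have hρ0 : 0 < ρ₀ := by positivity
  have hρ1 : ρ₀ ≤ 1 / 2 := by
    rw [hρ₀]
    exact one_div_le_one_div_of_le two_pos (by nlinarith)
  have hq1 : 1 ≤ √(L : ℝ) := Real.one_le_sqrt.2 (by linarith)
  have hγ0 : 0 < ρ₀ / (2 * √L) := by positivity
  have hγ1 : ρ₀ / (2 * √L) ≤ 1 := (div_le_self hρ0.le (by linarith)).trans (by linarith)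
  refine ⟨(p + 1) * Λ₁, _, hγ0, hγ1, fun p₂ hp₂ g A₀ c R₀ N R r ρ Λ k H hJ hJ1 hk
    ⟨Tp, hTp, _, c', hc', hcL', hb'⟩ => ?_⟩
  obtain ⟨ω, hω, hW⟩ := hW g.M Tp
  refine ⟨ω, hω, fun β hβ j hj hjN => ?_⟩
  have hlo := hr_lo (L := L) hγ0 hγ1 hp₂ hJ
  have hpos : ∀ i, 0 < hr L ((p + 1) * Λ₁) p₂ g.J (ρ₀ / (2 * √L)) i := fun i =>
    (pow_pos hL0 2).trans_le (hlo i)
  have h8 := eight_le_sc (L := L) (by omega) j
  have h1 : L * sc L j ≤ sc L N := by rw [← sc_succ]; exact sc_mono (by omega) hjN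
  have hM := H.M1
  have hd := H.deep
  obtain ⟨κ, σ, n₂, a3, a4, a7, a5, a6⟩ := hb' j (hk.trans hj) hjN
  have hB := H.loc.bdU (by omega) (by omega) (hW A₀ (sc L j) n₂ c' κ σ ε (by omega)
    (fun p a p' a' h => by have := hTp p a p' a' h; omega) hcL' a3 a4 a7 a5 a6)
  have hA := H.pre.ok.sign
  by_cases hm : j < g.J + (p + 1) * Λ₁
  · refine hG g j _ _ β √L ρ₀ (2 * ρ₀ ^ 2 * (4 * L + 1) ^ 2) _ _ hA hj (by omega) (hlo j) (hpos _) ?_
      hβ (by positivity) (fun z => RN.shr_triv _ (Nat.le_mul_of_pos_left _ (by omega)) z (by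
        rw [Real.sq_sqrt hL0.le]; push_cast; rfl)) hρ0 hρ1 ?_ hB.one hB.mono (le_of_eq ?_)
      fun f D hf hD hD0 z => ?_
    · rw [hr_mid hJ hj hm]
      nlinarith [hpos j]
    · rw [hr_mid hJ hj hm]
      apply le_of_eq
      field_simp
    · rw [hρ₀, show Real.exp 6 = Real.exp 3 ^ 2 by rw [← Real.exp_nat_mul]; norm_num]
      field_simp
      norm_num
    · refine (sum_le_sum fun U _ => mul_le_mul_of_nonneg_right
        (ksW_le_self (by positivity) U) (hf U)).trans ?_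
      rw [← mul_sum, mul_assoc (2 * ρ₀ ^ 2)]
      refine mul_le_mul_of_nonneg_left ((loc_sum' (by omega) (by positivity) hf hD hD0
        (zero_le_one.trans (hB.one z)) z (2 * L) _
        (fun _ x hx => hB.mono x z (by rw [mul_assoc] at hx; omega)) fun U hU => by
          obtain ⟨x, hx, h⟩ := mem_near.1 (mem_filter.1 hU).1
          exact ⟨x, hx, by rwa [mul_assoc]⟩).trans (le_of_eq ?_)) (by positivity)
      push_cast
      ring
  · have h2 : (p + 1) * R ≤ sc L j := by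
      have a1 : (p + 1) * Λ₁ ≤ L ^ ((p + 1) * Λ₁) := (Nat.lt_pow_self (by omega : 1 < L)).le
      calc (p + 1) * R ≤ (p + 1) * (Λ₁ * sc L g.J) := Nat.mul_le_mul_left _ H.r3
        _ = (p + 1) * Λ₁ * sc L g.J := by ring
        _ ≤ L ^ ((p + 1) * Λ₁) * sc L g.J := by gcongr
        _ = sc L (g.J + (p + 1) * Λ₁) := by unfold sc; ring
        _ ≤ sc L j := sc_mono (by omega) (by omega)
    rw [add_mul, one_mul] at h2
    have h3 : R ≤ sc L j := by omega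
    have hc0 : 0 < c' := by linarith
    have hcL : c' ^ 2 ≤ e₀ * L := hcL'.trans (by gcongr)
    have r0 := r_ge (by omega) hJ1 H.r1
    refine hG g j _ _ β √e₀ (2 * √e₀) (169 * (2 * (2 * √e₀) ^ 2) + 10000 * (4000 * ε)) _ _ hA hj
      (by omega) (hlo j) (hpos _) ?_ hβ hs0.le
      (hS g A₀ c R r ρ hA H.loc r0 H.r2 (H.r3.trans (Nat.mul_le_mul_left _ (by
        have := H.r1; omega))) (sc L j) (by omega) h3 (by omega) (by omega) c' _ hc0.le hB.sch ?_ ?_)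
      (by positivity) (by nlinarith) ?_ hB.one hB.mono ?_ fun f D hf hD hD0 z =>
        sum_ksX hA h8 (by omega) (by omega) (fun p hp => (H.loc.near (by omega) hp).trans h3)
          (fun k => (H.src k).trans h3) hB hc0 (by nlinarith) (by positivity) hf hD hD0 z
    · rw [hr_late hJ (by omega)]
      linarith [hpos j]
    · refine Real.le_sqrt_of_sq_le ?_
      rw [mul_pow, Real.sq_sqrt (by positivity), ← div_eq_mul_inv, div_le_iff₀ hL0]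
      exact hcL
    · refine Real.le_sqrt_of_sq_le ?_
      have a1 : C₁ ^ 2 / e₀ ≤ √L := Real.le_sqrt_of_sq_le hLc
      rw [mul_pow, Real.sq_sqrt (by positivity), Real.sqrt_inv, ← div_eq_mul_inv,
        div_le_iff₀ (by positivity), mul_comm, ← div_le_iff₀ he0]
      exact a1
    · rw [hr_late hJ (by omega)]
      exact le_of_eq (by ring)
    · rw [mul_pow, hs1]
      nlinarith

theorem ind {g : Geo} {L J N : ℕ} {h : ℕ → ℝ} {β C Ω d b : ℝ} {ω : ℕ → g.P → ℝ} (hC : 1 ≤ C)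
    (hω : ∀ ℓ z, 1 ≤ ω ℓ z ∧ ω ℓ z ≤ Ω) (hS : ∀ j, J ≤ j → j < N →
      g.StepX L j (h j) (h (j + 1)) β C (ω (sc L j)) (ω (L * sc L j))) {s : ℕ → g.St}
    (hs : ∀ j, s (j + 1) = g.step j (sc L j) (L * sc L j) 0 (s j)) (ws : ∀ j, g.Wf (s j))
    (hb : 0 ≤ b) (h1 : 8 * C * b ≤ d) (h2 : 8 * (C * (d * Ω + b)) * Ω ≤ 1) (hΩ : 1 ≤ Ω)
    (h0 : Anch (sc L J) L (g.df (sc L J) (h J) β (s J) (g.srcSt 0)) d)
    (hbf : ∀ j, J ≤ j → j < N → Anch (sc L j) L (g.bf (sc L j) (h j) (s j)) (b / 2 ^ (j - J))) :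
    (∀ j, J ≤ j → j ≤ N →
      Anch (sc L j) L (g.df (sc L j) (h j) β (s j) (g.srcSt 0)) (d / 2 ^ (j - J) * Ω)) ∧
    ∀ j, J ≤ j → j < N → g.ExpId (covP (Dm g.A) (sc L j) (sc L (j + 1))) (s j) ∧
      Anch (sc L (j + 1)) (2 * L) (fun U => g.pn (sc L j) (h j / 2) β U
        (g.intg (sc L j) (L * sc L j) (s j) U)) (C * (d * Ω + b) / 2 ^ (j - J)) := by
  have hd : 0 ≤ d := le_trans (by positivity) h1
  have hx : 0 ≤ C * (d * Ω + b) := by positivity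
  have e1 : ∀ i : ℕ, C * (d / 2 ^ i * Ω + b / 2 ^ i) = C * (d * Ω + b) / 2 ^ i := fun i => by ring
  have e2 : ∀ i : ℕ, C * (d / 2 ^ i * Ω + b / 2 ^ i) ≤ C * (d * Ω + b) := fun i => by
    rw [e1]; exact div_pow_le hx i
  have step := fun j (hj : J ≤ j) (hj' : j < N) (hD : AnchW (sc L j) L (g.df (sc L j) (h j) β (s j)
      (g.srcSt 0)) (ω (sc L j)) (d / 2 ^ (j - J))) =>
    hS j hj hj' (s j) (ws j) _ _ _ (by positivity) ((e2 _).trans (by nlinarith)) hD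
      (anchW_anch hD (by positivity) fun z => (hω _ z).2) (hbf j hj hj')
  have key : ∀ j, J ≤ j → j ≤ N → AnchW (sc L j) L (g.df (sc L j) (h j) β (s j) (g.srcSt 0))
      (ω (sc L j)) (d / 2 ^ (j - J)) := by
    intro j hj
    induction j, hj using Nat.le_induction with
    | base => exact fun _ => anch_anchW (by simpa using h0) (by positivity) fun z => (hω _ z).1
    | succ j hj ih =>
      intro hN
      have s2 := (step j hj (by omega) (ih (by omega))).2.1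
      rw [← hs, ← sc_succ] at s2
      refine anchW_le s2 ?_ fun z => (hω _ z).1
      rw [show j + 1 - J = j - J + 1 by omega, pow_succ]
      have a1 : 0 ≤ d / 2 ^ (j - J) := by positivity
      have a2 := mul_le_mul_of_nonneg_right (e2 (j - J)) (by positivity : 0 ≤ d / 2 ^ (j - J) * Ω)
      have a3 := mul_le_mul_of_nonneg_right h2 a1
      have a4 := div_le_div_of_nonneg_right h1 (by positivity : (0 : ℝ) ≤ 2 ^ (j - J))
      have a5 : 8 * C * b / 2 ^ (j - J) = 8 * (C * (b / 2 ^ (j - J))) := by ring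
      have a6 : d / (2 ^ (j - J) * 2) = d / 2 ^ (j - J) / 2 := by ring
      linarith
  refine ⟨fun j hj hj' => anchW_anch (key j hj hj') (by positivity) fun z => (hω _ z).2,
    fun j hj hj' => ?_⟩
  obtain ⟨s1, -, s3⟩ := step j hj hj' (key j hj hj'.le)
  rw [sc_succ]
  exact ⟨s1, anch_le s3 (e1 _).le⟩

theorem z_le {g : Geo} {L J : ℕ} {q : Par} {u : Cor g.M} {h : ℕ → ℝ} {δ a : ℝ} (hδ : 0 < δ)
    (H : W.FD.EOut g L q u J h δ a a) (ha : 2 * a ≤ δ) (h0 : ∀ k, |g.z0 q k| ≤ 1) (k : g.K) :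
    |(g.flowC L q u J).z k| ≤ 2 := by
  have key : ∀ j ≤ J, |(g.flowC L q u j).z k| ≤ 2 - 1 / 2 ^ j := by
    intro j hj
    induction j with
    | zero => exact (h0 k).trans (by norm_num)
    | succ j ih =>
      have h5 : a / 2 ^ j ≤ δ * (1 / 2 ^ (j + 1)) := by
        rw [pow_succ, div_le_iff₀ (by positivity)]
        field_simp
        linarith
      have h6 := le_of_mul_le_mul_left ((H.z j (by omega) k).trans h5) hδ
      have h7 : (1 : ℝ) / 2 ^ j = 2 * (1 / 2 ^ (j + 1)) := by rw [pow_succ]; field_simp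
      have h8 := abs_add_le ((g.flowC L q u (j + 1)).z k - (g.flowC L q u j).z k)
        ((g.flowC L q u j).z k)
      rw [sub_add_cancel] at h8
      linarith [ih (by omega)]
  exact (key J le_rfl).trans (sub_le_self _ (by positivity))

theorem ex_J {x d : ℝ} (hd : 0 < d) : ∃ J₀ : ℕ, ∀ J ≥ J₀, x / 2 ^ J ≤ d := by
  obtain ⟨J₀, h⟩ := pow_unbounded_of_one_lt (x / d) (one_lt_two (α := ℝ))
  refine ⟨J₀, fun J hJ => ?_⟩
  rw [div_le_iff₀ (by positivity), ← div_le_iff₀' hd]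
  exact h.le.trans (pow_le_pow_right₀ one_le_two hJ)

end DX

open W W.FD FM DX in
set_option maxHeartbeats 400000 in
/-- The bounds on the flow for the classes of boundaries with tips. -/
theorem flowX : ∃ ε₀ > (0 : ℝ), ∀ ε > (0 : ℝ), ε ≤ ε₀ → ∃ L₀ : ℕ, ∀ L ≥ L₀, ∃ kf : ℕ → ℕ → ℕ,
    ∃ a σ : ℝ, 0 ≤ a ∧ 0 ≤ σ ∧ ∃ η₀ > (0 : ℝ), ∀ η, 0 < η → η ≤ η₀ → ∀ R : ℕ, ∃ δ₀ > (0 : ℝ),
      ∀ q : Par, q.R = R → Crit L q η δ₀ → ∀ m N k, kf m N ≤ k →
        FlowXQ (QU L ε k N) q L m σ η a := by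
  obtain ⟨ε₁, hε₁, hE⟩ := engT_of initU wtS
  obtain ⟨ε₂, hε₂, hS⟩ := DX.steps
  obtain ⟨Cb, hCb, hbf⟩ := W.Geo.ag_bfC
  obtain ⟨Cs, hCs, hsrc⟩ := W.Geo.R8.df_srcSt
  refine ⟨min ε₁ ε₂, by positivity, fun ε hε hε' => ?_⟩
  obtain ⟨L₁, hE⟩ := hE ε hε (hε'.trans (min_le_left _ _))
  obtain ⟨L₂, hS⟩ := hS ε hε (hε'.trans (min_le_right _ _))
  refine ⟨max (max L₁ L₂) 16, fun L hL => ?_⟩
  have hL16 : 16 ≤ L := le_of_max_le_right hL
  have hL1 : 1 ≤ L := by omega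
  have hL' : (1 : ℝ) ≤ L := by exact_mod_cast hL1
  obtain ⟨kf, δ, hδ, A, hA, σ, hσ, η₀, hη₀, hE⟩ := hE L (le_of_max_le_left (le_of_max_le_left hL))
  obtain ⟨C, hC, hS⟩ := hS L (le_of_max_le_right (le_of_max_le_left hL))
  refine ⟨kf, δ, σ, hδ.le, hσ, min η₀ (min (1 / 20) (δ / (2 * A))), by positivity,
    fun η hη hη' R₀ => ?_⟩
  simp only [le_min_iff] at hη'
  obtain ⟨e1, e2, e3⟩ := hη'
  rw [le_div_iff₀ (by positivity)] at e3
  obtain ⟨δ₀, hδ₀, hE⟩ := hE η hη e1 R₀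
  refine ⟨δ₀, hδ₀, fun q hR hq m N₁ k hk Λ₁ Λ H e hH he => ?_⟩
  replace hE := hE q hR hq m _ ⟨N₁, k, hk, rfl⟩
  obtain ⟨Ω, hΩ, hS⟩ := hS N₁
  obtain ⟨p₁, γ, hγ0, hγ1, hS⟩ := hS Λ₁
  obtain ⟨p₂, hp₂⟩ := pow_unbounded_of_one_lt ((H + 1) / γ ^ p₁) (one_lt_two (α := ℝ))
  rw [div_lt_iff₀ (by positivity)] at hp₂
  replace hS := hS p₂ (by linarith)
  set T : ℝ := (32 * Λ + 1) ^ 2 with hT
  have hT1 : 1 ≤ T := one_le_pow₀ (by have : (0 : ℝ) ≤ Λ := Nat.cast_nonneg Λ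
                                      linarith)
  obtain ⟨d, hd, d1, d2⟩ : ∃ d > (0 : ℝ), 16 * C * Ω ^ 2 * d ≤ 1 ∧ 4 * C * Ω * T * d ≤ e :=
    ⟨min (1 / (16 * C * Ω ^ 2)) (e / (4 * C * Ω * T)), by positivity,
      (le_div_iff₀' (by positivity)).1 (min_le_left _ _),
      (le_div_iff₀' (by positivity)).1 (min_le_right _ _)⟩
  obtain ⟨δ', hδ', d3, d4⟩ : ∃ δ' > (0 : ℝ), L * δ' ≤ δ ∧ 4 * (Cs * Real.exp L) * δ' ≤ d :=
    ⟨min (δ / L) (d / (4 * (Cs * Real.exp L))), by positivity,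
      (le_div_iff₀' (by positivity)).1 (min_le_left _ _),
      (le_div_iff₀' (by positivity)).1 (min_le_right _ _)⟩
  have d5 : δ' ≤ δ := (le_mul_of_one_le_left hδ'.le hL').trans d3
  obtain ⟨J₁, hJ₁⟩ := ex_J (x := A * η) (half_pos hd)
  obtain ⟨J₂, hJ₂⟩ := ex_J (x := 8 * C * (Cb * Real.exp L * η)) hd
  set h := (L : ℝ) ^ 2 * 2 ^ p₂ with hh
  have hh0 : 0 < h := by positivity
  refine ⟨δ' / h ^ 2, by positivity, max (max J₁ J₂) (max (max p₂ k) 1),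
    fun g A₀ c N R r ρ hJ P hm Q1 Q0 u hu hf hs => ?_⟩
  simp only [max_le_iff] at hJ
  obtain ⟨⟨j1, j2⟩, ⟨j3, j4⟩, j5⟩ := hJ
  obtain ⟨ω, hω, hS⟩ := hS g A₀ c q.R N R r ρ Λ k P j3 j5 j4 Q0
  have hr' := rad_min hL1 p₂
  have H1 := (hE g _ P.pre hm Q1 hr').1 u hu hf hs
  have h8 : ∀ j, 8 ≤ sc L j := eight_le_sc hL1
  have hs0 : (0 : ℝ) < sc L g.J := by have := h8 g.J; positivity
  have wf := W.Geo.wf_flowC P.pre.ok hu L q
  have hβ : δ' * sc L g.J / h ^ 2 = δ' / h ^ 2 * sc L g.J := by ring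
  have hβ0 : 0 < δ' / h ^ 2 * sc L g.J := by positivity
  have hd0 := H1.df g.J le_rfl
  simp only [min_eq_right j3] at hd0
  have hd1 := hsrc L g P.pre.ok.sign _ (h8 _) (by have := P.pre.M_le; omega)
    (W.Geo.R8.sepW_mono P.pre.sep (by omega)) h δ' hh0 hδ' _ (wf g.J) _ 0 2 _ zero_le_two
    (fun k => by
      rw [Pi.zero_apply, sub_zero]
      exact z_le hδ H1.toEOut (by linarith) (z0_le e2 hq.x hq.Z) k)
    (anch_mono hd0 (IO.df_mono (by have := h8 g.J; omega) hh0 (by positivity) (by gcongr) (wf _)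
      (Geo.wf_srcSt _).1) le_rfl)
  rw [hβ] at hd1
  have hlo := hr_lo (L := L) (J := g.J) hγ0 hγ1 (by linarith) j3
  have hpos : ∀ i, 0 < hr L p₁ p₂ g.J γ i := fun i => lt_of_lt_of_le (by positivity) (hlo i)
  set b := Cb * Real.exp L * η / 2 ^ g.J with hb
  have hb0 : 0 ≤ b := by positivity
  have b1 : 8 * C * b ≤ d := by rw [hb, ← mul_div_assoc]; exact hJ₂ _ j2
  have b2 : b ≤ d * Ω := by nlinarith
  have hbf' : ∀ j, g.J ≤ j → j ≤ N → Anch (sc L j) L (g.bf (sc L j) (hr L p₁ p₂ g.J γ j)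
      (g.flowC L q u j)) (b / 2 ^ (j - g.J)) := fun j hj hj' => by
    refine anch_mono (hbf L (by omega) q η hq.ok hq.bulk g P.pre.ok u hu hf P.pre.R_le j
      ((Nat.mul_le_mul_left _ (sc_mono hL1 hj')).trans P.M1))
      (bf_mono (by have := h8 j; omega) (hpos j) ((hr_le hγ0 hγ1 j).trans (hr'.hi j)) (wf j)) ?_
    refine (mul_le_mul_of_nonneg_left (th_pow hL16 j) (by positivity)).trans ?_
    rw [hb, ← mul_div_assoc, mul_one_div]
    gcongr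
    · norm_num
    · norm_num
    · omega
  obtain ⟨k1, k2⟩ := ind (J := g.J) (N := N) (d := d) hC hω (hS _ hβ0) (flowC_succ L q) wf hb0 b1
    (by nlinarith [mul_pos (by linarith : 0 < C) (by linarith : 0 < Ω)]) hΩ
    (by
      rw [hr_early le_rfl, min_eq_right j3]
      exact anch_le hd1 (by linarith [hJ₁ _ j1])) fun j hj hj' => hbf' j hj hj'.le
  have hCΩ : 0 < C * Ω * d := by positivity
  refine ⟨⟨H1.init, fun j hj => (lt_or_ge j g.J).elim (H1.ex j) fun h => (k2 j h hj).1⟩,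
    fun j hj => anch_le (FlU.early1 hL1 P.pre hr' hu (by positivity) H1 (by positivity)
      (fun i => ?_) j hj) (by gcongr; linarith), fun j hj hj' => ?_, ?_⟩
  · have h3 : (2 : ℝ) ^ min i p₂ ≤ 2 ^ p₂ := pow_le_pow_right₀ one_le_two (min_le_right _ _)
    calc _ ≤ δ' / h ^ 2 * L * h ^ 2 := by rw [hh]; gcongr
      _ = L * δ' := by field_simp
      _ ≤ δ := d3
  · obtain ⟨i, rfl⟩ : ∃ i, j = i + 1 := ⟨j - 1, by omega⟩
    refine anch_mono (k2 i (by omega) (by omega)).2 (fun U => ?_) ?_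
    · rw [csC_succ]
      exact W.FD.ps_le P.pre.ok.sign (by have := h8 i; omega) (half_pos (hpos i)) hβ0 le_rfl
        ((wf i).Cl_mem (covP_anti (Vale.Agent.P144Z.C.Dm_anti _) _ _) U)
    · rw [show i + 1 - g.J = i - g.J + 1 by omega, pow_succ, ← div_div, div_right_comm]
      gcongr
      nlinarith
  · have hN := P.JN
    have a1 := W.FD.pn_sum_H (by have := h8 N; omega) (hpos N) hβ0 P.M2 (by linarith) (wf N)
      (k1 N hN le_rfl) (hbf' N hN le_rfl)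
    simp only [Pi.zero_apply, zero_smul, sum_const_zero, sub_zero] at a1
    refine (RN.pn_mono (by have := h8 N; omega) hH hβ0 ?_ le_rfl subset_rfl
      (W.FD.sum_H_mem (wf N))).trans (a1.trans ?_)
    · rw [hr, min_eq_right (j3.trans hN), mul_assoc]
      refine le_trans ?_ (le_mul_of_one_le_left (by positivity) (one_le_pow₀ hL'))
      refine le_trans (by linarith) (mul_le_mul_of_nonneg_left
        (pow_le_pow_of_le_one hγ0.le hγ1 (min_le_right _ p₁)) (by positivity))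
    · have a2 := mul_le_mul_of_nonneg_right (div_pow_le hd.le (N - g.J)) (by linarith : 0 ≤ Ω)
      have a3 := div_pow_le hb0 (N - g.J)
      rw [← hT]
      refine (mul_le_mul_of_nonneg_left (by linarith : _ ≤ 2 * (d * Ω)) (by linarith)).trans ?_
      nlinarith [mul_pos (by linarith : 0 < T) (mul_pos hd (by linarith : 0 < Ω))]

end Vale.Agent.P144Z
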