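import Vale.Agent.P144DX.Est
import Vale.Agent.P144U.Fl.Main

/-!
# A cluster inside a domain: the bound on the mixed correlations
-/

namespace Vale.Agent.P144Z

open Finset Matrix Geo

/-- The bound on the mixed correlations of a cluster for the class `Q`. -/
def MainX (Q : Cls) (q : Par) (L m : ℕ) (σ γ : ℝ) : Prop :=
  ∀ (n Λ₁ Λ : ℕ) (Γ : ℝ), 1 ≤ Γ → ∃ (B : ℝ) (J₀ : ℕ), 0 ≤ B ∧ ∀ (g : Geo) (A' A₀ : Gauge g.M)
    (c : g.P) (N R r ρ : ℕ), J₀ ≤ g.J → Fintype.card g.K ≤ m →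
    g.DomX A' A₀ c L q.R N R r ρ Λ₁ Λ n Γ → Q g.M g.A g.J → Q g.M A₀ N → Q g.M A' g.J →
    Q g.M A' N → ∀ u : Cor g.M, u.Ok → u.Off A' → u.Wt σ γ →
      (sc L g.J : ℝ) ^ Fintype.card g.K * |g.mixD A' q u| ≤
        B * (|Zw par0 g.A 1| / |Zw par0 A' 1|)

namespace DX

open Mn hiding Br Gd WW WW_eq br_good en_eq exc_sub mix_eq ok_bare ok_one ps_br ps_cf ps_wt see_en
  ss top_le bad_sum
open MN hiding gen Z_eq en_eq mix_eq br_good Gd T_close

variable {g : Geo} {L N : ℕ} {q : Par} {u : Cor g.M} {w a h : ℝ}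

theorem T_close (hg : g.OkW) (hu : u.Ok) (hL : 1 ≤ L) (hh : 0 < h) (hw : 0 < w)
    (F : g.FlowX L q u N w a (1 / 4) h) (H : g.LastB (sc L N) h |Zw par0 g.A 1|) :
    g.ps (w * sc L g.J) univ (TX g L q u N - Zw par0 g.A 1 • 1) ≤ |Zw par0 g.A 1| * (1 / 2) := by
  have h8 := eight_le_sc hL g.J
  have h9 := eight_le_sc hL N
  have hβ : 0 < w * sc L g.J := by positivity
  set X := ∑ X, (g.flowC L q u N).H X with hX
  have hXm : X ∈ g.sub univ :=
    sum_mem fun U _ => mem_univ_sub ((W.Geo.wf_flowC hg hu L q N).H_mem U)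
  have h3 := (pn_exp (by omega) hh hβ hXm F.last).1
  have e : TX g L q u N - Zw par0 g.A 1 • 1 = g.TL (sc L N) (NormedSpace.exp X - 1) := by
    rw [sub_eq_add_neg (NormedSpace.exp X), LM.TL_add, ← neg_one_smul ℝ (1 : g.E), LM.TL_smul,
      LM.TL_one, neg_one_smul, ← sub_eq_add_neg]
    rfl
  rw [e]
  refine (H _ hβ _ (sub_mem (exp_mem_sub _ hXm) (one_mem _))).trans
    (mul_le_mul_of_nonneg_left (h3.trans ?_) (abs_nonneg _))
  have := Real.abs_exp_sub_one_le (x := 1 / 4) (by rw [abs_of_nonneg] <;> norm_num)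
  rw [abs_of_nonneg (by norm_num : (0 : ℝ) ≤ 1 / 4)] at this
  linarith [le_abs_self (Real.exp (1 / 4) - 1)]

theorem ag_close (hg : g.OkW) (hu : u.Ok) (hL : 1 ≤ L) (hh : 0 < h) (hw : 0 < w)
    (F : g.FlowX L q u N w a (1 / 4) h) (H : g.LastB (sc L N) h |Zw par0 g.A 1|) :
    |Zw par0 g.A 1| ≤ 2 * |ag g (TX g L q u N)| := by
  have h8 := eight_le_sc hL g.J
  have hβ : 0 < w * sc L g.J := by positivity
  have c3 := (RN.abs_aug_le_pn le_rfl one_pos hβ _).trans (T_close hg hu hL hh hw F H)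
  rw [← ag_apply, map_sub, map_smul, ag_one, smul_eq_mul, mul_one] at c3
  have := abs_sub_abs_le_abs_sub (Zw par0 g.A 1) (ag g (TX g L q u N))
  rw [abs_sub_comm] at this
  linarith

theorem final {A' A₀ : Gauge g.M} {c : g.P} {R₀ R r ρ Λ₁ Λ n : ℕ} {Γ : ℝ}
    (D : g.DomX A' A₀ c L R₀ N R r ρ Λ₁ Λ n Γ) (hL : 8 ≤ L) (hq : q.Ok)
    (hR : 16 * (q.R + 1) ≤ g.M) (hu : u.Ok) (hw : 0 < w) (ha : 0 ≤ a) (hh : 0 < h) (hJ : 1 ≤ g.J)
    (F : g.FlowX L q u N w a (1 / 4) h) (F0 : (bare g A').FlowX L q u N w a (1 / 4) h)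
    (F1 : ∀ k, (one g A' k).FlowX L q u N w a (1 / 4) h)
    (H : g.LastB (sc L N) h |Zw par0 g.A 1|) (H0 : (bare g A').LastB (sc L N) h |Zw par0 A' 1|)
    (H1 : ∀ k, (one g A' k).LastB (sc L N) h |Zw par0 A' 1|) :
    (w * sc L g.J) ^ Fintype.card g.K * |g.mixD A' q u| ≤
      Real.exp (cX Λ n (Fintype.card g.K) * (2 * a + 1 / 4) + Fintype.card g.K) * 3 *
        (|Zw par0 g.A 1| / |Zw par0 A' 1|) := by
  have ok := D.pre.ok
  obtain ⟨top, ht1, -, ht3⟩ := W.Geo.exists_top g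
  have h8 := eight_le_sc (L := L) (by omega) g.J
  have hβ : 0 < w * sc L g.J := by positivity
  have ht := ht3 1 1 _ ok.sign le_rfl one_pos hβ
  have hy : 0 < |Zw par0 A' 1| := abs_pos.2 (Both.ne_zero D.gap')
  have a1 := fun k => ag_close (ok_one ok D.w k) hu (by omega) hh hw (F1 k) (H1 k)
  have a0 := ag_close (ok_bare D.w) hu (by omega) hh hw F0 H0
  have a2 : ∀ k, 0 < |ag _ (TX (one g A' k) L q u N)| := fun k => by linarith [a1 k]
  have a3 : ∀ k, w * sc L g.J * |tX g A' L q u N k| ≤ 1 := fun k => by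
    have b1 := (ps_cf (g := one g A' k) D.w hβ (sub_mem TX_mem
      (Subalgebra.smul_mem _ (one_mem _) _)) ()).trans
      (T_close (ok_one ok D.w k) hu (by omega) hh hw (F1 k) (H1 k))
    rw [map_sub, map_smul, cf_one, smul_zero, sub_zero] at b1
    rw [tX, abs_div, ← mul_div_assoc, div_le_one (a2 k)]
    linarith [a1 k]
  rw [mix_eq ok D.pre.on (by have := hq.Z_lo; positivity) F.conv F0.conv (fun i => (F1 i).conv)
    (fun i => abs_pos.1 (a2 i)) top ht1, abs_div, ← mul_div_assoc, ← mul_div_assoc,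
    div_le_div_iff₀ (by linarith) hy]
  have b1 := (RN.pn_sub le_rfl one_pos hβ _ _).trans (add_le_add
    (WX_le D hL hq hR hu hw ha (by norm_num) hJ F F0 F1) (ps_bv ok.sign hβ _ a3))
  have b2 := (pn_exp le_rfl one_pos hβ (sub_mem (br_mem CX_mem _ _) (bv_sum_mem _)) b1).2
  have b3 : g.ps (w * sc L g.J) univ (TX g L q u N) ≤ |Zw par0 g.A 1| * (3 / 2) := by
    have c1 := RN.pn_add (X := univ) le_rfl one_pos hβ (TX g L q u N - Zw par0 g.A 1 • 1)
      (Zw par0 g.A 1 • 1)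
    have c2 := T_close ok hu (by omega) hh hw F H
    have c3 := mul_le_of_le_one_right (abs_nonneg (Zw par0 g.A 1))
      (RN.pn_one (g := g) (X := univ) le_rfl one_pos hβ)
    rw [sub_add_cancel, RN.pn_smul le_rfl one_pos hβ] at c1
    unfold Geo.ps at *
    linarith
  have b4 := (ht _).trans ((RN.pn_mul le_rfl one_pos hβ _ _).trans
    (mul_le_mul b2 b3 (RN.pn_nonneg _) (Real.exp_pos _).le))
  rw [mul_one] at b4
  refine (mul_le_mul b4 a0 hy.le (by positivity)).trans (le_of_eq ?_)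
  ring

theorem mainX_of {m : ℕ} {σ γ : ℝ} {Q : Cls} (hL : 8 ≤ L) (hq : q.Ok) (ha : 0 ≤ a)
    (hF : FlowXQ Q q L m σ γ a) : MainX Q q L m σ γ := by
  intro n Λ₁ Λ Γ hΓ
  obtain ⟨Cg, hCg, hg⟩ := LM.lastB_gap
  have hh : 0 < Cg * Γ := by positivity
  obtain ⟨w, hw, J₀, hF⟩ := hF Λ₁ Λ (Cg * Γ) (1 / 4) hh (by norm_num)
  refine ⟨(1 + 1 / w) ^ m * (Real.exp (cX Λ n m * (2 * a + 1 / 4) + m) * 3), max J₀ 1,
    by positivity, fun g A' A₀ c N R r ρ hJ hm D Q1 Q2 Q3 Q4 u hu hoff hsm => ?_⟩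
  obtain ⟨k1, k2⟩ := max_le_iff.1 hJ
  have n1 := D.loc'.nf
  have n2 : ∀ f, flux g.A f = 1 → flux A' f = 1 := fun f e => by
    rw [D.fl, e, ite_self]
  have h9 := eight_le_sc (L := L) (by omega) N
  have F := hF g A₀ c N R r ρ k1 D.toPreX hm Q1 Q2 u hu
    (fun X hX => hoff X fun x hx => n2 x (hX x hx)) hsm
  have F0 := hF (bare g A') A' c N R r ρ k1 ⟨⟨ok_bare D.w, fun i => i.elim, D.pre.M_le, D.pre.R_le,
    ⟨fun f e => absurd e (n1 f), fun i => i.elim, fun i => i.elim⟩⟩, D.loc', fun i => i.elim, D.JN,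
    D.r1, D.r2, D.r3, D.M1, D.M2, D.deep⟩ (UM.card_bare g A' m) Q3 Q4 u hu hoff hsm
  have F1 := fun i => hF (one g A' i) A' c N R r ρ k1 ⟨⟨ok_one D.pre.ok D.w i, fun _ => D.pre.on i,
    D.pre.M_le, D.pre.R_le, ⟨fun f e => absurd e (n1 f), fun _ f hf => n2 f (D.pre.sep.fs i f hf),
      fun _ _ e => absurd rfl e⟩⟩, D.loc', fun _ => D.src i, D.JN, D.r1, D.r2, D.r3, D.M1, D.M2,
    D.deep⟩ (UM.card_one g A' i hm) Q3 Q4 u hu hoff hsm
  have r1 := final D hL hq D.pre.R_le hu hw ha hh k2 F F0 F1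
    (hg g D.pre.ok.sign _ h9 Γ hΓ D.gap _ le_rfl) (hg (bare g A') D.w _ h9 Γ hΓ D.gap' _ le_rfl)
    fun i => hg (one g A' i) D.w _ h9 Γ hΓ D.gap' _ le_rfl
  have hy : 0 ≤ |Zw par0 g.A 1| / |Zw par0 A' 1| := by positivity
  generalize |Zw par0 g.A 1| / |Zw par0 A' 1| = y at *
  generalize Fintype.card g.K = k at *
  have m1 : (k : ℝ) ≤ m := by exact_mod_cast hm
  have e1 : cX Λ n k ≤ cX Λ n m := by
    unfold cX
    gcongr <;> norm_num
  have e2 : (sc L g.J : ℝ) ^ k ≤ (1 + 1 / w) ^ m * (w * sc L g.J) ^ k := by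
    have e3 : 1 ≤ 1 + 1 / w := le_add_of_nonneg_right (by positivity)
    refine le_trans ?_ (mul_le_mul_of_nonneg_right (pow_le_pow_right₀ e3 hm) (by positivity))
    rw [← mul_pow]
    refine pow_le_pow_left₀ (Nat.cast_nonneg _) ?_ k
    rw [← mul_assoc, add_mul, one_div_mul_cancel hw.ne']
    exact le_mul_of_one_le_left (Nat.cast_nonneg _) (by linarith)
  refine (mul_le_mul_of_nonneg_right e2 (abs_nonneg _)).trans ?_
  rw [mul_assoc, mul_assoc]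
  refine mul_le_mul_of_nonneg_left (r1.trans ?_) (by positivity)
  gcongr

end DX

end Vale.Agent.P144Z
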