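import Vale.Agent.P144DX.Ks
import Vale.Agent.P144D.W.Shr
import Vale.Agent.P144Z.R4a.Main

/-!
# Steps above the size of a cluster inside a domain
-/

namespace Vale.Agent.P144Z

open Finset Matrix

/-- The field `A` is the field `A₀` with a cluster of fluxes of size `R` around `c`, at distance at
least `ρ` from the boundary. -/
structure LocX {M : ℕ} (A A₀ : Gauge M) (c : Tor M) (R r ρ : ℕ) : Prop where
  out : ∀ e, R < tdist e.1 c → A e = A₀ e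
  nf : ∀ f, flux A₀ f ≠ -1
  loc : ∃ A₁ A₁', Cluster A₁ A₁' c R r ∧ (∀ e, tdist e.1 c ≤ ρ → A e = A₁ e) ∧
    ∀ e, tdist e.1 c ≤ ρ → A₀ e = A₁' e

/-- The weighted step above the size of the cluster. -/
def Geo.StepX (g : Geo) (L j : ℕ) (h h' β C : ℝ) (ω ω' : g.P → ℝ) : Prop :=
  ∀ s : g.St, g.Wf s → ∀ D E b : ℝ, 0 ≤ D → C * (E + b) ≤ 1 →
    AnchW (sc L j) L (g.df (sc L j) h β s (g.srcSt 0)) ω D →
    Anch (sc L j) L (g.df (sc L j) h β s (g.srcSt 0)) E → Anch (sc L j) L (g.bf (sc L j) h s) b →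
      g.ExpId (covP (Dm g.A) (sc L j) (L * sc L j)) s ∧
      AnchW (L * sc L j) L (g.df (L * sc L j) h' β (g.step j (sc L j) (L * sc L j) 0 s)
        (g.srcSt 0)) ω' (D / 4 + C * b + C * (E + b) * E) ∧
      Anch (L * sc L j) (2 * L) (fun U => g.pn (sc L j) (h / 2) β U
        (g.intg (sc L j) (L * sc L j) s U)) (C * (E + b))

namespace DX

variable {M : ℕ} [NeZero M] {A A₀ : Gauge M} {c : Tor M} {R r ρ : ℕ}

theorem flux_congr {f : Tor M} (h : ∀ e : Tor M × Fin 2, tdist e.1 f ≤ 1 → A e = A₀ e) :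
    flux A f = flux A₀ f := by
  unfold flux
  rw [h (f, 0) (by simp [tdist_self]), h (f, 1) (by simp [tdist_self]), h _ (tdist_uv f 0),
    h _ (tdist_uv f 1)]

theorem shr_congr {ℓ ℓ' : ℕ} {z : Tor M} {κ : ℝ} (hl : ℓ ≤ ℓ')
    (h : ∀ e : Tor M × Fin 2, tdist e.1 z ≤ 2 * ℓ' + 4 → A e = A₀ e) (H : RN.Shr A₀ ℓ ℓ' z κ) :
    RN.Shr A ℓ ℓ' z κ := fun u => by
  rw [W.hsq_congrA h, W.hsq_congrA (r := 2 * ℓ) fun e he => h e (by omega)]
  exact H u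

theorem rk_congr {ℓ ℓ' m : ℕ} {z : Tor M} {a η : ℝ} (hl : m ≤ ℓ')
    (h : ∀ e : Tor M × Fin 2, tdist e.1 z ≤ ℓ' + 4 → A e = A₀ e) (H : RkA A₀ ℓ ℓ' m a η z) :
    RkA A ℓ ℓ' m a η z := by
  obtain ⟨u, H⟩ := H
  refine ⟨u, fun w => ?_⟩
  have e := W.hsq_congrA (z := z) (r := m) fun e he => h e (by omega)
  simp only [W.hsq_congrA h, e]
  exact H w

theorem _root_.Vale.Agent.P144Z.LocX.near (H : LocX A A₀ c R r ρ) (hρ : R + 2 ≤ ρ) {f : Tor M} (hf : flux A f = -1) :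
    tdist f c ≤ R := by
  obtain ⟨A₁, A₁', h1, h2, -⟩ := H.loc
  rcases le_or_gt (tdist f c) (R + 1) with h | h
  · refine h1.near f (hf ▸ (flux_congr fun e he => h2 e ?_).symm)
    have := tdist_triangle e.1 f c
    omega
  · refine absurd (hf ▸ (flux_congr fun e he => H.out e ?_).symm) (H.nf f)
    have := tdist_triangle f e.1 c
    rw [tdist_comm f e.1] at this
    omega

theorem _root_.Vale.Agent.P144Z.LocX.far (H : LocX A A₀ c R r ρ) {f : Tor M} (hf : |flux A f| ≠ 1) : ρ ≤ tdist f c := by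
  obtain ⟨A₁, A₁', h1, h2, -⟩ := H.loc
  by_contra h
  rw [flux_congr (A₀ := A₁) fun e he => h2 e (by have := tdist_triangle e.1 f c; omega)] at hf
  rcases Mn.flux_sign h1.sign f with e | e <;> simp [e] at hf

theorem _root_.Vale.Agent.P144Z.LocX.agree (H : LocX A A₀ c R r ρ) {f z : Tor M} (hf : |flux A f| ≠ 1) {d t : ℕ}
    (hd : tdist f z ≤ d) (ht : R + d + t < ρ) (e : Tor M × Fin 2) (he : tdist e.1 z ≤ t) :
    A e = A₀ e := by
  have h1 := LocX.far H hf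
  have h2 := tdist_triangle f z c
  have h3 := tdist_triangle z e.1 c
  rw [tdist_comm z e.1] at h3
  exact H.out e (by omega)

theorem _root_.Vale.Agent.P144Z.LocX.bdU (H : LocX A A₀ c R r ρ) {L ℓ : ℕ} {a ε : ℝ} {ω ω' : Tor M → ℝ} (hL : 24 ≤ L)
    (hρ : R + 4 * (L * ℓ) + 5 ≤ ρ) (hB : BdU A₀ L ℓ a ε ω ω') : BdU A L ℓ a ε ω ω' := by
  classical
  have h1 : 24 * ℓ ≤ L * ℓ := Nat.mul_le_mul_right ℓ hL
  have fl : ∀ f, |flux A f| ≠ 1 → |flux A₀ f| ≠ 1 := fun f hf => by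
    rwa [← flux_congr (LocX.agree H hf (d := 0) (t := 1) (tdist_self f).le (by omega))]
  refine ⟨fun z ⟨f, h2, h3⟩ => shr_congr (by omega) (LocX.agree H h3 h2 (by omega))
    (hB.sch z ⟨f, h2, fl f h3⟩), hB.one, hB.mono, fun z => ?_⟩
  obtain ⟨κ, Z₁, Z₂, a1, a2, a3, a4, a5, a6⟩ := hB.cov z
  refine ⟨κ, Z₁.filter fun y => RkA A ℓ (L * ℓ) ((8 + 3) * ℓ) y.2.1 y.2.2 y.1, Z₂, a1, a2,
    fun y hy => ?_, a4, le_trans ?_ a5, fun x hx ⟨f, h2, h3⟩ => ?_⟩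
  · obtain ⟨b1, b2⟩ := mem_filter.1 hy
    exact ⟨(a3 y b1).1, (a3 y b1).2.1, (a3 y b1).2.2.1, b2⟩
  · have := sum_le_sum_of_subset_of_nonneg (f := fun y : Tor M × ℝ × ℝ => y.2.1 * y.2.2)
      (filter_subset (fun y => RkA A ℓ (L * ℓ) ((8 + 3) * ℓ) y.2.1 y.2.2 y.1) Z₁) fun y hy _ =>
        mul_nonneg ((a3 y hy).1.le.trans (a3 y hy).2.1) (a3 y hy).1.le
    have := zero_le_one.trans (hB.one z)
    gcongr
  · rcases a6 x hx ⟨f, h2, fl f h3⟩ with h | ⟨y, hy, h⟩ | h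
    · exact Or.inl (shr_congr (by omega) (LocX.agree H h3 h2 (by omega)) h)
    · have := tdist_triangle f x y.1
      exact Or.inr (Or.inl ⟨y, mem_filter.2 ⟨hy, rk_congr (by omega)
        (LocX.agree H h3 (d := 14 * ℓ) (by omega) (by omega)) (a3 y hy).2.2.2⟩, h⟩)
    · exact Or.inr (Or.inr h)

/-- The change of scale at all points. -/
theorem shr_all : ∃ C : ℝ, 1 ≤ C ∧ ∀ Λ L : ℕ, 64 ≤ L → ∃ p : ℕ, ∀ (g : Geo) (A₀ : Gauge g.M)
    (c : g.P) (R r ρ : ℕ), IsW g.A → LocX g.A A₀ c R r ρ → 256 ≤ r → r ≤ R → R ≤ Λ * r → ∀ ℓ : ℕ,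
    p * R ≤ ℓ → R ≤ ℓ → 16 * (L * ℓ) ≤ g.M → R + 4 * (L * ℓ) + 5 ≤ ρ → ∀ a κ : ℝ, 0 ≤ a →
    (∀ z, (∃ f, tdist f z ≤ L * ℓ ∧ |flux g.A f| ≠ 1) →
      RN.Shr g.A ℓ (L * ℓ) z (a * √((ℓ : ℝ) / (L * ℓ : ℕ)))) →
    a * √((L : ℝ)⁻¹) ≤ κ → C * √(√((L : ℝ)⁻¹)) ≤ κ → ∀ z, RN.Shr g.A ℓ (L * ℓ) z κ := by
  obtain ⟨C₀, hC₀, h0⟩ := Geo.sch_late
  obtain ⟨C₁, hC₁, h1⟩ := W.RN.shr_flat
  refine ⟨C₀ + C₁, by linarith, fun Λ L hL => ?_⟩
  obtain ⟨p, h0⟩ := h0 Λ L hL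
  refine ⟨p, fun g A₀ c R r ρ hA H a1 a2 a3 ℓ a4 a5 a6 a7 a κ ha hB k1 k2 z => ?_⟩
  have l0 : (0 : ℝ) < ℓ := by exact_mod_cast (by omega : 0 < ℓ)
  have L1 : (64 : ℝ) ≤ L := by exact_mod_cast hL
  have h64 : 64 * ℓ ≤ L * ℓ := Nat.mul_le_mul_right ℓ hL
  have t0 := Real.sqrt_nonneg (√((L : ℝ)⁻¹))
  by_cases h2 : ∃ f, tdist f z ≤ L * ℓ ∧ |flux g.A f| ≠ 1
  · refine W.R4a.shr_mono (hB z h2) (by positivity) (le_trans (le_of_eq ?_) k1)
    congr 2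
    push_cast
    field_simp
  by_cases h3 : ∃ f, tdist f z ≤ L * ℓ ∧ flux g.A f = -1
  · obtain ⟨f, h3, h4⟩ := h3
    have h5 := LocX.near H (by omega) h4
    obtain ⟨A₁, A₁', b1, b2, -⟩ := H.loc
    refine shr_congr (by omega) (fun e he => b2 e ?_) (W.R4a.shr_mono
      (h0 { g with A := A₁ } A₁' c R r b1 a1 a2 a3 ℓ a4 a5 (by change _ ≤ g.M; omega) z)
      (by positivity) (le_trans (by gcongr; linarith) k2))
    have := tdist_triangle e.1 z c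
    have := tdist_triangle z f c
    rw [tdist_comm z f] at this
    omega
  · push Not at h2 h3
    refine h1 g.M g.A hA z ℓ (L * ℓ) (by omega) (by omega) (by omega) (fun f hf =>
      ((abs_eq zero_le_one).1 (h2 f hf)).resolve_right (h3 f hf)) κ ?_
    have e1 := pow_le_pow_left₀ (by positivity) k2 2
    rw [mul_pow, Real.sq_sqrt (Real.sqrt_nonneg _)] at e1
    have e2 : (L : ℝ)⁻¹ ≤ √((L : ℝ)⁻¹) := by
      rw [Real.le_sqrt (by positivity) (by positivity), sq]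
      exact mul_le_of_le_one_left (by positivity) (inv_le_one_of_one_le₀ (by linarith))
    have e3 : C₁ * (L : ℝ)⁻¹ ≤ κ ^ 2 := le_trans (mul_le_mul (by nlinarith) e2 (by positivity)
      (by positivity)) e1
    rw [← div_eq_mul_inv, div_le_iff₀ (by linarith)] at e3
    push_cast
    nlinarith

end DX

namespace W.Geo.R8

open Vale.Agent.P144Z.Geo Vale.Agent.P144Z.R8 Filter Topology

open Classical in
set_option maxHeartbeats 400000 in
/-- The step with a uniform change of scale. -/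
theorem stepX : ∃ L₀ : ℕ, ∀ L ≥ L₀, ∃ C : ℝ, 1 ≤ C ∧ ∀ (g : Geo) (j : ℕ) (h h' β κ ρ t : ℝ)
    (ω ω' : g.P → ℝ), IsW g.A → g.J ≤ j → 16 * (L * sc L j) ≤ g.M → (L : ℝ) ^ 2 ≤ h → 0 < h' →
    h' ≤ 2 * h → 0 < β → 0 ≤ κ → (∀ z, RN.Shr g.A (sc L j) (L * sc L j) z κ) → 0 < ρ → ρ ≤ 1 / 2 →
    h' * κ ≤ ρ * (h / 2) → (∀ z, 1 ≤ ω' z) → (∀ x z, tdist x z ≤ 4 * (L * sc L j) → ω x ≤ ω' z) →
    32 * Real.exp 6 * t ≤ 1 → (∀ (f : Finset g.P → ℝ) (D : ℝ), (∀ X, 0 ≤ f X) →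
      AnchW (sc L j) L f ω D → 0 ≤ D → ∀ z, ∑ U ∈ (near (2 * (L * sc L j)) z).filter
        (fun U => stein U ≤ sc L j ∧ Dfc g (sc L j) U),
          ksW g L (sc L j) (2 * ρ ^ 2) U * f U ≤ t * (D * ω' z)) → g.StepX L j h h' β C ω ω' := by
  obtain ⟨L₁, hP⟩ := cl_P
  obtain ⟨Cx, hCx, hX⟩ := ext_le
  obtain ⟨L₂, hL₂⟩ := eventually_atTop.1 (ev_exp 800)
  refine ⟨max (max L₁ L₂) 60, fun L hL => ?_⟩
  obtain ⟨Cc, hCc, hP⟩ := hP L (le_of_max_le_left (le_of_max_le_left hL))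
  have hE1 := hL₂ L (le_of_max_le_right (le_of_max_le_left hL))
  have hL60 : 60 ≤ L := le_of_max_le_right hL
  have hL60' : (60 : ℝ) ≤ L := by exact_mod_cast hL60
  set A := 1200 * Real.exp 6 * (1 + 3 * (16 * Cx)) with hA
  have hA0 : 0 ≤ A := by positivity
  have h1 : 0 ≤ A * Cc := by positivity
  have h2 : 0 ≤ A * L ^ 2 := by positivity
  refine ⟨A * Cc + A * L ^ 2 + A + Cc, by linarith, fun g j h h' β κ ρ t ω ω' hA' hJ hM hh hh' hh2
    hβ hκ hsch hρ hρ1 hρκ hω hmono ht hsum s hs D E b hD0 hE aD aE ab => ?_⟩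
  have hl := FM.eight_le_sc (L := L) (by omega) j
  generalize sc L j = ℓ at *
  have hJ' : ∀ k, (g.src k).on = true → g.J ≤ j := fun _ _ => hJ
  have a : Ad g ℓ h β := ⟨hA', by omega, by nlinarith, hβ⟩
  have hl' : ℓ ≤ L * ℓ := Nat.le_mul_of_pos_left ℓ (by omega)
  have a' : Ad g (L * ℓ) h' β := ⟨hA', by omega, hh', hβ⟩
  have hE0 := G.anch_nonneg (df_nonneg _ _) aE
  have hb0 := G.anch_nonneg (bf_nonneg s) ab
  have hEb : 0 ≤ E + b := by linarith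
  have h3 : Cc * (E + b) ≤ (A * Cc + A * L ^ 2 + A + Cc) * (E + b) :=
    mul_le_mul_of_nonneg_right (by linarith) hEb
  obtain ⟨hE', hP⟩ := hP g ℓ h β a hl hh
  obtain ⟨c1, c2, c3⟩ := hP s _ hs (wf_srcSt 0).1 (wf_srcSt 0).2 E b 0 (by linarith) aE ab
    (FM.anch_zero (FM.df_self a.l a.h hβ _))
  have small : ∀ k, h / 2 ≤ k → ∀ U, ∀ F ∈ g.sub U, g.noF F = 0 → g.pn (L * ℓ) h' β U F ≤
      ksW g L ℓ (2 * ρ ^ 2) U * g.pn ℓ k β U F := fun k hk U F hF h0 => by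
    have hk0 := a.half.h.trans_le hk
    exact (adm_ksW (by positivity) U).2 k h' β hk0 hh' (by linarith) hβ F hF h0
      ((pn_sch hA' a.l hk0 hβ hF hκ hl' hh' (fun z _ => hsch z) hρ
        (hρκ.trans (by gcongr))).2 hρ1 h0)
  have H : Hyp g L ℓ j h β h' β 1 (ksW g L ℓ (2 * ρ ^ 2)) (16 * Cx) s (g.srcSt 0) (g.srcSt 0) :=
    { a := a, a' := a', hL := by omega, hl := hl, hM := hM, hs := hs, hs' := (wf_srcSt 0).1
      hf := (wf_srcSt 0).2
      tK := fun _ => by rw [step_zero]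
      tv := fun _ => rfl
      tz := fun k => by rw [step_z_of_off hJ']
      kc0 := zero_le_one
      ks0 := fun U => (adm_ksW (by positivity) U).1
      ke0 := by positivity
      hE := hE'
      T1 := fun U F hF => ((pn_sch hA' a.l a.half.h hβ hF hκ hl' hh' (fun z _ => hsch z) hρ
        hρκ).1 (by linarith)).trans (by
          rw [one_mul]
          exact le_mul_of_one_le_left (pn_nonneg _ _) (Real.one_le_exp (by positivity)))
      T2 := fun U _ _ F hF h0 _ => by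
        rw [xb_of_off hJ', sub_zero]
        exact (a'.mono (G.subset_plus U) hF).trans (small _ le_rfl U F hF h0)
      T3 := fun X _ _ => small h (by linarith [a.h]) X _
        (dp_mem (sub_mem (hs.car_mem X) ((wf_srcSt 0).1.car_mem X)) X)
        (noF_dp (by rw [map_sub, hs.noF_car, (wf_srcSt 0).1.noF_car, sub_self]))
      T4 := fun U hU x hx F hF => (hX g L ℓ h β h' β a a' (by omega) hl hM hh2 U hU x hx F hF).1
      T5 := fun U F _ => by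
        rw [xb_of_off hJ', a'.zero]
        exact mul_nonneg (by positivity) (pn_nonneg _ _) }
  refine ⟨c1, fun z => ?_, FM.anch_mono c3 (fun U => ?_) h3⟩
  · have hω1 := hω z
    have hDω : 0 ≤ D * ω' z := by positivity
    refine (H.coreU z (hsum _ D (df_nonneg _ _) aD hD0 z)
      ((loc_sum (by omega) (df_nonneg _ _) aD hD0 (by linarith) z (2 * L)
        (fun x hx => hmono x z (by rw [mul_assoc] at hx; omega)) _ fun U hU => by
          obtain ⟨x, hx, h⟩ := mem_near.1 hU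
          exact ⟨x, hx, by rwa [mul_assoc]⟩).trans (mul_le_mul_of_nonneg_right
            (by push_cast; nlinarith) hDω)) ab c2).trans ?_
    have e1 : 800 * 1 * (L : ℝ) ^ 2 * Real.exp (2 - L) ≤ 800 * (L : ℝ) ^ 3 * Real.exp (2 - L) :=
      mul_le_mul_of_nonneg_right (by nlinarith) (Real.exp_pos _).le
    have e3 : 4 * Real.exp 6 * t + 800 * 1 * L ^ 2 * Real.exp (2 - L) ≤ 1 / 4 := by linarith
    have e4 := mul_le_mul_of_nonneg_right e3 hDω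
    have e5 : Cc * (E + b) * b ≤ b := mul_le_of_le_one_left hb0 (by linarith)
    have e6 := mul_le_mul_of_nonneg_left e5 hA0
    have e7 := mul_nonneg (by linarith : 0 ≤ A * Cc + Cc) hb0
    have e8 := mul_nonneg (mul_nonneg (by linarith : 0 ≤ A * L ^ 2 + A + Cc) hEb) hE0
    have e10 : A * (L ^ 2 * b + Cc * (E + b + 0) * (E + b)) ≤
        (A * Cc + A * L ^ 2 + A + Cc) * b + (A * Cc + A * L ^ 2 + A + Cc) * (E + b) * E := by
      linarith
    have e11 := le_mul_of_one_le_right (le_trans (by positivity) e10) hω1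
    linarith
  · rw [Geo.intg, Geo.intg, Cl_zero, sub_zero]

end W.Geo.R8

end Vale.Agent.P144Z
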