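import Vale.Agent.P144DX.VDefs

/-!
# Pairs of energies: the algebra of the sources
-/

namespace Vale.Agent.P144Z.DV

open Finset Matrix Geo DX
open Mn hiding Br Gd WW WW_eq br_good en_eq exc_sub mix_eq ok_bare ok_one ps_br ps_cf ps_wt see_en
  ss top_le bad_sum
open MN hiding gen Z_eq en_eq mix_eq br_good Gd T_close

/-- The fields are set to zero and the sources are renamed. -/
noncomputable def fK (g g' : Geo) (κ : g.K → Option g'.K) : (g.S → ℝ) →ₗ[ℝ] (g'.S → ℝ) :=
  Fintype.linearCombination ℝ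
    (Sum.elim (fun _ => 0) fun k => (κ k.1).elim 0 fun k' => g'.e2 k' k.2)

/-- The same for the algebras. -/
noncomputable def rho (g g' : Geo) (κ : g.K → Option g'.K) : g.E →ₗ[ℝ] g'.E := evMap (fK g g' κ)

variable {g g' : Geo} {κ κ' : g.K → Option g'.K} {β : ℝ}

theorem fK_inl (s : g.P × Fin 4) : fK g g' κ (Pi.single (Sum.inl s) 1) = 0 := by
  rw [fK, Fintype.linearCombination_apply_single, one_smul]; rfl

theorem fK_inr (k : g.K × Fin 2) :
    fK g g' κ (Pi.single (Sum.inr k) 1) = (κ k.1).elim 0 fun k' => g'.e2 k' k.2 := by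
  rw [fK, Fintype.linearCombination_apply_single, one_smul]; rfl

theorem fK_ex (δ : Tor g.M × Fin 4 → ℝ) : fK g g' κ (g.ex δ) = 0 := by
  simp [fK, Fintype.linearCombination_apply, Fintype.sum_sum_type, Geo.ex]

theorem rho_one : rho g g' κ 1 = 1 := R6.evMap_one _

theorem rho_mul (F G : g.E) : rho g g' κ (F * G) = rho g g' κ F * rho g g' κ G :=
  R6.evMap_mul _ _ _

theorem rho_exp (F : g.E) : rho g g' κ (NormedSpace.exp F) = NormedSpace.exp (rho g g' κ F) :=
  hom_exp _ rho_one rho_mul F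

theorem rho_bv (k : g.K) : rho g g' κ (g.bv k) = (κ k).elim 0 g'.bv := by
  rw [rho, Geo.bv, R6.evMap_pp, fK_inr (k, 0), fK_inr (k, 1)]
  cases κ k with
  | none => exact R6.pp_zero_left _
  | some k' => rfl

theorem ev_comp {S S' S'' : Type} [Fintype S] [DecidableEq S] [Fintype S'] [DecidableEq S']
    [Fintype S''] [DecidableEq S''] (f : (S' → ℝ) →ₗ[ℝ] (S'' → ℝ)) (f' : (S → ℝ) →ₗ[ℝ] (S' → ℝ))
    (F : Ev S) : evMap f (evMap f' F) = evMap (f ∘ₗ f') F :=
  Ev.val_injective (by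
    rw [val_evMap, val_evMap, val_evMap, ← ExteriorAlgebra.map_comp_map]; rfl)

theorem res_inl (s : g.P × Fin 4) :
    res (Set.range Sum.inr) (Pi.single (Sum.inl s) 1 : g.S → ℝ) = 0 := by
  funext t; cases t <;> simp [res]

theorem noF_rho (F : g.E) : g'.noF (rho g g' κ F) = rho g g' κ F := by
  rw [Geo.noF, rho, ev_comp]
  congr 2
  refine (Pi.basisFun ℝ g.S).ext fun s => ?_
  rw [Pi.basisFun_apply, LinearMap.comp_apply]
  rcases s with s | k
  · rw [fK_inl, map_zero]
  · rw [fK_inr]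
    cases κ k.1 with
    | none => exact map_zero _
    | some k' => exact A1.res_single (Set.mem_range_self _)

theorem rho_mem (F : g.E) : rho g g' κ F ∈ g'.sub univ := noF_rho (κ := κ) F ▸ LM.noF_mem_univ _

theorem rho_some (F : g.E) : rho g g some F = g.noF F := by
  rw [Geo.noF, rho]
  congr 2
  refine (Pi.basisFun ℝ g.S).ext fun s => ?_
  rw [Pi.basisFun_apply]
  rcases s with s | k
  · rw [fK_inl, res_inl]
  · rw [fK_inr, A1.res_single (Set.mem_range_self _)]; rfl

theorem rho_congr {U : Finset g.P} {F : g.E} (hF : F ∈ g.sub U)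
    (h : ∀ k, (g.src k).y ∈ U → κ k = κ' k) : rho g g' κ F = rho g g' κ' F := by
  refine Ev.val_injective ?_
  rw [rho, rho, val_evMap, val_evMap]
  refine map_congr (RN.sub_loc hF) fun s hs => ?_
  rcases s with s | k
  · rw [fK_inl, fK_inl]
  · rw [fK_inr, fK_inr, h k.1 hs]

theorem ag_rho (F : g.E) : ag g' (rho g g' κ F) = ag g F := by
  rw [ag_apply, ag_apply, rho, val_evMap, aug_map]

theorem rho_none (F : g.E) : rho g g (fun _ => none) F = ag g F • 1 := by
  rw [rho, ag_apply, ← R1.evMap_zero]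
  congr 2
  refine (Pi.basisFun ℝ g.S).ext fun s => ?_
  rw [Pi.basisFun_apply]
  rcases s with s | k
  · rw [fK_inl]; rfl
  · rw [fK_inr]; rfl

theorem ps_rho (hβ : 0 < β) (F : g.E) : g'.ps β univ (rho g g' κ F) ≤ g.ps β univ F := by
  unfold Geo.ps Geo.pn
  rw [rho, val_evMap]
  refine nrm_map (RN.adm le_rfl one_pos hβ _) (RN.adm le_rfl one_pos hβ _) _
    (fun r hr p hp => ?_) (R1.loc_univ _) (R1.loc_univ _)
  rcases RN.cons_cases hp with ⟨z, -, δ, c, -, hc, -, rfl⟩ | ⟨k, i, -, rfl⟩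
  · rw [fK_ex, map_zero, A5.opn_zero]
    exact mul_nonneg zero_le_one hc
  · rw [fK_inr (k, i)]
    cases κ k with
    | none =>
      rw [Option.elim_none, map_zero, A5.opn_zero]
      exact Real.sqrt_nonneg _
    | some k' => exact RN.In.src hr (mem_univ _) i

theorem Φ_eq (m : FMap g g') (ho : m.y.o = 1) (hw : ∀ k i, m.w k i = 1) {F : g.E}
    (hF : g.noF F = F) : m.Φ F = rho g g' m.κ F := by
  rw [← hF, FMap.Φ, ho, R6.mon_one_eq, rho, Geo.noF, ev_comp, ev_comp]
  congr 2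
  refine (Pi.basisFun ℝ g.S).ext fun s => ?_
  rw [Pi.basisFun_apply, LinearMap.comp_apply, LinearMap.comp_apply]
  rcases s with s | k
  · rw [res_inl, map_zero, map_zero]
  · rw [A1.res_single (Set.mem_range_self _), fK_inr, m.f_single, FMap.fv]
    simp only [hw, one_smul]

theorem rho_sum (ι : g'.K → g.K) (h : ∀ k k', κ k = some k' ↔ k = ι k') (a : g.K → ℝ) :
    rho g g' κ (∑ k, a k • g.bv k) = ∑ k', a (ι k') • g'.bv k' := by
  have e : ∀ k, a k • (κ k).elim 0 g'.bv = ∑ k', if k = ι k' then a k • g'.bv k' else 0 := by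
    intro k
    simp only [← h]
    cases κ k with
    | none => simp
    | some k' => simp
  simp only [map_sum, map_smul, rho_bv, e]
  rw [sum_comm]
  simp

/-! ### The generating function -/

/-- The expectation. -/
noncomputable def Ex {M : ℕ} [NeZero M] (q : Par) (u : Cor M) (A : Gauge M)
    (F : (Tor M × Fin 2 → Bool) → ℝ) : ℝ := ZwC q u A F / ZwC q u A 1

/-- The observable of a source. -/
def ob (g : Geo) (k : g.K) (n : g.Cfg) : ℝ := (g.src k).O (g.see (g.src k).y n)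

/-- The exponent of the generating function. -/
noncomputable def WV (g : Geo) (L : ℕ) (q : Par) (u : Cor g.M) (N : ℕ) (e : g.K → ℝ) : g.E :=
  CX g L q u N - ag g (CX g L q u N) • 1 - ∑ k, e k • g.bv k

/-- The normalised last integration. -/
noncomputable def TV (g : Geo) (L : ℕ) (q : Par) (u : Cor g.M) (N : ℕ) : g.E :=
  (ag g (TX g L q u N))⁻¹ • TX g L q u N

variable {L N : ℕ} {q : Par} {u : Cor g.M}

theorem WV_mem (e : g.K → ℝ) : WV g L q u N e ∈ g.sub univ :=
  sub_mem (sub_mem CX_mem (Subalgebra.smul_mem _ (one_mem _) _)) (bv_sum_mem _)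

theorem gen_lin (hZ : q.Z ≠ 0) (h : g.ConvC L q u N) (ℓ : g.E →ₗ[ℝ] ℝ) (e : g.K → ℝ) :
    Ex q u g.A (fun n => ℓ (NormedSpace.exp (∑ k, (ob g k n - e k) • g.bv k))) =
      ℓ (NormedSpace.exp (WV g L q u N e) * TV g L q u N) := by
  have h1 := congrArg (fun F => ℓ (F * NormedSpace.exp (-∑ k, e k • g.bv k))) (DX.gen hZ h)
  simp only [sum_mul, smul_mul_assoc, ← exp_add', map_sum, map_smul, smul_eq_mul] at h1
  have h2 : CX g L q u N + -∑ k, e k • g.bv k =
      ag g (CX g L q u N) • (1 : g.E) + WV g L q u N e := by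
    rw [WV]
    abel
  have h3 : ∀ n : g.Cfg, ∑ k, (g.src k).O (g.see (g.src k).y n) • g.bv k + -∑ k, e k • g.bv k
      = ∑ k, (ob g k n - e k) • g.bv k := by
    intro n
    simp only [sub_smul, sum_sub_distrib, ob]
    rw [sub_eq_add_neg]
  simp only [h3] at h1
  rw [mul_right_comm, ← exp_add', h2, exp_add', exp_smul_one, smul_mul_assoc, one_mul,
    smul_mul_assoc, map_smul, smul_eq_mul] at h1
  rw [Ex, DX.Z_eq hZ h, ZwC, h1, TV, mul_smul_comm, map_smul, smul_eq_mul,
    mul_div_mul_left _ _ (inv_ne_zero (pow_ne_zero _ hZ)),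
    mul_div_mul_left _ _ (Real.exp_pos _).ne', div_eq_inv_mul]

theorem Ex_mul {M : ℕ} [NeZero M] (q : Par) (u : Cor M) (A : Gauge M) (c : ℝ)
    (F : (Tor M × Fin 2 → Bool) → ℝ) : Ex q u A (fun n => c * F n) = c * Ex q u A F := by
  simp only [Ex, ZwC, ← mul_div_assoc, mul_sum]
  congr 1
  exact sum_congr rfl fun n _ => by ring

theorem Ex_sub {M : ℕ} [NeZero M] {q : Par} {u : Cor M} {A : Gauge M} (h : ZwC q u A 1 ≠ 0)
    (c : ℝ) (F : (Tor M × Fin 2 → Bool) → ℝ) : Ex q u A (fun n => F n - c) = Ex q u A F - c := by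
  rw [Ex, Ex, div_sub' h]
  simp only [ZwC, mul_sub, sum_sub_distrib, ← sum_mul, Pi.one_apply, mul_one]

/-- The closeness of two products. -/
theorem close (hβ : 0 < β) {V D T T' : g.E} (hV : V ∈ g.sub univ) (hD : D ∈ g.sub univ)
    {B ε : ℝ} (h1 : g.ps β univ V ≤ B) (h2 : g.ps β univ D ≤ ε) (h3 : g.ps β univ (T - 1) ≤ ε)
    (h4 : g.ps β univ (T' - 1) ≤ 3 * ε) (hε : ε ≤ 1) :
    g.ps β univ (NormedSpace.exp (V + D) * T - NormedSpace.exp V * T') ≤ Real.exp B * (8 * ε) := by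
  have h0 : 0 ≤ ε := (ps_nonneg _).trans h2
  have a1 := (pn_exp le_rfl one_pos hβ hV h1).2
  have a2 := (pn_exp le_rfl one_pos hβ hD h2).1
  have a3 := Real.abs_exp_sub_one_le (x := ε) (by rwa [abs_of_nonneg h0])
  rw [abs_of_nonneg h0] at a3
  replace a2 := a2.trans ((le_abs_self _).trans a3)
  have e : NormedSpace.exp (V + D) * T - NormedSpace.exp V * T' = NormedSpace.exp V *
      ((NormedSpace.exp D - 1) * (T - 1) + (NormedSpace.exp D - 1) + (T - 1) - (T' - 1)) := by
    rw [exp_add']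
    ring
  rw [e]
  refine (RN.pn_mul le_rfl one_pos hβ _ _).trans (mul_le_mul a1 ?_ (RN.pn_nonneg _)
    (Real.exp_pos _).le)
  have a4 := (RN.pn_mul (X := univ) le_rfl one_pos hβ _ _).trans
    (mul_le_mul a2 (h3.trans hε) (RN.pn_nonneg _) (by positivity))
  refine (RN.pn_sub le_rfl one_pos hβ _ _).trans ((add_le_add ((RN.pn_add le_rfl one_pos hβ _
    _).trans (add_le_add ((RN.pn_add le_rfl one_pos hβ _ _).trans (add_le_add a4 a2)) h3))
      h4).trans ?_)
  linarith

end Vale.Agent.P144Z.DV
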