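import Vale.Agent.P144DX.VMix
import Vale.Agent.P144DX.Core

/-!
# Pairs of energies: the choice of the scales
-/

namespace Vale.Agent.P144Z.DV

open Finset Matrix Geo DX P144

variable {Q : Cls} {q : Par} {L J J₁ Λ N₁ D : ℕ} {Γ σ γ w a : ℝ} {b : Bool}

/-- The flow is under control in all the large sectors. -/
def Runs (Q : Cls) (q : Par) (L J₁ Λ : ℕ) (Γ σ γ : ℝ) (J : ℕ) (b : Bool) (w a : ℝ) (N₁ D : ℕ) :
    Prop :=
  ∀ (M N : ℕ) [NeZero M] (A : Gauge M) (u : Cor M), Sect Q q L N J₁ Λ Γ σ γ A u → N₁ ≤ N →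
    ∀ (ι : Type) [Fintype ι] [DecidableEq ι] (y : ι → Site) (j : ι → Fin 2), Fintype.card ι ≤ 4 →
      (∀ k, 4 * (zd (y k) 0 + 2) ≤ M ∧ Flat A (prj M (y k)) (7 * sc L N)) →
      (∀ k k', k ≠ k' → D ≤ zd (y k) (y k')) → (geoV M A y j J b).RunY L q u N w a

theorem mixOk (h : Num L q J w a N₁) (hR : Runs Q q L J₁ Λ Γ σ γ J b w a N₁ D) {mo : Mom}
    {S : Site → Prop} {r : ℕ} (X : MixM Q q L J₁ Λ Γ σ γ mo S r) (hr : (Λ + 2) * sc L N₁ ≤ r) :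
    MixOk L q J b w a N₁ D Γ mo S := by
  obtain ⟨M, N, _, ι, I, A, u, c, h1, h2, h3, h4, h5, h6⟩ := X
  have hL := h.L8
  have hN : N₁ ≤ N := le_of_sc (L := L) (by omega) (Nat.le_of_mul_le_mul_left
    (hr.trans (h1.trans (Nat.mul_le_mul_right _ (Nat.le_add_right Λ 2)))) (by omega))
  have k : ∀ i ∈ I, SecOk L q J b w a N₁ D (A i) (u i) N S := fun i hi =>
    ⟨hN, (h2 i hi).lo, by have := (h2 i hi).R_le; omega, (h2 i hi).w, (h2 i hi).off,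
      fun x hx => ⟨(h5 x hx).1, (h5 x hx).2 i hi⟩, fun ι _ _ y j hc hy hD =>
        hR M N _ _ (h2 i hi) hN ι y j hc (fun k => ⟨(h5 _ (hy k)).1, (h5 _ (hy k)).2 i hi⟩) hD⟩
  refine ⟨M, N, inferInstance, ι, I, A, u, _, k, h3, h4, fun m y j e t hy => ?_⟩
  rw [h6 m y j e t hy]
  refine sum_congr rfl fun i hi => ?_
  rw [sm, Ex, mul_assoc, mul_div_cancel₀ _ (Z_ne' h (k i hi))]
  rfl

theorem okV {M : ℕ} [NeZero M] {A : Gauge M} (hA : IsW A) {ι : Type} [Fintype ι] [DecidableEq ι]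
    (y : ι → Site) (j : ι → Fin 2) (J : ℕ) (b : Bool) : (geoV M A y j J b).OkW :=
  ⟨hA, fun _ => ⟨(FM.enSrc_ok (M := M) 0 _).zero, (FM.enSrc_ok (M := M) 0 _).dep,
    (FM.enSrc_ok (M := M) 0 _).bd, fun _ => ⟨rfl, rfl⟩⟩⟩

theorem runs (hL : 8 ≤ L) (h1 : FlowOn Q q L σ γ) (h2 : FlowOff Q q L σ γ) (J₁ Λ k : ℕ)
    (hΓ : 1 ≤ Γ) : ∃ (w₁ a₁ w₂ a₂ : ℝ) (K n : ℕ), 0 < w₁ ∧ 0 ≤ a₁ ∧ 0 < w₂ ∧ 0 ≤ a₂ ∧
      ∀ s, 1 ≤ s → ∃ (J D : ℕ) (b : Bool), s ≤ K * sc L J ∧ sc L J ≤ 8 * s ∧ D ≤ s ∧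
        (∀ z, s ≤ k * (z + 1) → D ≤ z) ∧ ∀ N₁, J + n ≤ N₁ →
          Runs Q q L J₁ Λ Γ σ γ J b (if b then w₁ else w₂) (if b then a₁ else a₂) N₁ D := by
  obtain ⟨Cg, hCg, hg⟩ := LM.lastB_gap
  have hh : 0 < Cg * Γ := by positivity
  obtain ⟨w₁, hw₁, a₁, ha₁, J₀, h1⟩ := h1 Λ _ hh
  obtain ⟨w₂, hw₂, a₂, ha₂, N₀, h2⟩ := h2 Λ _ hh
  refine ⟨w₁, a₁, w₂, a₂, 9 * (k + 1) * L + 9 * (k + 1) * sc L (max J₀ J₁), N₀ + J₁ + 1, hw₁, ha₁,
    hw₂, ha₂, fun s hs => ?_⟩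
  by_cases h : 9 * (k + 1) * sc L (max J₀ J₁) ≤ s
  · obtain ⟨J, m1, m2, m3⟩ := Mn.exists_scale (L := L) (by omega) (by omega) h
    rw [show sc L (J + 1) = L * sc L J by unfold sc; ring, ← mul_assoc] at m3
    have h8 := Mn.eight_le_sc (L := L) (by omega) J
    have m4 : 9 * sc L J ≤ 9 * (k + 1) * sc L J := Nat.mul_le_mul_right _ (by omega)
    refine ⟨J, 8 * sc L J + 2, true, m3.trans (Nat.mul_le_mul_right _ (Nat.le_add_right _ _)),
      by omega, by omega, fun z hz => ?_, fun N₁ hN M N _ A u X hN' ι _ _ y j hc hy hD => ?_⟩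
    · have m5 : (k + 1) * (9 * sc L J) ≤ (k + 1) * (z + 1) := by
        rw [← mul_assoc, mul_comm (k + 1) 9]
        exact m2.trans (hz.trans (Nat.mul_le_mul_right _ (Nat.le_succ k)))
      have := Nat.le_of_mul_le_mul_left m5 (by omega)
      omega
    have l1 : L * sc L J ≤ sc L N := by
      rw [show L * sc L J = sc L (J + 1) by unfold sc; ring]
      exact Mn.sc_mono (by omega) (by omega)
    have l2 : 8 * sc L J ≤ L * sc L J := Nat.mul_le_mul_right _ hL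
    have sp : ∀ k k', k ≠ k' → 8 * sc L J <
        tdist (prj M (dualE (y k) (j k)).1) (prj M (dualE (y k') (j k')).1) := fun k k' e => by
      have := tdist_dual (hy k).1 (hy k').1 (j k) (j k')
      have := hD k k' e
      omega
    refine ⟨okV X.w _ _ _ _, X.ok, hc, by change J ≤ N; omega, fun _ => ⟨rfl, rfl⟩, fun _ => sp,
      Both.ne_zero X.gap, _, hh, h1 (geoV M A y j J true) N (le_of_max_le_left m1)
        ⟨okV X.w _ _ _ _, X.nf, hc, X.R_le, by change J ≤ N; omega, X.lo, X.hi⟩ (fun _ => rfl)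
        ⟨fun f e => absurd e (X.nf f), fun k f hf => (hy k).2 f ?_, sp⟩
        (X.cls J (le_of_max_le_right m1) (by omega)) (X.cls N (by omega) le_rfl) u X.ok X.off X.wt,
      hg _ X.w _ (Mn.eight_le_sc (by omega) N) Γ hΓ X.gap _ le_rfl⟩
    have a1 := tdist_triangle f (prj M (dualE (y k) (j k)).1) (prj M (y k))
    have a2 := (tdist_prj_le (M := M) (dualE (y k) (j k)).1 (y k)).trans (zd_dual _ _ _)
    rw [UL.zd_self] at a2
    change tdist f (prj M (dualE (y k) (j k)).1) ≤ 8 * sc L J at hf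
    omega
  · have h8 : sc L 0 = 8 := by simp [sc]
    refine ⟨0, 0, false, by rw [h8]; omega, by omega, Nat.zero_le _, fun _ _ => Nat.zero_le _,
      fun N₁ hN M N _ A u X hN' ι _ _ y j hc hy hD => ?_⟩
    refine ⟨okV X.w _ _ _ _, X.ok, hc, Nat.zero_le _, fun _ => ⟨rfl, rfl⟩,
      fun h => absurd h (lt_irrefl 0), Both.ne_zero X.gap, _, hh,
      h2 (geoV M A y j 0 false) N (by omega) rfl
        ⟨okV X.w _ _ _ _, X.nf, hc, X.R_le, Nat.zero_le _, X.lo, X.hi⟩ (fun _ => rfl)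
        (fun k v hv => ?_) (X.cls N (by omega) le_rfl) u X.ok X.off X.wt,
      hg _ X.w _ (Mn.eight_le_sc (by omega) N) Γ hΓ X.gap _ le_rfl⟩
    change v ∈ ({(0, 0), uz _} : Finset (ℤ × ℤ)) at hv
    simp only [mem_insert, mem_singleton, uz] at hv
    rcases hv with rfl | rfl
    · simp [zd]
    · split_ifs <;> simp [zd]

theorem rate (hL : 2 ≤ L) {n : ℕ} {c x : ℝ} (hc : 0 ≤ c) (hx : 0 ≤ x) (h : 1 ≤ c * x * L ^ n) :
    1 / (2 : ℝ) ^ n ≤ c ^ Real.logb L 2 * x ^ Real.logb L 2 := by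
  have h1 : (1 : ℝ) < L := by exact_mod_cast hL
  have h2 := Real.one_le_rpow h (Real.logb_pos h1 one_lt_two).le
  rw [Real.mul_rpow (by positivity) (by positivity), Real.mul_rpow hc hx, ← Real.rpow_natCast,
    ← Real.rpow_mul (by positivity), mul_comm (n : ℝ), Real.rpow_mul (by positivity),
    Real.rpow_logb (by positivity) h1.ne' two_pos, Real.rpow_natCast] at h2
  rwa [div_le_iff₀ (by positivity)]

theorem four (y : Fin 4 → Site) {s d T : ℕ} (a1 : zd (y 0) (y 1) ≤ s) (a2 : zd (y 2) (y 3) ≤ s)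
    (a3 : d ≤ zd (y 0) (y 2)) (b1 : D ≤ zd (y 0) (y 1)) (b2 : D ≤ zd (y 2) (y 3))
    (h1 : T + 2 * s ≤ d) (h2 : D + 2 * s ≤ d) : (∀ k k', k ≠ k' → D ≤ zd (y k) (y k')) ∧
      ∀ k ∈ ({0, 1} : Finset (Fin 4)), ∀ k' ∉ ({0, 1} : Finset (Fin 4)), T ≤ zd (y k) (y k') := by
  have zc : ∀ u v : Site, zd u v = zd v u := fun u v => by unfold zd; omega
  have t1 := GeoA.zd_tri (y 0) (y 3) (y 2)
  have t2 := GeoA.zd_tri (y 0) (y 1) (y 2)
  have t3 := GeoA.zd_tri (y 1) (y 3) (y 2)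
  rw [zc (y 3)] at t1 t3
  refine ⟨fun i i' => ?_, fun i hi i' hi' => ?_⟩
  · fin_cases i <;> fin_cases i' <;> simp [zc (y 3), zc (y 2) (y 0), zc (y 2) (y 1),
      zc (y 1) (y 0)] <;> omega
  · fin_cases i <;> fin_cases i' <;> simp at hi hi' ⊢ <;> omega

theorem coreV (hL : 8 ≤ L) (hq : q.Ok) (h1 : FlowOn Q q L σ γ) (h2 : FlowOff Q q L σ γ) :
    CoreV Q q L σ γ := by
  intro J₁ Λ k Γ hΓ
  obtain ⟨w₁, a₁, w₂, a₂, K, n, hw₁, ha₁, hw₂, ha₂, hR⟩ := runs hL h1 h2 J₁ Λ k hΓ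
  choose Cf c0 k0 using fun a => mixV a hΓ
  have c1 := c0 a₁
  have c2 := c0 a₂
  set C₁ := Cf a₁ with hC₁
  set C₂ := Cf a₂ with hC₂
  obtain ⟨n₁, hn₁⟩ := exists_nat_ge (10 ^ 7 * (a₁ + a₂))
  set n₀ := n + n₁ + K + 1 with hn₀
  set E : ℝ := 1 + K / w₁ + K / w₂ with hE
  set c : ℝ := 8 * ((Λ + 2) * L : ℕ) with hc
  refine ⟨E ^ 4 * (C₁ + C₂) * (2 * c) ^ Real.logb L 2, Real.logb L 2, 8 * ((Λ + 2) * L ^ n₀) + 6,
    Real.logb_pos (by exact_mod_cast (by omega : 1 < L)) one_lt_two, fun s d hs hd => ?_⟩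
  obtain ⟨J, D, b, m1, m2, m3, m4, hR⟩ := hR s hs
  have d1 : (Λ + 2) * sc L (J + n₀) + 6 * s ≤ d := by
    refine le_trans ?_ hd
    rw [add_mul _ 6, show sc L (J + n₀) = L ^ n₀ * sc L J by unfold sc; ring, ← mul_assoc,
      mul_comm 8, mul_assoc _ 8]
    exact Nat.add_le_add_right (Nat.mul_le_mul_left _ m2) _
  obtain ⟨N₁, n1, n2, n3⟩ := Mn.exists_scale (L := L) (c := Λ + 2) (J := J + n₀) (M := d - 3 * s)
    (by omega) (by omega) (by omega)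
  have h8 := Mn.eight_le_sc (L := L) (by omega) J
  have p1 : ∀ m : ℕ, m ≤ N₁ - J → m + 1 ≤ L ^ (N₁ - J) := fun m hm =>
    (Nat.succ_le_succ hm).trans (Nat.lt_pow_self (by omega))
  have n4 : s + 1 ≤ sc L N₁ := by
    rw [Mn.sc_eq (show J ≤ N₁ by omega)]
    refine le_trans ?_ (Nat.mul_le_mul_right _ (p1 K (by omega)))
    rw [add_mul]
    omega
  have n5 : 2 * sc L N₁ ≤ (Λ + 2) * sc L N₁ := Nat.mul_le_mul_right _ (by omega)
  set w := if b then w₁ else w₂ with hw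
  set a := if b then a₁ else a₂ with ha
  have w0 : 0 < w := by rw [hw]; split_ifs <;> assumption
  have a0 : 0 ≤ a ∧ a ≤ a₁ + a₂ := by rw [ha]; split_ifs <;> constructor <;> linarith
  have hnum : Num L q J w a N₁ := ⟨hL, hq, w0, a0.1, by omega, by
    rw [← mul_div_assoc, div_le_one (by positivity)]
    have e1 : n₁ ≤ 2 ^ (N₁ - J) := le_trans (by omega) Nat.lt_two_pow_self.le
    have e2 : (n₁ : ℝ) ≤ 2 ^ (N₁ - J) := by exact_mod_cast e1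
    linarith [a0.2]⟩
  have k3 := k0 a L J N₁ D q b w hnum
  have c4 : Cf a ≤ C₁ + C₂ := by rw [ha]; split_ifs <;> linarith
  set C := Cf a with hC
  have s0 : (0 : ℝ) < s := by exact_mod_cast hs
  have d0 : (0 : ℝ) < d := by exact_mod_cast (by omega : 0 < d)
  have E1 : 1 ≤ E := by rw [hE, add_assoc]; exact le_add_of_nonneg_right (by positivity)
  have r1 : (s : ℝ) ≤ E * (w * sc L J) := by
    have e1 : (s : ℝ) ≤ K * sc L J := by exact_mod_cast m1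
    have e2 : K / w ≤ E := by
      have : (0 : ℝ) ≤ K / w₁ := by positivity
      have : (0 : ℝ) ≤ K / w₂ := by positivity
      rw [hw, hE]
      split_ifs <;> linarith
    rw [div_le_iff₀ w0] at e2
    rw [← mul_assoc]
    exact e1.trans (mul_le_mul_of_nonneg_right e2 (Nat.cast_nonneg _))
  have r2 : 1 / (2 : ℝ) ^ (N₁ - J) ≤ (2 * c) ^ Real.logb L 2 * ((s : ℝ) / d) ^ Real.logb L 2 := by
    refine rate (by omega) (by positivity) (by positivity) ?_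
    rw [← mul_div_assoc, div_mul_eq_mul_div, le_div_iff₀ d0, one_mul, hc]
    rw [show sc L (N₁ + 1) = L * sc L N₁ by unfold sc; ring, Mn.sc_eq (show J ≤ N₁ by omega)] at n3
    have e1 : (Λ + 2) * (L * (L ^ (N₁ - J) * sc L J)) ≤ (Λ + 2) * (L * (L ^ (N₁ - J) * (8 * s))) := by
      gcongr
    have e2 : d ≤ 2 * (8 * ((Λ + 2) * L)) * s * L ^ (N₁ - J) := by
      rw [show 2 * (8 * ((Λ + 2) * L)) * s * L ^ (N₁ - J) =
        2 * ((Λ + 2) * (L * (L ^ (N₁ - J) * (8 * s)))) by ring]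
      omega
    exact_mod_cast e2
  have fin : ∀ (m : ℕ) (x : ℝ), m ≤ 4 → (w * sc L J) ^ m * |x| ≤ C / 2 ^ (N₁ - J) →
      |x| * (s : ℝ) ^ m ≤ E ^ 4 * (C₁ + C₂) * (2 * c) ^ Real.logb L 2 *
        ((s : ℝ) / d) ^ Real.logb L 2 := by
    intro m x hm hx
    calc |x| * (s : ℝ) ^ m ≤ |x| * (E * (w * sc L J)) ^ m := by gcongr
      _ = E ^ m * ((w * sc L J) ^ m * |x|) := by ring
      _ ≤ E ^ 4 * ((C₁ + C₂) * (1 / 2 ^ (N₁ - J))) := by
          refine mul_le_mul (pow_le_pow_right₀ E1 hm) (hx.trans ?_) (by positivity) (by positivity)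
          rw [mul_one_div]
          gcongr
      _ ≤ E ^ 4 * ((C₁ + C₂) * ((2 * c) ^ Real.logb L 2 * ((s : ℝ) / d) ^ Real.logb L 2)) := by
          gcongr
      _ = _ := by ring
  intro mo S r hr X
  obtain ⟨k4, k5⟩ := k3 mo S (mixOk hnum (hR N₁ (by omega)) X (by omega))
  refine ⟨fun y j hy a1 a2 a3 a4 a5 => ?_,
    fun mo' S' r' hr' X' y j hy a1 a2 => fin 2 _ (by norm_num) (k5 mo' S'
      (mixOk hnum (hR N₁ (by omega)) X' (by omega)) y j (fun k => (hy k).1) (fun k => (hy k).2)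
      (m4 _ a2) (by omega))⟩
  obtain ⟨b1, b2⟩ := four y (T := sc L N₁ + 1) a1 a2 a5 (m4 _ a3) (m4 _ a4) (by omega) (by omega)
  exact fin 4 _ le_rfl (k4 y j hy b1 (by omega) (by omega) b2)

end Vale.Agent.P144Z.DV
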