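import Vale.Agent.P144DX.Gen
import Vale.Agent.P144DR.Blk

/-!
# Pairs of energies: the statements
-/

namespace Vale.Agent.P144Z

open Finset Matrix P144 UL

/-! ### The flows -/

/-- At most one source lies in `U`. -/
def Geo.One (g : Geo) (U : Finset g.P) : Prop :=
  ∀ k k', (g.src k).y ∈ U → (g.src k').y ∈ U → k = k'

/-- The geometries without flux and with at most four sources. -/
structure Geo.PreY (g : Geo) (L R₀ N Λ : ℕ) : Prop where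
  ok : g.OkW
  nf : ∀ f, flux g.A f ≠ -1
  card : Fintype.card g.K ≤ 4
  R_le : 16 * (R₀ + 1) ≤ g.M
  JN : g.J ≤ N
  M1 : 16 * sc L N ≤ g.M
  M2 : g.M ≤ Λ * sc L N

open Classical in
/-- The bounds on the flow up to the step `N`. -/
structure Geo.FlowY (g : Geo) (L : ℕ) (q : Par) (u : Cor g.M) (N : ℕ) (w a h : ℝ) : Prop where
  conv : g.ConvC L q u N
  early : ∀ j ≤ g.J, Anch (sc L j) (2 * L)
    (fun U => if g.Exc U ∧ g.One U then 0 else g.ps (w * sc L j) U (g.csC L q u j U)) (a / 2 ^ j)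
  late : ∀ j, g.J < j → j ≤ N → Anch (sc L j) (2 * L)
    (fun U => g.ps (w * sc L g.J) U (g.csC L q u j U)) (a / 2 ^ (j - g.J))
  last : g.pn (sc L N) h (w * sc L g.J) univ (∑ X, (g.flowC L q u N).H X) ≤ a / 2 ^ (N - g.J)

/-- The flow with separated renormalised sources. -/
def FlowOn (Q : Cls) (q : Par) (L : ℕ) (σ γ : ℝ) : Prop :=
  ∀ (Λ : ℕ) (H : ℝ), 0 < H → ∃ w > (0 : ℝ), ∃ a ≥ (0 : ℝ), ∃ J₀ : ℕ, ∀ (g : Geo) (N : ℕ),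
    J₀ ≤ g.J → g.PreY L q.R N Λ → (∀ k, (g.src k).on = true) → g.SepW (8 * sc L g.J) →
    Q g.M g.A g.J → Q g.M g.A N → ∀ u : Cor g.M, u.Ok → u.Off g.A → u.Wt σ γ →
      g.FlowY L q u N w a H

/-- The flow with sources that are not renormalised, at arbitrary positions. -/
def FlowOff (Q : Cls) (q : Par) (L : ℕ) (σ γ : ℝ) : Prop :=
  ∀ (Λ : ℕ) (H : ℝ), 0 < H → ∃ w > (0 : ℝ), ∃ a ≥ (0 : ℝ), ∃ N₀ : ℕ, ∀ (g : Geo) (N : ℕ),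
    N₀ ≤ N → g.J = 0 → g.PreY L q.R N Λ → (∀ k, (g.src k).on = false) →
    (∀ k, ∀ v ∈ (g.src k).Y, zd v 0 ≤ 1) → Q g.M g.A N →
    ∀ u : Cor g.M, u.Ok → u.Off g.A → u.Wt σ γ → g.FlowY L q u N w a H

/-- The statement on the flow at the bottom scale. -/
def FlowOffS : Prop :=
  ∃ ε₀ > (0 : ℝ), ∀ ε > (0 : ℝ), ε ≤ ε₀ → ∃ L₀ : ℕ, ∀ L ≥ L₀, ∃ σ ≥ (0 : ℝ), ∃ η₀ > (0 : ℝ),
    ∀ η, 0 < η → η ≤ η₀ → ∀ R : ℕ, ∃ δ₀ > (0 : ℝ), ∀ q : Par, q.R = R → Crit L q η δ₀ →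
      ∀ N₁ : ℕ, ∃ k₁ : ℕ, ∀ k ≥ k₁, FlowOff (QU L ε k N₁) q L σ η

/-- The steps without flux above the scale of the sources. -/
def StepY : Prop :=
  ∃ ε₀ > (0 : ℝ), ∃ L₀ : ℕ, ∀ L ≥ L₀, ∃ C Θ : ℝ, 1 ≤ C ∧ 1 ≤ Θ ∧ ∀ (g : Geo) (j : ℕ)
    (h h' β c : ℝ), IsW g.A → (∀ f, flux g.A f ≠ -1) → Fintype.card g.K ≤ 4 → g.J ≤ j →
    16 * (L * sc L j) ≤ g.M → (L : ℝ) ^ 2 ≤ h → h ≤ h' → h' ≤ 2 * h → 0 < β → 1 ≤ c →
    c ^ 2 ≤ ε₀ * L →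
      (∀ ω ω', BdU g.A L (sc L j) c (4000 * ε₀) ω ω' → g.StepX L j h h' β C ω ω') ∧
      ((∀ z, (∃ f, tdist f z ≤ L * sc L j ∧ |flux g.A f| ≠ 1) →
        RN.Shr g.A (sc L j) (L * sc L j) z (c * √((sc L j : ℝ) / (L * sc L j : ℕ)))) →
        g.StepX L j h h' β C (fun _ => 1) fun _ => Θ)

/-! ### The mixtures of sectors -/

/-- The sectors. -/
structure Sect (Q : Cls) (q : Par) (L N J₁ Λ : ℕ) (Γ σ γ : ℝ) {M : ℕ} [NeZero M] (A : Gauge M)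
    (u : Cor M) : Prop where
  w : IsW A
  nf : ∀ f, flux A f ≠ -1
  lo : 16 * sc L N ≤ M
  hi : M ≤ Λ * sc L N
  R_le : 16 * (q.R + 1) ≤ M
  gap : ∀ φ, φ ⬝ᵥ φ ≤ (Γ * sc L N) ^ 2 * ((Dm A *ᵥ φ) ⬝ᵥ (Dm A *ᵥ φ))
  cls : ∀ J, J₁ ≤ J → J ≤ N → Q M A J
  ok : u.Ok
  off : u.Off A
  wt : u.Wt σ γ

/-- Moments of the energies at the points `y`, shifted by `e`. -/
abbrev Mom : Type :=
  ∀ m : ℕ, (Fin m → Site) → (Fin m → Fin 2) → (Fin m → ℝ) → Finset (Fin m) → ℝ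

/-- The moments of an expectation. -/
noncomputable def momE (E : (Config → ℝ) → ℝ) : Mom := fun _ y j e t =>
  E fun σ => ∏ k ∈ t, (sp (σ (y k)) * sp (σ (y k + dir (j k))) - e k)

/-- The centred moment. -/
noncomputable def cen (mo : Mom) {m : ℕ} (y : Fin m → Site) (j : Fin m → Fin 2) : ℝ :=
  mo m y j (fun k => mo m y j 0 {k}) univ

/-- For points in `S` the moments are mixtures of sectors of size at least `r / Λ`. -/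
def MixM (Q : Cls) (q : Par) (L J₁ Λ : ℕ) (Γ σ γ : ℝ) (mo : Mom) (S : Site → Prop) (r : ℕ) :
    Prop :=
  ∃ (M N : ℕ) (_ : NeZero M) (ι : Type) (I : Finset ι) (A : ι → Gauge M) (u : ι → Cor M)
    (w : ι → ℝ), r ≤ Λ * sc L N ∧ (∀ i ∈ I, Sect Q q L N J₁ Λ Γ σ γ (A i) (u i)) ∧
    ∑ i ∈ I, |w i * ZwC q (u i) (A i) 1| ≤ Γ ∧ ∑ i ∈ I, w i * ZwC q (u i) (A i) 1 = 1 ∧
    (∀ x, S x → 4 * (zd x 0 + 2) ≤ M ∧ ∀ i ∈ I, Flat (A i) (prj M x) (7 * sc L N)) ∧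
    ∀ (m : ℕ) (y : Fin m → Site) (j : Fin m → Fin 2) (e : Fin m → ℝ) (t : Finset (Fin m)),
      (∀ k, S (y k)) → mo m y j e t = ∑ i ∈ I, w i * ZwC q (u i) (A i)
        fun n => ∏ k ∈ t, (sgn (n (yE M y j k, dE y j k)) - e k)

/-- The Gibbs states of the sets of the class `Raw` are mixtures. -/
def MixAt (Raw : Finset Site → ℕ → Prop) (Q : Cls) (q : Par) (L : ℕ) (σ γ : ℝ) : Prop :=
  ∀ J lam β : ℝ, UL.Rel J lam β q → ∀ Λ₀ : ℕ, ∃ (J₁ Λ r₀ : ℕ) (Γ : ℝ), 1 ≤ Γ ∧ ∀ r ≥ r₀,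
    ∀ (S : Finset Site) (b : Option Config), (b = none ∨ b = some fun _ => true) → Raw S r →
      (∀ v ∈ S, zd v 0 ≤ Λ₀ * r) → MixM Q q L J₁ Λ Γ σ γ (momE (gibbs J lam q.V β b S))
        (fun x => ∀ v, zd v x ≤ r → v ∈ S) r

/-- The statement on the mixtures. -/
def MixS : Prop :=
  ∀ (Raw : Finset Site → ℕ → Prop) (Q : Cls) (q : Par) (L : ℕ) (σ γ θ Zσ Zε : ℝ), 2 ≤ L → q.Ok →
    q.Small 1 → 0 ≤ σ → 0 < θ → (∀ (M : ℕ) [NeZero M] (R : Reg M),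
      (R.cor q).Ok ∧ (R.cor q).Off R.pw ∧ (R.cor q).Wt σ γ) →
    MainU Q q Zσ Zε L 1 σ (γ + θ) → EnU Q q L 1 σ (γ + θ) → MainX Q q L 0 σ (γ + θ) →
    GeoF Raw Q L → MixAt Raw Q q L σ (γ + θ)

/-- Independence of distant pairs and locality, for mixtures. -/
def CoreV (Q : Cls) (q : Par) (L : ℕ) (σ γ : ℝ) : Prop :=
  ∀ (J₁ Λ k : ℕ) (Γ : ℝ), 1 ≤ Γ → ∃ (C κ : ℝ) (p : ℕ), 0 < κ ∧ ∀ s d : ℕ, 1 ≤ s → p * s ≤ d →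
    ∀ (mo : Mom) (S : Site → Prop) (r : ℕ), d ≤ r → MixM Q q L J₁ Λ Γ σ γ mo S r →
      (∀ (y : Fin 4 → Site) (j : Fin 4 → Fin 2), (∀ i, S (y i)) → zd (y 0) (y 1) ≤ s →
        zd (y 2) (y 3) ≤ s → s ≤ k * (zd (y 0) (y 1) + 1) → s ≤ k * (zd (y 2) (y 3) + 1) →
        d ≤ zd (y 0) (y 2) →
          |cen mo y j - cen mo ![y 0, y 1] ![j 0, j 1] * cen mo ![y 2, y 3] ![j 2, j 3]| *
            (s : ℝ) ^ 4 ≤ C * ((s : ℝ) / d) ^ κ) ∧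
      ∀ (mo' : Mom) (S' : Site → Prop) (r' : ℕ), d ≤ r' → MixM Q q L J₁ Λ Γ σ γ mo' S' r' →
        ∀ (y : Fin 2 → Site) (j : Fin 2 → Fin 2), (∀ i, S (y i) ∧ S' (y i)) →
          zd (y 0) (y 1) ≤ s → s ≤ k * (zd (y 0) (y 1) + 1) →
            |cen mo y j - cen mo' y j| * (s : ℝ) ^ 2 ≤ C * ((s : ℝ) / d) ^ κ

/-- The lattice form of block V. -/
def LatV : Prop :=
  ∃ ε₀ > (0 : ℝ), ∀ ε > (0 : ℝ), ε ≤ ε₀ → P144DD.Ev fun L q => ∀ N : ℕ, ∃ k₁ : ℕ, ∀ k ≥ k₁,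
    ∃ σ γ : ℝ, 0 ≤ γ ∧ CoreV (QU L ε k N) q L σ γ ∧
      ∀ Raw, GeoF Raw (QU L ε k N) L → MixAt Raw (QU L ε k N) q L σ γ

end Vale.Agent.P144Z
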