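import Vale.Agent.P144DX.VAlg

/-!
# Pairs of energies: the estimates in one sector
-/

namespace Vale.Agent.P144Z

open Finset Matrix Geo DX
open Mn hiding Br Gd WW WW_eq br_good en_eq exc_sub mix_eq ok_bare ok_one ps_br ps_cf ps_wt see_en
  ss top_le bad_sum
open MN hiding gen Z_eq en_eq mix_eq br_good Gd T_close

/-- The data of the estimates in one sector. -/
structure Geo.RunY (g : Geo) (L : ℕ) (q : Par) (u : Cor g.M) (N : ℕ) (w a : ℝ) : Prop where
  ok : g.OkW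
  hu : u.Ok
  card : Fintype.card g.K ≤ 4
  JN : g.J ≤ N
  en : ∀ k, (g.src k).Y = {(0, 0), uz (g.src k).dir} ∧
    (g.src k).O = fun n => sgn (n ((0, 0), (g.src k).dir))
  sep : 0 < g.J → ∀ k k', k ≠ k' → 8 * sc L g.J < tdist (g.src k).y (g.src k').y
  nz : Zw par0 g.A 1 ≠ 0
  flow : ∃ h > (0 : ℝ), g.FlowY L q u N w a h ∧ g.LastB (sc L N) h |Zw par0 g.A 1|

namespace DV

variable {g : Geo} {L N N₁ : ℕ} {q : Par} {u : Cor g.M} {w a : ℝ}

/-- The sets whose constants are summed. -/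
def Bad (g : Geo) (L N₁ j : ℕ) (U : Finset g.P) : Prop :=
  (∃ k, (g.src k).y ∈ U) ∧ ¬ (j ≤ g.J ∧ g.Exc U ∧ g.One U) ∧
    (j < N₁ → 8 * sc L N₁ / 20 + 1 ≤ stein U)

theorem exc_le (R : g.RunY L q u N w a) {U : Finset g.P} (h : g.Exc U) : stein U ≤ 4 := by
  obtain ⟨k, h⟩ := h
  rw [(R.en k).1] at h
  obtain ⟨-, -, h1⟩ := MN.exc_sub (g := { g with src := fun k => enSrc (g.src k).y (g.src k).dir })
    ⟨R.ok.sign, fun _ => FM.enSrc_ok _ _⟩ (fun _ => rfl) ⟨k, h⟩
  exact h1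

open Classical in
theorem lvl_le (R : g.RunY L q u N w a) (hL : 8 ≤ L) (hw : 0 < w) (ha : 0 ≤ a) (hJ : g.J ≤ N₁)
    {j : ℕ} (hj : j ≤ N) :
    ∑ U ∈ univ.filter (Bad g L N₁ j), g.ps (w * sc L g.J) U (g.csC L q u j U) ≤
      4 * (4 ^ 4 * 120) * (a * 2 ^ g.J) * (1 / 2 ^ j * (1 / 4 ^ (N₁ - j))) := by
  obtain ⟨h, -, F, -⟩ := R.flow
  have h8 := eight_le_sc (L := L) (by omega) (min j g.J)
  have hβ : 0 < w * sc L (min j g.J) := by positivity
  have hle : w * sc L (min j g.J) ≤ w * sc L g.J :=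
    mul_le_mul_of_nonneg_left (by exact_mod_cast sc_mono (by omega) (min_le_right _ _)) hw.le
  have hG : 4 * (w * sc L g.J) / (w * sc L (min j g.J)) ≤ 4 * (L : ℝ) ^ (N₁ - j) := by
    rw [div_le_iff₀ hβ, sc_eq (min_le_right j g.J), show g.J - min j g.J = g.J - j by omega]
    have : (L : ℝ) ^ (g.J - j) ≤ (L : ℝ) ^ (N₁ - j) :=
      pow_le_pow_right₀ (by exact_mod_cast (by omega : 1 ≤ L)) (by omega)
    push_cast
    calc _ = 4 * (L : ℝ) ^ (g.J - j) * (w * sc L (min j g.J)) := by ring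
      _ ≤ _ := by gcongr
  set f : Finset g.P → ℝ := fun U => if j ≤ g.J ∧ g.Exc U ∧ g.One U then 0 else
    g.ps (w * sc L (min j g.J)) U (g.csC L q u j U) with hf
  have f0 : ∀ U, 0 ≤ f U := fun U => by
    simp only [hf]
    split_ifs
    exacts [le_rfl, ps_nonneg _]
  have hA : Anch (sc L j) (2 * L) f (a * 2 ^ g.J * (1 / 2 ^ j)) := by
    by_cases h : j ≤ g.J
    · intro z
      have h1 := F.early j h z
      simp only [hf, h, true_and, min_eq_left h]
      refine le_trans (by convert h1) ?_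
      rw [mul_one_div]
      exact div_le_div_of_nonneg_right (le_mul_of_one_le_right ha (one_le_pow₀ one_le_two))
        (by positivity)
    · have h1 := F.late j (not_le.1 h) hj
      obtain ⟨n, rfl⟩ := Nat.exists_eq_add_of_le (not_le.1 h).le
      rw [Nat.add_sub_cancel_left] at h1
      simp only [hf, h, false_and, if_false, min_eq_right (not_le.1 h).le]
      convert h1 using 1
      rw [pow_add]
      field_simp
  set T := if j < N₁ then 8 * sc L N₁ / 20 + 1 else 0 with hT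
  have hL0 : (0 : ℝ) ≤ L := Nat.cast_nonneg _
  have k1 : (4 * (L : ℝ) ^ (N₁ - j)) ^ 4 * Real.exp (-(L * T / sc L j)) ≤
      4 ^ 4 * 120 * (1 / 4 ^ (N₁ - j)) := by
    rw [hT]
    split_ifs with h
    · exact (gain (L := L) (by omega) h.le le_rfl 4).trans (by norm_num [Nat.factorial])
    · rw [show N₁ - j = 0 by omega]
      norm_num
  set f' : Finset g.P → ℝ := fun U => if T ≤ stein U then f U else 0 with hf'
  have f1 : ∀ U, 0 ≤ f' U := fun U => by
    simp only [hf']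
    split_ifs
    exacts [f0 U, le_rfl]
  have k2 : ∀ U ∈ univ.filter (Bad g L N₁ j), g.ps (w * sc L g.J) U (g.csC L q u j U) ≤
      (4 * (L : ℝ) ^ (N₁ - j)) ^ 4 * ∑ k, if (g.src k).y ∈ U then f' U else 0 := by
    intro U hU
    obtain ⟨⟨k, a1⟩, a2, a3⟩ := (mem_filter.1 hU).2
    refine (ps_wt R.ok.sign hβ hle hG R.card (W.Geo.csC_mem R.ok R.hu L q j U).1).trans
      (mul_le_mul_of_nonneg_left (le_trans (le_of_eq ?_) (single_le_sum
        (f := fun k => if (g.src k).y ∈ U then f' U else 0) (fun k _ => ?_) (mem_univ k)))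
        (by positivity))
    · have a4 : T ≤ stein U := by
        rw [hT]
        split_ifs with h
        exacts [a3 h, Nat.zero_le _]
      simp only [hf', hf, if_pos a1, if_pos a4, if_neg a2]
    · split_ifs
      exacts [f1 U, le_rfl]
  have k3 : ∑ U, ∑ k, (if (g.src k).y ∈ U then f' U else 0) ≤
      4 * (Real.exp (-(L * T / sc L j)) * (a * 2 ^ g.J * (1 / 2 ^ j))) := by
    rw [sum_comm]
    refine (sum_le_card_nsmul _ _ (Real.exp (-(L * T / sc L j)) * (a * 2 ^ g.J * (1 / 2 ^ j)))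
      fun k _ => ?_).trans ?_
    · rw [← sum_filter]
      exact R8.sum_mem_le hL0 f1 (anch_cut hL0 f0 hA T) _ _ fun X hX => (mem_filter.1 hX).2
    · rw [nsmul_eq_mul, card_univ]
      exact mul_le_mul_of_nonneg_right (by exact_mod_cast R.card) (by positivity)
  refine (sum_le_sum k2).trans ((sum_le_sum_of_subset_of_nonneg (filter_subset _ _)
    fun U _ _ => mul_nonneg (by positivity) (sum_nonneg fun k _ => by
      split_ifs
      exacts [f1 U, le_rfl])).trans ?_)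
  rw [← mul_sum]
  calc _ ≤ (4 * (L : ℝ) ^ (N₁ - j)) ^ 4 *
        (4 * (Real.exp (-(L * T / sc L j)) * (a * 2 ^ g.J * (1 / 2 ^ j)))) := by gcongr
    _ = 4 * ((4 * (L : ℝ) ^ (N₁ - j)) ^ 4 * Real.exp (-(L * T / sc L j))) *
        (a * 2 ^ g.J * (1 / 2 ^ j)) := by ring
    _ ≤ 4 * (4 ^ 4 * 120 * (1 / 4 ^ (N₁ - j))) * (a * 2 ^ g.J * (1 / 2 ^ j)) := by gcongr
    _ = _ := by ring

/-- The constant of one set without its scalar part. -/
noncomputable def cV (g : Geo) (L : ℕ) (q : Par) (u : Cor g.M) (j : ℕ) (U : Finset g.P) : g.E :=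
  g.csC L q u j U - ag g (g.csC L q u j U) • 1

theorem ps_cV (R : g.RunY L q u N w a) {β : ℝ} (hβ : 0 < β) (j : ℕ) (U : Finset g.P) :
    g.ps β univ (cV g L q u j U) ≤ 2 * g.ps β U (g.csC L q u j U) := by
  refine (RN.pn_sub le_rfl one_pos hβ _ _).trans ((add_le_add (RN.pn_mono le_rfl one_pos hβ le_rfl
    le_rfl (subset_univ U) (W.Geo.csC_mem R.ok R.hu L q j U).1) ?_).trans (two_mul _).ge)
  rw [RN.pn_smul le_rfl one_pos hβ]
  exact (mul_le_of_le_one_right (abs_nonneg _) (RN.pn_one le_rfl one_pos hβ)).trans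
    (RN.abs_aug_le_pn le_rfl one_pos hβ _)

open Classical in
theorem bad_le (R : g.RunY L q u N w a) (hL : 8 ≤ L) (hw : 0 < w) (ha : 0 ≤ a) (hJ : g.J ≤ N₁)
    (hN : N₁ ≤ N) : ∑ j ∈ range (N + 1), ∑ U ∈ univ.filter (Bad g L N₁ j),
      g.ps (w * sc L g.J) univ (cV g L q u j U) ≤ 10 ^ 6 * (a / 2 ^ (N₁ - g.J)) := by
  have h8 := eight_le_sc (L := L) (by omega) g.J
  have hβ : 0 < w * sc L g.J := by positivity
  refine (sum_le_sum fun j hj => (sum_le_sum fun U _ => ps_cV R hβ j U).trans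
    ((mul_sum _ _ _).ge.trans (mul_le_mul_of_nonneg_left
      (lvl_le R hL hw ha hJ (by have := mem_range.1 hj; omega)) zero_le_two))).trans ?_
  rw [← mul_sum, ← mul_sum, sum_split N N₁ hN]
  have h1 := geo_head N₁
  have h2 : ∑ j ∈ Ico (N₁ + 1) (N + 1), (1 : ℝ) / 2 ^ j * (1 / 4 ^ (N₁ - j)) ≤ 1 / 2 ^ N₁ :=
    (sum_le_sum fun j hj => by
      rw [show N₁ - j = 0 by have := (mem_Ico.1 hj).1; omega, pow_zero, div_one, mul_one]).trans
      (geo_tail _ _)
  obtain ⟨n, rfl⟩ := Nat.exists_eq_add_of_le hJ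
  rw [Nat.add_sub_cancel_left]
  calc _ ≤ 2 * (4 * (4 ^ 4 * 120) * (a * 2 ^ g.J) * (2 / 2 ^ (g.J + n) + 1 / 2 ^ (g.J + n))) := by
        gcongr
    _ = 737280 * (a / 2 ^ n) := by
        rw [pow_add]
        field_simp
        ring
    _ ≤ _ := by gcongr; norm_num

theorem cV_zero (R : g.RunY L q u N w a) (j : ℕ) {U : Finset g.P} (h : ∀ k, (g.src k).y ∉ U) :
    cV g L q u j U = 0 :=
  sub_eq_zero.2 (src_zero (W.Geo.csC_mem R.ok R.hu L q j U).1 (W.Geo.csC_mem R.ok R.hu L q j U).2 h)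

theorem WV_eq (e : g.K → ℝ) : WV g L q u N e =
    ∑ j ∈ range (N + 1), ∑ U, cV g L q u j U - ∑ k, e k • g.bv k := by
  simp only [WV, CX, cV, map_sum, sum_smul, sum_sub_distrib]

/-- The last integration is close to one. -/
theorem TV_le (R : g.RunY L q u N w a) (hL : 1 ≤ L) (hw : 0 < w) {x : ℝ}
    (hx : a / 2 ^ (N - g.J) ≤ x) (hx' : x ≤ 1 / 4) :
    g.ps (w * sc L g.J) univ (TV g L q u N - 1) ≤ 8 * x ∧ ag g (TX g L q u N) ≠ 0 := by
  obtain ⟨h, hh, F, H⟩ := R.flow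
  have h8 := eight_le_sc hL g.J
  have h9 := eight_le_sc hL N
  have hβ : 0 < w * sc L g.J := by positivity
  set X := ∑ X, (g.flowC L q u N).H X with hX
  have hXm : X ∈ g.sub univ :=
    sum_mem fun U _ => mem_univ_sub ((W.Geo.wf_flowC R.ok R.hu L q N).H_mem U)
  have h0 : 0 ≤ x := (RN.pn_nonneg _).trans (F.last.trans hx)
  have h3 := (pn_exp (by omega) hh hβ hXm (F.last.trans hx)).1
  have h4 := Real.abs_exp_sub_one_le (x := x) (by rw [abs_of_nonneg h0]; linarith)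
  rw [abs_of_nonneg h0] at h4
  set Z := Zw par0 g.A 1 with hZ
  set D := TX g L q u N - Z • 1 with hD
  have e : D = g.TL (sc L N) (NormedSpace.exp X - 1) := by
    rw [hD, sub_eq_add_neg (NormedSpace.exp X), LM.TL_add, ← neg_one_smul ℝ (1 : g.E), LM.TL_smul,
      LM.TL_one, neg_one_smul, ← sub_eq_add_neg]
    rfl
  have c1 : g.ps (w * sc L g.J) univ D ≤ |Z| * (2 * x) := e ▸
    (H _ hβ _ (sub_mem (exp_mem_sub _ hXm) (one_mem _))).trans
      (mul_le_mul_of_nonneg_left (h3.trans ((le_abs_self _).trans h4)) (abs_nonneg _))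
  have c2 : |ag g D| ≤ |Z| * (2 * x) := (RN.abs_aug_le_pn le_rfl one_pos hβ _).trans c1
  have c3 : ag g (TX g L q u N) = Z + ag g D := by
    rw [hD, map_sub, map_smul, ag_one, smul_eq_mul, mul_one, add_sub_cancel]
  have c4 : 0 < |Z| := abs_pos.2 R.nz
  have c5 : |Z| ≤ 2 * |ag g (TX g L q u N)| := by
    have := abs_sub_abs_le_abs_sub Z (ag g (TX g L q u N))
    rw [c3, sub_add_cancel_left, abs_neg, ← c3] at this
    nlinarith
  have c6 : 0 < |ag g (TX g L q u N)| := by linarith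
  refine ⟨?_, abs_pos.1 c6⟩
  have e2 : TV g L q u N - 1 = (ag g (TX g L q u N))⁻¹ • (D - ag g D • 1) := by
    rw [hD, sub_sub, ← add_smul, ← c3, smul_sub, smul_smul, inv_mul_cancel₀ (abs_pos.1 c6),
      one_smul, TV]
  unfold Geo.ps at *
  rw [e2, RN.pn_smul le_rfl one_pos hβ, abs_inv, inv_mul_le_iff₀ c6]
  refine (RN.pn_sub le_rfl one_pos hβ _ _).trans ?_
  rw [RN.pn_smul le_rfl one_pos hβ]
  have c7 := mul_le_of_le_one_right (abs_nonneg (ag g D))
    (RN.pn_one (g := g) (X := univ) le_rfl one_pos hβ)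
  nlinarith

end DV

end Vale.Agent.P144Z
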