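import Vale.Agent.P144DX.VEst

/-!
# Pairs of energies: bounds, factorisation and transport in one sector
-/

namespace Vale.Agent.P144Z.DV

open Finset Matrix Geo DX
open Mn hiding Br Gd WW WW_eq br_good en_eq exc_sub mix_eq ok_bare ok_one ps_br ps_cf ps_wt see_en
  ss top_le bad_sum
open MN hiding gen Z_eq en_eq mix_eq br_good Gd T_close

variable {g g' : Geo} {L N N' N₁ : ℕ} {q : Par} {u : Cor g.M} {u' : Cor g'.M} {w a H : ℝ}
  {κ : g.K → Option g'.K}

theorem conv (R : g.RunY L q u N w a) : g.ConvC L q u N := by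
  obtain ⟨h, -, F, -⟩ := R.flow
  exact F.conv

theorem top_rho (hZ : q.Z ≠ 0) (h : g.ConvC L q u N) (ι : g'.K → g.K)
    (hι : ∀ k k', κ k = some k' ↔ k = ι k') {top : g'.E →ₗ[ℝ] ℝ}
    (ht : ∀ a : g'.K → ℝ, top (NormedSpace.exp (∑ k, a k • g'.bv k)) = ∏ k, a k) (e : g.K → ℝ) :
    top (rho g g' κ (NormedSpace.exp (WV g L q u N e) * TV g L q u N)) =
      Ex q u g.A fun n => ∏ k', (ob g (ι k') n - e (ι k')) := by
  refine (gen_lin hZ h (top ∘ₗ rho g g' κ) e).symm.trans (congrArg _ (funext fun n => ?_))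
  rw [LinearMap.comp_apply, rho_exp, rho_sum ι hι, ht]

theorem one_eq (R : g.RunY L q u N w a) (j : ℕ) {U : Finset g.P} (h : g.One U) :
    cV g L q u j U = ∑ k, cf g k (g.csC L q u j U) • g.bv k := by
  obtain ⟨hm, hn⟩ := W.Geo.csC_mem R.ok R.hu L q j U
  by_cases hk : ∃ k, (g.src k).y ∈ U
  · obtain ⟨k, hk⟩ := hk
    rw [sum_eq_single k (fun k' _ hne => by
      rw [cf_not_mem hm fun h' => hne (h _ _ h' hk), zero_smul]) (fun h => absurd (mem_univ _) h),
      cV, sub_eq_iff_eq_add']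
    exact src_one hm hn k fun k' h' => h _ _ h' hk
  · push Not at hk
    rw [cV_zero R j hk, sum_eq_zero fun k _ => by rw [cf_not_mem hm (hk k), zero_smul]]

theorem G_le (R : g.RunY L q u N w a) (hL : 1 ≤ L) (hw : 0 < w) (hx : a / 2 ^ (N - g.J) ≤ 1 / 4)
    {e : g.K → ℝ} {B : ℝ} (h : g.ps (w * sc L g.J) univ (WV g L q u N e) ≤ B) :
    g.ps (w * sc L g.J) univ (NormedSpace.exp (WV g L q u N e) * TV g L q u N) ≤
      Real.exp B * 3 := by
  have h8 := eight_le_sc hL g.J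
  have hβ : 0 < w * sc L g.J := by positivity
  refine (RN.pn_mul le_rfl one_pos hβ _ _).trans (mul_le_mul
    (pn_exp le_rfl one_pos hβ (WV_mem e) h).2 ?_ (RN.pn_nonneg _) (Real.exp_pos _).le)
  have c1 := RN.pn_add (X := univ) le_rfl one_pos hβ (TV g L q u N - 1) 1
  have c2 := (TV_le R hL hw hx le_rfl).1
  have c3 := RN.pn_one (g := g) (X := univ) le_rfl one_pos hβ
  rw [sub_add_cancel] at c1
  unfold Geo.ps at *
  linarith

theorem Z_ne (R : g.RunY L q u N w a) (hZ : q.Z ≠ 0) (hL : 1 ≤ L) (hw : 0 < w)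
    (hx : a / 2 ^ (N - g.J) ≤ 1 / 4) : ZwC q u g.A 1 ≠ 0 := by
  rw [DX.Z_eq hZ (conv R)]
  exact mul_ne_zero (inv_ne_zero (pow_ne_zero _ hZ))
    (mul_ne_zero (Real.exp_pos _).ne' (TV_le R hL hw hx le_rfl).2)

/-- The bound on the exponent. -/
noncomputable def BV (a H : ℝ) : ℝ := 10 ^ 6 * a + 4 * (H + Real.exp (10 ^ 6 * a) * 3)

open Classical in
theorem W_le (R : g.RunY L q u N w a) (hZ : q.Z ≠ 0) (hL : 8 ≤ L) (hw : 0 < w) (ha : 0 ≤ a)
    (hx : a / 2 ^ (N - g.J) ≤ 1 / 4) {e : g.K → ℝ} (hH : 0 ≤ H)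
    (he : ∀ k, w * sc L g.J * |e k - Ex q u g.A (ob g k)| ≤ H) :
    g.ps (w * sc L g.J) univ (WV g L q u N e) ≤ BV a H := by
  have h8 := eight_le_sc (L := L) (by omega) g.J
  have hβ : 0 < w * sc L g.J := by positivity
  set t : g.K → ℝ := fun k => ∑ j ∈ range (N + 1), ∑ U ∈ univ.filter (fun U => ¬ Bad g L g.J j U),
    cf g k (g.csC L q u j U) with ht
  have e1 : WV g L q u N t =
      ∑ j ∈ range (N + 1), ∑ U ∈ univ.filter (Bad g L g.J j), cV g L q u j U := by
    rw [WV_eq, sub_eq_iff_eq_add]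
    simp only [ht, sum_smul]
    rw [sum_comm (s := univ), ← sum_add_distrib]
    refine sum_congr rfl fun j _ => ?_
    rw [sum_comm, ← sum_filter_add_sum_filter_not univ (Bad g L g.J j)]
    refine congrArg _ (sum_congr rfl fun U hU => one_eq R j fun k k' hk hk' => ?_)
    by_contra hne
    refine (mem_filter.1 hU).2 ⟨⟨k, hk⟩, fun h => hne (h.2.2 _ _ hk hk'), fun h => ?_⟩
    have := R.sep (by omega) k k' hne
    have := tdist_le_stein hk hk'
    omega
  have b1 : g.ps (w * sc L g.J) univ (WV g L q u N t) ≤ 10 ^ 6 * a := by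
    have := bad_le R hL hw ha le_rfl R.JN
    rw [Nat.sub_self, pow_zero, div_one] at this
    rw [e1]
    exact (RN.pn_sum le_rfl one_pos hβ _ _).trans ((sum_le_sum fun j _ =>
      RN.pn_sum le_rfl one_pos hβ _ _).trans this)
  have b2 : ∀ k, w * sc L g.J * |t k - e k| ≤ H + Real.exp (10 ^ 6 * a) * 3 := by
    intro k
    obtain ⟨top, ht1, -, ht3⟩ := W.Geo.exists_top (one g g.A k)
    have c1 := (ht3 1 1 _ R.ok.sign le_rfl one_pos hβ _).trans ((ps_rho (κ := R6.keep k) hβ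
      _).trans (G_le R (by omega) hw hx b1))
    rw [top_rho hZ (conv R) (fun _ => k) (fun k' _ => ⟨R6.keep_eq, fun h => h ▸ R6.keep_self _⟩)
      ht1, Fintype.card_unit, pow_one] at c1
    simp only [univ_unique, prod_singleton] at c1
    rw [Ex_sub (Z_ne R hZ (by omega) hw hx)] at c1
    have c2 := mul_le_mul_of_nonneg_left (abs_sub_le (t k) (Ex q u g.A (ob g k)) (e k)) hβ.le
    have c3 := he k
    rw [abs_sub_comm] at c1 c3
    rw [mul_add] at c2
    exact c2.trans ((add_le_add c1 c3).trans_eq (add_comm _ _))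
  have e2 : WV g L q u N e = WV g L q u N t + ∑ k, (t k - e k) • g.bv k := by
    simp only [WV, sub_smul, sum_sub_distrib]
    abel
  rw [e2]
  refine (RN.pn_add le_rfl one_pos hβ _ _).trans (add_le_add b1
    ((ps_bv R.ok.sign hβ _ b2).trans ?_))
  exact mul_le_mul_of_nonneg_right (by exact_mod_cast R.card) (by positivity)

/-- The bound on the moments. -/
theorem mom_le (R : g.RunY L q u N w a) (hZ : q.Z ≠ 0) (hL : 8 ≤ L) (hw : 0 < w) (ha : 0 ≤ a)
    (hx : a / 2 ^ (N - g.J) ≤ 1 / 4) {e : g.K → ℝ} (hH : 0 ≤ H)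
    (he : ∀ k, w * sc L g.J * |e k - Ex q u g.A (ob g k)| ≤ H) :
    (w * sc L g.J) ^ Fintype.card g.K * |Ex q u g.A fun n => ∏ k, (ob g k n - e k)| ≤
      Real.exp (BV a H) * 3 := by
  have h8 := eight_le_sc (L := L) (by omega) g.J
  have hβ : 0 < w * sc L g.J := by positivity
  obtain ⟨top, ht1, -, ht3⟩ := W.Geo.exists_top g
  have c1 := (ht3 1 1 _ R.ok.sign le_rfl one_pos hβ _).trans ((ps_rho (κ := some) hβ
    _).trans (G_le R (by omega) hw hx (W_le R hZ hL hw ha hx hH he)))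
  rwa [top_rho hZ (conv R) id (fun _ _ => Option.some_inj) ht1] at c1

theorem x_le (hJ : g.J ≤ N₁) (hN : N₁ ≤ N) (ha : 0 ≤ a) :
    a / 2 ^ (N - g.J) ≤ a / 2 ^ (N₁ - g.J) :=
  div_le_div_of_nonneg_left ha (by positivity) (pow_le_pow_right₀ one_le_two (by omega))

open Classical in
/-- Factorisation. -/
theorem fac_le (R : g.RunY L q u N w a) (hZ : q.Z ≠ 0) (hL : 8 ≤ L) (hw : 0 < w) (ha : 0 ≤ a)
    (hJ : g.J ≤ N₁) (hN : N₁ ≤ N) (hx : 10 ^ 7 * (a / 2 ^ (N₁ - g.J)) ≤ 1) {e : g.K → ℝ}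
    (hH : 0 ≤ H) (he : ∀ k, w * sc L g.J * |e k - Ex q u g.A (ob g k)| ≤ H) (S : Finset g.K)
    (hS : ∀ k ∈ S, ∀ k' ∉ S, sc L N₁ ≤ tdist (g.src k).y (g.src k').y) :
    (w * sc L g.J) ^ Fintype.card g.K * |Ex q u g.A (fun n => ∏ k, (ob g k n - e k)) -
      Ex q u g.A (fun n => ∏ k ∈ S, (ob g k n - e k)) *
        Ex q u g.A fun n => ∏ k ∈ Sᶜ, (ob g k n - e k)| ≤
      Real.exp (2 * BV a H) * (8 * (10 ^ 7 * (a / 2 ^ (N₁ - g.J)))) := by
  have h8 := eight_le_sc (L := L) (by omega) g.J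
  have h9 := eight_le_sc (L := L) (by omega) N₁
  have hβ : 0 < w * sc L g.J := by positivity
  have x0 := x_le hJ hN ha
  set x := a / 2 ^ (N₁ - g.J) with hxd
  have x1 : 0 ≤ x := by positivity
  obtain ⟨top, ht1, -, ht3⟩ := W.Geo.exists_top g
  set pA := rho g g fun k => if k ∈ S then some k else none with hA
  set pB := rho g g fun k => if k ∈ S then none else some k with hB
  have sA : ∀ a : g.K → ℝ, pA (∑ k, a k • g.bv k) = ∑ k, (if k ∈ S then a k else 0) • g.bv k :=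
    fun a => by
      rw [map_sum]
      refine sum_congr rfl fun k _ => ?_
      rw [map_smul, hA, rho_bv]
      split_ifs <;> simp
  have sB : ∀ a : g.K → ℝ, pB (∑ k, a k • g.bv k) = ∑ k, (if k ∈ S then 0 else a k) • g.bv k :=
    fun a => by
      rw [map_sum]
      refine sum_congr rfl fun k _ => ?_
      rw [map_smul, hB, rho_bv]
      split_ifs <;> simp
  set V := WV g L q u N e with hV
  set T := TV g L q u N with hT
  have e1 : top (pA (NormedSpace.exp V * T) * pB (NormedSpace.exp V * T)) =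
      Ex q u g.A (fun n => ∏ k ∈ S, (ob g k n - e k)) *
        Ex q u g.A fun n => ∏ k ∈ Sᶜ, (ob g k n - e k) := by
    rw [mul_comm (Ex _ _ _ _), ← Ex_mul]
    refine (gen_lin hZ (conv R) (top ∘ₗ LinearMap.mulRight ℝ (pB (NormedSpace.exp V * T)) ∘ₗ pA)
      e).symm.trans (congrArg _ (funext fun n => ?_))
    rw [mul_comm (Ex _ _ _ _), ← Ex_mul]
    refine (gen_lin hZ (conv R) (top ∘ₗ LinearMap.mulLeft ℝ
      (pA (NormedSpace.exp (∑ k, (ob g k n - e k) • g.bv k))) ∘ₗ pB) e).symm.trans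
      (congrArg _ (funext fun n' => ?_))
    simp only [LinearMap.comp_apply, LinearMap.mulLeft_apply]
    rw [rho_exp, rho_exp, sA, sB, ← exp_add', ← sum_add_distrib]
    simp only [← add_smul]
    rw [ht1, ← prod_mul_prod_compl S]
    exact congrArg₂ _ (prod_congr rfl fun k hk => by simp [hk])
      (prod_congr rfl fun k hk => by simp [mem_compl.1 hk])
  have e0 := gen_lin hZ (conv R) top e
  simp only [ht1] at e0
  have bW := W_le R hZ hL hw ha (by linarith) hH he
  have bT := (TV_le R (by omega) hw x0 (by linarith)).1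
  set δ : g.E →ₗ[ℝ] g.E := LinearMap.id - pA - pB with hδ
  have bδ : ∀ F, g.ps (w * sc L g.J) univ (δ F) ≤ 3 * g.ps (w * sc L g.J) univ F := fun F => by
    have c1 := (RN.pn_sub (X := univ) le_rfl one_pos hβ (F - pA F) (pB F)).trans (add_le_add
      ((RN.pn_sub le_rfl one_pos hβ _ _).trans (add_le_add le_rfl (ps_rho hβ F))) (ps_rho hβ F))
    change g.pn _ _ _ _ (F - pA F - pB F) ≤ _
    unfold Geo.ps at *
    linarith
  have e2 : δ V = ∑ j ∈ range (N + 1), ∑ U ∈ univ.filter (Bad g L N₁ j), δ (cV g L q u j U) := by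
    have z : δ (∑ k, e k • g.bv k) = 0 := by
      change _ - pA _ - pB _ = 0
      rw [sA, sB, LinearMap.id_apply, ← sum_sub_distrib, ← sum_sub_distrib]
      refine sum_eq_zero fun k _ => ?_
      split_ifs <;> simp
    rw [hV, WV_eq, map_sub, z, sub_zero, map_sum]
    refine sum_congr rfl fun j _ => ?_
    rw [map_sum, sum_filter_of_ne fun U _ hne => ?_]
    obtain ⟨hm, hn⟩ := W.Geo.csC_mem R.ok R.hu L q j U
    have m1 : cV g L q u j U ∈ g.sub U := sub_mem hm (Subalgebra.smul_mem _ (one_mem _) _)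
    have m2 : rho g g some (cV g L q u j U) = cV g L q u j U := by
      rw [cV, map_sub, map_smul, rho_one, rho_some, hn]
    have m3 : rho g g (fun _ => none) (cV g L q u j U) = 0 := by
      rw [rho_none, cV, map_sub, map_smul, ag_one, smul_eq_mul, mul_one, sub_self, zero_smul]
    by_cases a1 : ∀ k, (g.src k).y ∈ U → k ∈ S
    · refine absurd ?_ hne
      change _ - pA _ - pB _ = 0
      rw [hA, hB, rho_congr (κ' := some) m1 fun k hk => if_pos (a1 k hk),
        rho_congr (κ' := fun _ => none) m1 fun k hk => if_pos (a1 k hk), m2, m3]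
      simp
    by_cases a2 : ∀ k, (g.src k).y ∈ U → k ∉ S
    · refine absurd ?_ hne
      change _ - pA _ - pB _ = 0
      rw [hA, hB, rho_congr (κ' := fun _ => none) m1 fun k hk => if_neg (a2 k hk),
        rho_congr (κ' := some) m1 fun k hk => if_neg (a2 k hk), m2, m3]
      simp
    push Not at a1 a2
    obtain ⟨k', b1, b2⟩ := a1
    obtain ⟨k, b3, b4⟩ := a2
    refine ⟨⟨k, b3⟩, fun h => b2 (h.2.2 _ _ b3 b1 ▸ b4), fun _ => ?_⟩
    have := hS k b4 k' b2
    have := tdist_le_stein b3 b1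
    omega
  have bD : g.ps (w * sc L g.J) univ (δ V) ≤ 10 ^ 7 * x := by
    rw [e2]
    refine (RN.pn_sum le_rfl one_pos hβ _ _).trans ((sum_le_sum fun j _ =>
      (RN.pn_sum le_rfl one_pos hβ _ _).trans ((sum_le_sum fun U _ => bδ _).trans
        (mul_sum _ _ _).ge)).trans ((mul_sum _ _ _).ge.trans ?_))
    linarith [bad_le R hL hw ha hJ hN]
  have b3 : g.ps (w * sc L g.J) univ (pA T * pB T - 1) ≤ 3 * (10 ^ 7 * x) := by
    have c1 : pA T * pB T - 1 = pA (T - 1) * pB (T - 1) + pA (T - 1) + pB (T - 1) := by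
      rw [map_sub, map_sub, hA, hB, rho_one, rho_one]
      ring
    have c2 := (ps_rho (κ := fun k => if k ∈ S then some k else none) hβ _).trans bT
    have c3 := (ps_rho (κ := fun k => if k ∈ S then none else some k) hβ _).trans bT
    have c4 := (RN.pn_mul (X := univ) le_rfl one_pos hβ _ _).trans
      (mul_le_mul c2 (c3.trans (by linarith : 8 * x ≤ 1)) (RN.pn_nonneg _) (by positivity))
    rw [c1]
    refine (RN.pn_add le_rfl one_pos hβ _ _).trans ((add_le_add ((RN.pn_add le_rfl one_pos hβ _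
      _).trans (add_le_add c4 c2)) c3).trans ?_)
    linarith
  have c := close hβ (V := pA V + pB V) (D := δ V) (add_mem (rho_mem _) (rho_mem _))
    (sub_mem (sub_mem (WV_mem e) (rho_mem _)) (rho_mem _)) ((RN.pn_add le_rfl one_pos hβ _ _).trans
      ((add_le_add ((ps_rho hβ _).trans bW) ((ps_rho hβ _).trans bW)).trans (two_mul _).ge)) bD
    (bT.trans (by linarith)) b3 hx
  refine le_trans (le_of_eq ?_) ((ht3 1 1 _ R.ok.sign le_rfl one_pos hβ _).trans c)
  rw [e0, ← e1, map_sub, show pA V + pB V + δ V = V by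
    change _ + (V - pA V - pB V) = V
    abel, hA, hB, rho_mul, rho_mul, rho_exp, rho_exp, exp_add', mul_mul_mul_comm]

end Vale.Agent.P144Z.DV
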