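import Vale.Agent.P144DX.VSec

/-!
# Pairs of energies: the estimates for mixtures
-/

namespace Vale.Agent.P144Z.DV

open Finset Matrix Geo DX P144

/-- Mixtures of good sectors. -/
def MixOk (L : ℕ) (q : Par) (J : ℕ) (b : Bool) (w a : ℝ) (N₁ D : ℕ) (Γ : ℝ) (mo : Mom)
    (S : Site → Prop) : Prop :=
  ∃ (M N : ℕ) (_ : NeZero M) (ι : Type) (I : Finset ι) (A : ι → Gauge M) (u : ι → Cor M)
    (c : ι → ℝ), (∀ i ∈ I, SecOk L q J b w a N₁ D (A i) (u i) N S) ∧ ∑ i ∈ I, |c i| ≤ Γ ∧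
    ∑ i ∈ I, c i = 1 ∧ ∀ (m : ℕ) (y : Fin m → Site) (j : Fin m → Fin 2) (e : Fin m → ℝ)
      (t : Finset (Fin m)), (∀ k, S (y k)) →
        mo m y j e t = ∑ i ∈ I, c i * sm q (u i) (A i) y j e t

theorem mix_le {ι : Type} {I : Finset ι} {c f : ι → ℝ} {Γ x ε β : ℝ} (h1 : ∑ i ∈ I, |c i| ≤ Γ)
    (h2 : ∑ i ∈ I, c i = 1) (hβ : 0 ≤ β) (hε : 0 ≤ ε) (h : ∀ i ∈ I, β * |f i - x| ≤ ε) :
    β * |∑ i ∈ I, c i * f i - x| ≤ Γ * ε := by
  have e : ∑ i ∈ I, c i * f i - x = ∑ i ∈ I, c i * (f i - x) := by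
    simp only [mul_sub, sum_sub_distrib, ← sum_mul, h2, one_mul]
  rw [e]
  refine (mul_le_mul_of_nonneg_left (abs_sum_le_sum_abs _ _) hβ).trans
    (le_trans ?_ (mul_le_mul_of_nonneg_right h1 hε))
  rw [mul_sum, sum_mul]
  refine sum_le_sum fun i hi => ?_
  rw [abs_mul, mul_left_comm]
  exact mul_le_mul_of_nonneg_left (h i hi) (abs_nonneg _)

theorem Ex_pair {M : ℕ} [NeZero M] {q : Par} {u : Cor M} {A : Gauge M} (h : ZwC q u A 1 ≠ 0)
    (X Y : (Tor M × Fin 2 → Bool) → ℝ) (a b : ℝ) :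
    Ex q u A (fun n => (X n - a) * (Y n - b)) = Ex q u A (fun n => X n * Y n) -
      Ex q u A X * Ex q u A Y + (a - Ex q u A X) * (b - Ex q u A Y) := by
  have e : ZwC q u A (fun n => (X n - a) * (Y n - b)) = ZwC q u A (fun n => X n * Y n) -
      a * ZwC q u A Y - b * ZwC q u A X + a * b * ZwC q u A 1 := by
    simp only [ZwC, mul_sum, ← sum_sub_distrib, ← sum_add_distrib, Pi.one_apply]
    exact sum_congr rfl fun n _ => by ring
  simp only [Ex, e]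
  field_simp
  ring

variable {L J N N' N₁ D M M' : ℕ} [NeZero M] [NeZero M'] {q : Par} {b : Bool} {w a Γ : ℝ}
  {A : Gauge M} {A' : Gauge M'} {u : Cor M} {u' : Cor M'} {S S' : Site → Prop} {mo mo' : Mom}

theorem one_le (h : Num L q J w a N₁) (σ : SecOk L q J b w a N₁ D A u N S)
    (σ' : SecOk L q J b w a N₁ D A' u' N' S') {y : Site} (hy : S y) (hy' : S' y) (j : Fin 2) :
    w * sc L J * |Ex q u' A' (oE M' y j) - Ex q u A (oE M y j)| ≤
      Real.exp (BV a 0) * (8 * (10 ^ 7 * (a / 2 ^ (N₁ - J)))) := by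
  have h8 := Mn.eight_le_sc (L := L) (by have := h.L8; omega) N₁
  have := sT h σ σ' (ι := Unit) (y := fun _ => y) (j := fun _ => j)
    (e := fun _ => Ex q u A (oE M y j)) (by simp) (fun _ => hy) (fun _ => hy')
    (fun _ _ e => absurd rfl e) le_rfl (fun _ => by simp) () fun _ => by rw [UL.zd_self]; omega
  simp only [sm, univ_unique, prod_singleton, Fintype.card_unique, pow_one] at this
  rwa [Ex_sub (Z_ne' h σ), Ex_sub (Z_ne' h σ'), sub_self, sub_zero] at this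

theorem mean_le (h : Num L q J w a N₁) (X : MixOk L q J b w a N₁ D Γ mo' S')
    (σ : SecOk L q J b w a N₁ D A u N S) {m : ℕ} {y : Fin m → Site} (j : Fin m → Fin 2)
    (hy : ∀ k, S (y k)) (hy' : ∀ k, S' (y k)) (k : Fin m) :
    w * sc L J * |mo' m y j 0 {k} - Ex q u A (oE M (y k) (j k))| ≤
      Γ * (Real.exp (BV a 0) * (8 * (10 ^ 7 * (a / 2 ^ (N₁ - J))))) := by
  obtain ⟨M', N', _, ι, I, A', u', c, h1, h2, h3, h4⟩ := X
  have := h.w0
  have := h.a0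
  rw [h4 m y j 0 {k} hy']
  refine mix_le h2 h3 (by positivity) (by positivity) fun i hi => ?_
  simpa only [sm, prod_singleton, Pi.zero_apply, sub_zero] using
    one_le h σ (h1 i hi) (hy k) (hy' k) (j k)

/-- The constant of the means. -/
noncomputable def HV (a Γ : ℝ) : ℝ := Γ * (Real.exp (BV a 0) * 8)

theorem pair_le (h : Num L q J w a N₁) (hΓ : 1 ≤ Γ) (X : MixOk L q J b w a N₁ D Γ mo' S')
    (σ : SecOk L q J b w a N₁ D A u N S) {y : Fin 2 → Site} (j : Fin 2 → Fin 2)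
    (hy : ∀ k, S (y k)) (hy' : ∀ k, S' (y k)) (hD : D ≤ zd (y 0) (y 1))
    (hs : zd (y 0) (y 1) + 1 ≤ sc L N₁) {e : Fin 2 → ℝ}
    (he : ∀ k, w * sc L J * |e k - Ex q u A (oE M (y k) (j k))| ≤
      HV a Γ * (10 ^ 7 * (a / 2 ^ (N₁ - J)))) :
    (w * sc L J) ^ 2 * |cen mo' y j - sm q u A y j e univ| ≤
      Γ * ((Real.exp (BV a (HV a Γ)) * 8 + 5 * HV a Γ ^ 2) * (10 ^ 7 * (a / 2 ^ (N₁ - J)))) := by
  have X' := X
  obtain ⟨M', N', _, ι, I, A', u', c, h1, h2, h3, h4⟩ := X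
  have hw := h.w0
  have ha := h.a0
  have hx := h.x
  have hH : 0 ≤ HV a Γ := by unfold HV; positivity
  have zc : zd (y 1) (y 0) = zd (y 0) (y 1) := by unfold zd; omega
  rw [cen, h4 2 y j _ _ hy']
  refine mix_le h2 h3 (by positivity) (by positivity) fun i hi => ?_
  have a1 := sT h σ (h1 i hi) (by simp) hy hy' (j := j) (e := e)
    (by simp only [Fin.forall_fin_two, zc]; simp [hD]) hH
    (fun k => (he k).trans (mul_le_of_le_one_right hH hx)) 0
    (by simp only [Fin.forall_fin_two, zc, UL.zd_self]; omega)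
  have a2 := fun k => mean_le h X' (h1 i hi) j hy' hy' k
  have a3 := fun k => one_le h σ (h1 i hi) (hy k) (hy' k) (j k)
  rw [Fintype.card_fin] at a1
  set ε := 10 ^ 7 * (a / 2 ^ (N₁ - J)) with hε
  have ε0 : 0 ≤ ε := by positivity
  set β := w * sc L J with hβ
  have β0 : 0 ≤ β := by positivity
  set μ := fun k => Ex q (u' i) (A' i) (oE M' (y k) (j k)) with hμ
  have a4 : ∀ k, |β * (mo' 2 y j 0 {k} - μ k)| ≤ HV a Γ * ε := fun k => by
    rw [abs_mul, abs_of_nonneg β0]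
    exact (a2 k).trans_eq (by rw [HV]; ring)
  have a5 : ∀ k, |β * (e k - μ k)| ≤ 2 * HV a Γ * ε := fun k => by
    rw [abs_mul, abs_of_nonneg β0]
    have b1 := mul_le_mul_of_nonneg_left (abs_sub_le (e k) (Ex q u A (oE M (y k) (j k))) (μ k)) β0
    have b2 := a3 k
    have b3 : Real.exp (BV a 0) * (8 * ε) ≤ HV a Γ * ε := by
      rw [HV, ← mul_assoc, mul_assoc Γ]
      exact le_mul_of_one_le_left (by positivity) hΓ
    rw [abs_sub_comm] at b2
    rw [mul_add] at b1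
    linarith [he k]
  have a6 : β ^ 2 * (sm q (u' i) (A' i) y j (fun k => mo' 2 y j 0 {k}) univ -
      sm q u A y j e univ) = β ^ 2 * (sm q (u' i) (A' i) y j e univ - sm q u A y j e univ) +
      (β * (mo' 2 y j 0 {0} - μ 0) * (β * (mo' 2 y j 0 {1} - μ 1)) -
        β * (e 0 - μ 0) * (β * (e 1 - μ 1))) := by
    simp only [sm, Fin.prod_univ_two, Ex_pair (Z_ne' h (h1 i hi)), hμ]
    ring
  have a7 := (abs_mul _ _).trans_le (mul_le_mul (a4 0) (a4 1) (abs_nonneg _) (by positivity))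
  have a8 := (abs_mul _ _).trans_le (mul_le_mul (a5 0) (a5 1) (abs_nonneg _) (by positivity))
  rw [← abs_of_nonneg (sq_nonneg β), ← abs_mul] at a1 ⊢
  rw [a6]
  refine (abs_add_le _ _).trans ((add_le_add a1 ((abs_sub _ _).trans (add_le_add a7 a8))).trans ?_)
  have a9 : HV a Γ ^ 2 * ε * ε ≤ HV a Γ ^ 2 * ε := mul_le_of_le_one_right (by positivity) hx
  nlinarith

theorem sm_pair {ι : Type} [DecidableEq ι] (y : ι → Site) (j : ι → Fin 2) (e : ι → ℝ) {k k' : ι}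
    (hk : k ≠ k') : sm q u A y j e {k, k'} = sm q u A ![y k, y k'] ![j k, j k'] ![e k, e k'] univ := by
  simp only [sm, prod_pair hk, Fin.prod_univ_two]
  rfl

theorem mixV (a : ℝ) {Γ : ℝ} (hΓ : 1 ≤ Γ) : ∃ C : ℝ, 0 ≤ C ∧ ∀ (L J N₁ D : ℕ) (q : Par) (b : Bool)
    (w : ℝ), Num L q J w a N₁ → ∀ (mo : Mom) (S : Site → Prop), MixOk L q J b w a N₁ D Γ mo S →
      (∀ (y : Fin 4 → Site) (j : Fin 4 → Fin 2), (∀ k, S (y k)) →
        (∀ k k', k ≠ k' → D ≤ zd (y k) (y k')) → zd (y 0) (y 1) + 1 ≤ sc L N₁ →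
        zd (y 2) (y 3) + 1 ≤ sc L N₁ →
        (∀ k ∈ ({0, 1} : Finset (Fin 4)), ∀ k' ∉ ({0, 1} : Finset (Fin 4)),
          sc L N₁ + 1 ≤ zd (y k) (y k')) →
        (w * sc L J) ^ 4 * |cen mo y j -
          cen mo ![y 0, y 1] ![j 0, j 1] * cen mo ![y 2, y 3] ![j 2, j 3]| ≤ C / 2 ^ (N₁ - J)) ∧
      ∀ (mo' : Mom) (S' : Site → Prop), MixOk L q J b w a N₁ D Γ mo' S' →
        ∀ (y : Fin 2 → Site) (j : Fin 2 → Fin 2), (∀ k, S (y k)) → (∀ k, S' (y k)) →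
          D ≤ zd (y 0) (y 1) → zd (y 0) (y 1) + 1 ≤ sc L N₁ →
            (w * sc L J) ^ 2 * |cen mo y j - cen mo' y j| ≤ C / 2 ^ (N₁ - J) := by
  set H := HV a Γ with hHd
  have hH : 0 ≤ H := by rw [hHd, HV]; positivity
  set c₂ := Γ * (Real.exp (BV a H) * 8 + 5 * H ^ 2) with hc₂
  set B := Real.exp (BV a H) * 3 with hB
  have c0 : 0 ≤ c₂ := by positivity
  have B0 : 0 ≤ B := by positivity
  refine ⟨Γ * (Real.exp (2 * BV a H) * 8 + (2 * B + c₂ + 1) * c₂) * (10 ^ 7 * |a|), by positivity,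
    fun L J N₁ D q b w h mo S X => ?_⟩
  have X' := X
  obtain ⟨M, N, _, ι, I, A, u, c, h1, h2, h3, h4⟩ := X
  have hw := h.w0
  have ha := h.a0
  have hx := h.x
  rw [abs_of_nonneg ha, mul_div_assoc, mul_div_assoc, mul_assoc]
  have m1 := fun i hi m (y : Fin m → Site) j hy k =>
    (mean_le h X' (h1 i hi) (y := y) j hy hy k).trans_eq
      (show _ = H * (10 ^ 7 * (a / 2 ^ (N₁ - J))) by rw [hHd, HV]; ring)
  set ε := 10 ^ 7 * (a / 2 ^ (N₁ - J)) with hε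
  have ε0 : 0 ≤ ε := by positivity
  refine ⟨fun y j hy hD s1 s2 s3 => ?_, fun mo' S' Y y j hy hy' hD s1 => ?_⟩
  · rw [cen, h4 4 y j _ _ hy]
    refine mix_le h2 h3 (by positivity) (by positivity) fun i hi => ?_
    set e := fun k => mo 4 y j 0 {k} with he
    have a0 := fun k => (m1 i hi 4 y j hy k).trans (mul_le_of_le_one_right hH hx)
    have a1 := sF h (h1 i hi) (by simp) hy hD hH (e := e) a0 {0, 1} s3
    rw [show ({0, 1} : Finset (Fin 4))ᶜ = {2, 3} by decide, sm_pair _ _ _ (by decide),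
      sm_pair _ _ _ (by decide), Fintype.card_fin] at a1
    have key : ∀ k k', k ≠ k' → zd (y k) (y k') + 1 ≤ sc L N₁ →
        |(w * sc L J) ^ 2 * sm q (u i) (A i) ![y k, y k'] ![j k, j k'] ![e k, e k'] univ| ≤ B ∧
        |(w * sc L J) ^ 2 * cen mo ![y k, y k'] ![j k, j k'] - (w * sc L J) ^ 2 *
          sm q (u i) (A i) ![y k, y k'] ![j k, j k'] ![e k, e k'] univ| ≤ c₂ * ε := by
      intro k k' hk hs
      have p0 : ∀ n, S (![y k, y k'] n) := Fin.forall_fin_two.2 ⟨hy k, hy k'⟩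
      have p1 := sB h (h1 i hi) (y := ![y k, y k']) (j := ![j k, j k']) (e := ![e k, e k'])
        (by simp) p0 (by simp [Fin.forall_fin_two, hD _ _ hk, hD _ _ hk.symm]) hH
        (Fin.forall_fin_two.2 ⟨a0 k, a0 k'⟩)
      have p2 := pair_le h hΓ X' (h1 i hi) (y := ![y k, y k']) ![j k, j k'] p0 p0 (hD _ _ hk) hs
        (e := ![e k, e k']) (Fin.forall_fin_two.2 ⟨m1 i hi 4 y j hy k, m1 i hi 4 y j hy k'⟩)
      rw [← mul_sub, abs_mul, abs_mul, abs_of_nonneg (sq_nonneg _), hc₂, mul_assoc Γ]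
      exact ⟨p1, p2⟩
    obtain ⟨k1, k2⟩ := key 0 1 (by decide) s1
    obtain ⟨k3, k4⟩ := key 2 3 (by decide) s2
    rw [← abs_of_nonneg (by positivity : 0 ≤ (w * sc L J) ^ 4), ← abs_mul] at a1 ⊢
    generalize sm q (u i) (A i) ![y 0, y 1] ![j 0, j 1] ![e 0, e 1] univ = x₁ at *
    generalize sm q (u i) (A i) ![y 2, y 3] ![j 2, j 3] ![e 2, e 3] univ = x₂ at *
    generalize cen mo ![y 0, y 1] ![j 0, j 1] = z₁ at *
    generalize cen mo ![y 2, y 3] ![j 2, j 3] = z₂ at *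
    generalize sm q (u i) (A i) y j e univ = x at *
    generalize w * sc L J = β at *
    have e1 : β ^ 4 * (x - z₁ * z₂) = β ^ 4 * (x - x₁ * x₂) - (β ^ 2 * x₁ * (β ^ 2 * z₂ - β ^ 2 * x₂)
        + (β ^ 2 * z₁ - β ^ 2 * x₁) * (β ^ 2 * x₂) +
          (β ^ 2 * z₁ - β ^ 2 * x₁) * (β ^ 2 * z₂ - β ^ 2 * x₂)) := by ring
    have b1 := (abs_mul _ _).trans_le (mul_le_mul k1 k4 (abs_nonneg _) B0)
    have b2 := (abs_mul _ _).trans_le (mul_le_mul k2 k3 (abs_nonneg _) (by positivity))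
    have b3 := (abs_mul _ _).trans_le (mul_le_mul k2 (k4.trans (mul_le_of_le_one_right c0 hx))
      (abs_nonneg _) (by positivity))
    rw [e1]
    refine (abs_sub _ _).trans ((add_le_add a1 ((abs_add_le _ _).trans (add_le_add
      ((abs_add_le _ _).trans (add_le_add b1 b2)) b3))).trans ?_)
    nlinarith [mul_nonneg c0 ε0]
  · rw [cen, h4 2 y j _ _ hy]
    refine mix_le h2 h3 (by positivity) (by positivity) fun i hi => ?_
    rw [abs_sub_comm]
    refine (pair_le h hΓ Y (h1 i hi) j hy hy' hD s1 (m1 i hi 2 y j hy)).trans ?_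
    rw [← mul_assoc Γ, ← hHd, ← hc₂]
    refine mul_le_mul_of_nonneg_right ?_ ε0
    nlinarith [Real.exp_pos (2 * BV a H), mul_nonneg B0 c0, mul_nonneg c0 c0]

end Vale.Agent.P144Z.DV
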