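import Vale.Agent.P144DX.VTr
import Vale.Agent.P144D.I.Conv

/-!
# Pairs of energies: the estimates for points of the plane lattice
-/

namespace Vale.Agent.P144Z.DV

open Finset Matrix Geo DX P144
open R6 hiding eight_le_sc
open Mn hiding Br Gd WW WW_eq br_good en_eq exc_sub mix_eq ok_bare ok_one ps_br ps_cf ps_wt see_en
  ss top_le bad_sum

/-- The torus with energy sources at points of the plane lattice. -/
abbrev geoV (M : ℕ) [NeZero M] (A : Gauge M) {ι : Type} [Fintype ι] [DecidableEq ι]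
    (y : ι → Site) (j : ι → Fin 2) (J : ℕ) (b : Bool) : Geo :=
  { M := M, A := A, K := ι, J := J
    src := fun k => { enSrc (prj M (dualE (y k) (j k)).1) (dualE (y k) (j k)).2 with on := b } }

/-- The energy of an edge. -/
def oE (M : ℕ) (y : Site) (j : Fin 2) (n : Tor M × Fin 2 → Bool) : ℝ :=
  sgn (n (prj M (dualE y j).1, (dualE y j).2))

/-- The moments in a sector. -/
noncomputable def sm {M : ℕ} [NeZero M] (q : Par) (u : Cor M) (A : Gauge M) {ι : Type}
    (y : ι → Site) (j : ι → Fin 2) (e : ι → ℝ) (t : Finset ι) : ℝ :=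
  Ex q u A fun n => ∏ k ∈ t, (oE M (y k) (j k) n - e k)

/-- A sector in which the flow is under control for points in `S`. -/
structure SecOk (L : ℕ) (q : Par) (J : ℕ) (b : Bool) (w a : ℝ) (N₁ D : ℕ) {M : ℕ} [NeZero M]
    (A : Gauge M) (u : Cor M) (N : ℕ) (S : Site → Prop) : Prop where
  le : N₁ ≤ N
  lo : 16 * sc L N ≤ M
  R : 2 * (q.R + 1) ≤ M
  w_ok : IsW A
  off : u.Off A
  pt : ∀ x, S x → 4 * (zd x 0 + 2) ≤ M ∧ Flat A (prj M x) (7 * sc L N)
  run : ∀ (ι : Type) [Fintype ι] [DecidableEq ι] (y : ι → Site) (j : ι → Fin 2),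
    Fintype.card ι ≤ 4 → (∀ k, S (y k)) → (∀ k k', k ≠ k' → D ≤ zd (y k) (y k')) →
      (geoV M A y j J b).RunY L q u N w a

/-- The numerical conditions. -/
structure Num (L : ℕ) (q : Par) (J : ℕ) (w a : ℝ) (N₁ : ℕ) : Prop where
  L8 : 8 ≤ L
  ok : q.Ok
  w0 : 0 < w
  a0 : 0 ≤ a
  lt : J < N₁
  x : 10 ^ 7 * (a / 2 ^ (N₁ - J)) ≤ 1

theorem zd_dual (y y' : Site) (j : Fin 2) : zd (dualE y j).1 y' ≤ zd y y' + 1 := by
  fin_cases j <;> simp only [zd, dualE, uz] <;> simp <;> omega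

theorem zd_dual' (y y' : Site) (j j' : Fin 2) :
    zd y y' ≤ zd (dualE y j).1 (dualE y' j').1 + 1 := by
  fin_cases j <;> fin_cases j' <;> simp only [zd, dualE, uz] <;> simp <;> omega

theorem tdist_dual {M : ℕ} [NeZero M] {y y' : Site} (h : 4 * (zd y 0 + 2) ≤ M)
    (h' : 4 * (zd y' 0 + 2) ≤ M) (j j' : Fin 2) :
    zd y y' ≤ tdist (prj M (dualE y j).1) (prj M (dualE y' j').1) + 1 := by
  have h1 := zd_dual y 0 j
  have h2 := zd_dual y' 0 j'
  have h3 := GeoA.zd_tri (dualE y j).1 0 (dualE y' j').1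
  have h4 : zd 0 (dualE y' j').1 = zd (dualE y' j').1 0 := by simp [zd]
  rw [IConv.tdist_prj (by omega)]
  exact zd_dual' _ _ _ _

variable {L J N N' N₁ D M M' : ℕ} [NeZero M] [NeZero M'] {q : Par} {b : Bool} {w a H : ℝ}
  {A : Gauge M} {A' : Gauge M'} {u : Cor M} {u' : Cor M'} {S S' : Site → Prop} {ι : Type}
  [Fintype ι] [DecidableEq ι] {y : ι → Site} {j : ι → Fin 2} {e : ι → ℝ}

theorem ob_eq (k : ι) : ob (geoV M A y j J b) k = oE M (y k) (j k) := by
  funext n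
  simp only [ob, oE, enSrc, Geo.see]
  rw [show prj M (0, 0) = 0 from G.prj_zero, add_zero]

theorem Num.Z (h : Num L q J w a N₁) : q.Z ≠ 0 := by have := h.ok.Z_lo; positivity

theorem Num.x' (h : Num L q J w a N₁) (hN : N₁ ≤ N) : a / 2 ^ (N - J) ≤ 1 / 4 := by
  have h1 : a / 2 ^ (N - J) ≤ a / 2 ^ (N₁ - J) :=
    div_le_div_of_nonneg_left h.a0 (by positivity) (pow_le_pow_right₀ one_le_two (by omega))
  have := h.x
  have : 0 ≤ a / 2 ^ (N₁ - J) := by have := h.a0; positivity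
  linarith

theorem Z_ne' (h : Num L q J w a N₁) (σ : SecOk L q J b w a N₁ D A u N S) : ZwC q u A 1 ≠ 0 :=
  Z_ne (g := geoV M A (ι := Empty) Empty.elim Empty.elim J b)
    (σ.run Empty Empty.elim Empty.elim (by simp) (fun k => k.elim) fun k => k.elim) h.Z
    (by have := h.L8; omega) h.w0 (h.x' σ.le)

theorem sB (h : Num L q J w a N₁) (σ : SecOk L q J b w a N₁ D A u N S) (hc : Fintype.card ι ≤ 4)
    (hy : ∀ k, S (y k)) (hD : ∀ k k', k ≠ k' → D ≤ zd (y k) (y k')) (hH : 0 ≤ H)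
    (he : ∀ k, w * sc L J * |e k - Ex q u A (oE M (y k) (j k))| ≤ H) :
    (w * sc L J) ^ Fintype.card ι * |sm q u A y j e univ| ≤ Real.exp (BV a H) * 3 := by
  have := mom_le (σ.run ι y j hc hy hD) h.Z h.L8 h.w0 h.a0 (h.x' σ.le) hH (e := e)
    (by simpa only [ob_eq] using he)
  simpa only [ob_eq, sm, id] using this

theorem sF (h : Num L q J w a N₁) (σ : SecOk L q J b w a N₁ D A u N S) (hc : Fintype.card ι ≤ 4)
    (hy : ∀ k, S (y k)) (hD : ∀ k k', k ≠ k' → D ≤ zd (y k) (y k')) (hH : 0 ≤ H)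
    (he : ∀ k, w * sc L J * |e k - Ex q u A (oE M (y k) (j k))| ≤ H) (t : Finset ι)
    (ht : ∀ k ∈ t, ∀ k' ∉ t, sc L N₁ + 1 ≤ zd (y k) (y k')) :
    (w * sc L J) ^ Fintype.card ι * |sm q u A y j e univ - sm q u A y j e t * sm q u A y j e tᶜ| ≤
      Real.exp (2 * BV a H) * (8 * (10 ^ 7 * (a / 2 ^ (N₁ - J)))) := by
  have := fac_le (σ.run ι y j hc hy hD) h.Z h.L8 h.w0 h.a0 h.lt.le σ.le h.x hH (e := e)
    (by simpa only [ob_eq] using he) t fun k hk k' hk' => Nat.le_of_succ_le_succ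
      ((ht k hk k' hk').trans (tdist_dual (σ.pt _ (hy k)).1 (σ.pt _ (hy k')).1 _ _))
  simpa only [ob_eq, sm, id] using this

theorem matchC {g g' : Geo} {u : Cor g.M} {u' : Cor g'.M} {c : g.P} {c' : g'.P} {T : ℕ}
    (hA : IsW g.A) (hA' : IsW g'.A) (hu : u.Off g.A) (hu' : u'.Off g'.A) (hT : 1 ≤ T)
    (h1 : 4 * T + 1 ≤ g.M) (h1' : 4 * T + 1 ≤ g'.M) (hf : Flat g.A c T) (hf' : Flat g'.A c' T) :
    Geo.MatchC g g' u u' c c' T := by
  have h2 : ∀ f, tdist f c ≤ T → flux g'.A (shf c c' f) = 1 := fun f h => hf' _ (by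
    have := (ballIso syId c c' h1 h1' hT).iso (x := f) (y := c) (show _ + 0 ≤ T by omega)
      (show _ + 0 ≤ T by rw [tdist_self]; omega)
    rw [show (ballIso syId c c' h1 h1' hT).φ c = c' from bφ_self syId c c'] at this
    exact this.le.trans h)
  have h3 : ∀ f, tdist f c ≤ T → |flux g'.A (shf c c' f)| = 1 := fun f h => by
    rw [h2 f h, abs_one]
  obtain ⟨ε, hε, h⟩ := (W.R6.matchC_flat (g' := geoA g'.M (shp g'.A)) (c' := c') hA hu
    (shp_sign _) hT h1 h1' hf fun f h => (W.flux_shp hA' (h3 f h)).trans (h2 f h)).gauge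
  refine ⟨h1, h1', fun f h => (h2 f h).trans (hf f h).symm, ⟨ε, hε, fun x i hx hx' =>
    Eq.trans ?_ (h x i hx hx')⟩, fun X hX n => (hu' _ (fun x hx => ?_) _).trans
      (hu X (fun x hx => hf x (hX x hx)) _).symm⟩
  · have h4 := W.face_sign hA' (h3 x hx)
    fin_cases i
    · exact (shp_eq h4.1).symm
    · exact (shp_eq h4.2.2.2).symm
  · obtain ⟨z, hz, rfl⟩ := mem_image.1 hx
    exact h2 z (hX z hz)

theorem sT (h : Num L q J w a N₁) (σ : SecOk L q J b w a N₁ D A u N S)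
    (σ' : SecOk L q J b w a N₁ D A' u' N' S') (hc : Fintype.card ι ≤ 4) (hy : ∀ k, S (y k))
    (hy' : ∀ k, S' (y k)) (hD : ∀ k k', k ≠ k' → D ≤ zd (y k) (y k')) (hH : 0 ≤ H)
    (he : ∀ k, w * sc L J * |e k - Ex q u A (oE M (y k) (j k))| ≤ H) (k₀ : ι)
    (hs : ∀ k, zd (y k) (y k₀) + 1 ≤ sc L N₁) :
    (w * sc L J) ^ Fintype.card ι * |sm q u' A' y j e univ - sm q u A y j e univ| ≤
      Real.exp (BV a H) * (8 * (10 ^ 7 * (a / 2 ^ (N₁ - J)))) := by
  have hL := h.L8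
  have h8 := eight_le_sc (L := L) (by omega) N₁
  have l1 := sc_mono (L := L) (by omega) σ.le
  have l2 := sc_mono (L := L) (by omega) σ'.le
  have l3 := σ.lo
  have l4 := σ'.lo
  have z1 : ∀ k, zd (dualE (y k) (j k)).1 (y k₀) ≤ sc L N₁ := fun k =>
    (zd_dual _ _ _).trans (hs k)
  have z2 : ∀ k, tdist (prj M (dualE (y k) (j k)).1) (prj M (y k₀)) ≤ sc L N₁ := fun k =>
    (tdist_prj_le _ _).trans (z1 k)
  have := tr_le (g := geoV M A y j J b) (g' := geoV M' A' y j J b) (σ.run ι y j hc hy hD) 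
    (σ'.run ι y j hc hy' hD) h.ok hL h.w0 h.a0 h.lt rfl σ.le σ'.le h.x hH (e := e) (by simpa only [ob_eq] using he) σ.R σ'.R (κ := some)
    (c := prj M (y k₀)) (c' := prj M' (y k₀)) (T := 3 * sc L N₁)
    (matchC σ.w_ok σ'.w_ok σ.off σ'.off (by omega) (by change _ ≤ M; omega)
      (by change _ ≤ M'; omega) (fun f hf => (σ.pt _ (hy k₀)).2 f (hf.trans (by omega)))
      fun f hf => (σ'.pt _ (hy' k₀)).2 f (hf.trans (by omega)))
    { pos := fun k k' e => by
        obtain rfl := Option.some_inj.1 e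
        refine ⟨(z2 k).trans (by omega), ?_⟩
        have z3 := z1 k
        change prj M' (dualE (y k) (j k)).1 = _ + prj M' (lft (prj M (dualE (y k) (j k)).1 - _))
        rw [zd, max_le_iff] at z3
        rw [← G.prj_sub, lft_prj (M := M) (by rw [Prod.fst_sub, ← Int.natCast_natAbs]; omega)
          (by rw [Prod.snd_sub, ← Int.natCast_natAbs]; omega), G.prj_sub, add_sub_cancel]
      kinj := fun _ _ _ e e' => Option.some_inj.1 (e.trans e'.symm)
      surj := fun k => ⟨k, rfl⟩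
      on := fun _ _ _ => rfl
      dir := fun _ _ e => Option.some_inj.1 e ▸ rfl
      sm := fun k _ _ v hv => by
        change v ∈ ({(0, 0), uz _} : Finset (ℤ × ℤ)) at hv
        change 2 * max v.1.natAbs v.2.natAbs ≤ min M M'
        simp only [mem_insert, mem_singleton, uz] at hv
        rcases hv with rfl | rfl
        · simp
        · split_ifs <;> simp <;> omega
      Y := fun _ _ e => Option.some_inj.1 e ▸ image_id.symm
      O := fun k _ e n => by
        obtain rfl := Option.some_inj.1 e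
        exact congrArg (fun z => sgn (n z)) (undz_dr (0, 0) _).symm }
    id (fun _ _ => Option.some_inj) Function.bijective_id z2 (by omega)
  simpa only [ob_eq, sm, id] using this

end Vale.Agent.P144Z.DV
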