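import Vale.Agent.P144DX.VCore
import Vale.Agent.P144DX.VStep
import Vale.Agent.P144DI.LatV
import Vale.Agent.P144DW.Top

/-!
# Block V from the flow at the bottom scale
-/

namespace Vale.Agent.P144Z.DV

theorem coreS : CoreS := fun _ _ _ _ _ hL hq h1 h2 => coreV (by omega) hq h1 h2

theorem blkV_off (h : FlowOffS) : P144DR.BlkV := blkV_of (DX.latV_of h coreS)

end Vale.Agent.P144Z.DV
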