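import Vale.Agent.P144DX.VMain

/-!
# Pairs of energies: the comparison of two sectors
-/

namespace Vale.Agent.P144Z.DV

open Finset Matrix Geo DX
open R6 hiding eight_le_sc
open Mn hiding Br Gd WW WW_eq br_good en_eq exc_sub mix_eq ok_bare ok_one ps_br ps_cf ps_wt see_en
  ss top_le bad_sum
open MN hiding gen Z_eq en_eq mix_eq br_good Gd T_close

variable {g g' : Geo} {L N N' N₁ T : ℕ} {q : Par} {u : Cor g.M} {u' : Cor g'.M} {w a H : ℝ}
  {κ : g.K → Option g'.K} {c : g.P} {c' : g'.P}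

theorem exists_tr (hg : ∀ k, (g.src k).Ok) (hg' : ∀ k, (g'.src k).Ok) (hu : u.Ok)
    (hq : P144.IsPotential q.V) (hR : 2 * (q.R + 1) ≤ g.M) (hR' : 2 * (q.R + 1) ≤ g'.M)
    (hm : Geo.MatchC g g' u u' c c' T) (hT : 1 ≤ T) (hs : Srcs syId c c' T κ) :
    ∃ m : FMap g g', W.R6.IdC u u' q c c' T κ m ∧ ∀ k i, m.w k i = 1 := by
  obtain ⟨ε, hε, h⟩ := hm.gauge
  let m := FMap.ball syId c c' hm.le hm.le' hT hε (gauge_stp hm.le hm.le' hT h) κ hs.pos hs.kinj
  have hd : ∀ {ℓ x y}, m.dep (ℓ + 1) x → tdist y x ≤ ℓ → tdist y c ≤ T := fun hx hy =>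
    m.mono (m := 0) hx (by omega)
  refine ⟨m, ⟨⟨⟨fun {r x} hx => ⟨fun h1 f hf => ?_, fun h1 f' hf => ?_⟩, fun hx hy => ?_,
    fun hx hy => bφ_lft hm.le hm.le' (FMap.dep0 hx) (hd hx hy), hs.on _ _, hs.dir _ _,
    fun _ _ => hs.surj _⟩, goodI_ball hg hg' hq hR hR' hs, rfl, rfl, fun _ _ => Iff.rfl,
    rfl⟩, hu, fun X hX n' => (hm.cor X hX n').trans (congrArg _ (funext fun e => ?_))⟩,
    fun _ _ => ite_self _⟩
  · rw [← hm.fl f (hd hx hf)]
    exact h1 _ ((m.iso (hd hx hf) (FMap.dep0 hx)).le.trans hf)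
  · obtain ⟨f, hf', rfl⟩ := m.onto (Iso.le hx (Nat.le_succ r)) hf
    exact (hm.fl f (hd hx hf')).trans (h1 f hf')
  · exact trans_iso hm.le hm.le' hε h (FMap.dep0 hx) (hd hx hy)
  · exact congrArg n' (und_dr _ _).symm

open Classical in
theorem split (R : g.RunY L q u N w a) (hL : 8 ≤ L) (hJ : g.J < N₁) (hN : N₁ ≤ N) :
    ∑ j ∈ range (N + 1), ∑ U, cV g L q u j U =
      ∑ j ∈ range N₁, ∑ U ∈ univ.filter (fun U => stein U ≤ 8 * sc L N₁ / 20 ∧
        ∃ k, (g.src k).y ∈ U), cV g L q u j U +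
      ∑ j ∈ range (N + 1), ∑ U ∈ univ.filter (Bad g L N₁ j), cV g L q u j U := by
  have h8 := sc_mono (L := L) (by omega) (show 1 ≤ N₁ by omega)
  have h9 : sc L 1 = 8 * L := by simp [sc]
  have e : ∀ F : ℕ → g.E, ∑ j ∈ range N₁, F j =
      ∑ j ∈ range (N + 1), if j < N₁ then F j else 0 := fun F => by
    rw [← sum_filter]
    refine sum_congr (Finset.ext fun j => ?_) fun _ _ => rfl
    simp only [mem_filter, mem_range]
    omega
  rw [e, ← sum_add_distrib]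
  refine sum_congr rfl fun j _ => ?_
  rw [← sum_filter_add_sum_filter_not univ (Bad g L N₁ j), add_comm]
  congr 1
  split_ifs with h
  · refine (sum_subset (fun U hU => ?_) fun U h1 h2 => cV_zero R j fun k hk => h2 ?_).symm
    · have h1 := (mem_filter.1 hU).2
      exact mem_filter.2 ⟨mem_univ _, fun h2 => by have := h2.2.2 h; omega⟩
    · refine mem_filter.2 ⟨mem_univ _, not_lt.1 fun h3 => (mem_filter.1 h1).2
        ⟨⟨k, hk⟩, fun h4 => ?_, fun _ => h3⟩, k, hk⟩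
      have := exc_le R h4.2.1
      omega
  · exact sum_eq_zero fun U hU => cV_zero R j fun k hk => (mem_filter.1 hU).2
      ⟨⟨k, hk⟩, fun h4 => by have := h4.1; omega, fun h4 => absurd h4 h⟩

open Classical in
/-- Transport. -/
theorem tr_le (R : g.RunY L q u N w a) (R' : g'.RunY L q u' N' w a) (hq : q.Ok) (hL : 8 ≤ L)
    (hw : 0 < w) (ha : 0 ≤ a) (hJ : g.J < N₁) (hJ' : g'.J = g.J) (hN : N₁ ≤ N) (hN' : N₁ ≤ N')
    (hx : 10 ^ 7 * (a / 2 ^ (N₁ - g.J)) ≤ 1) {e : g.K → ℝ} (hH : 0 ≤ H)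
    (he : ∀ k, w * sc L g.J * |e k - Ex q u g.A (ob g k)| ≤ H) (hR : 2 * (q.R + 1) ≤ g.M)
    (hR' : 2 * (q.R + 1) ≤ g'.M) (hm : Geo.MatchC g g' u u' c c' T) (hs : Srcs syId c c' T κ)
    (ι : g'.K → g.K) (hι : ∀ k k', κ k = some k' ↔ k = ι k') (hι' : Function.Bijective ι) {ρ : ℕ}
    (hy : ∀ k, tdist (g.src k).y c ≤ ρ) (hT : ρ + 2 * sc L N₁ ≤ T) :
    (w * sc L g.J) ^ Fintype.card g.K * |Ex q u' g'.A (fun n => ∏ k, (ob g' k n - e (ι k))) -
      Ex q u g.A fun n => ∏ k, (ob g k n - e k)| ≤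
      Real.exp (BV a H) * (8 * (10 ^ 7 * (a / 2 ^ (N₁ - g.J)))) := by
  have h8 := eight_le_sc (L := L) (by omega) g.J
  have h9 := eight_le_sc (L := L) (by omega) N₁
  have hβ : 0 < w * sc L g.J := by positivity
  have hZ : q.Z ≠ 0 := by have := hq.Z_lo; positivity
  have x0 := x_le hJ.le hN ha
  have x0' := x_le (g := g') (hJ'.le.trans hJ.le) hN' ha
  have b0 := bad_le R hL hw ha hJ.le hN
  have b0' := bad_le R' hL hw ha (hJ'.le.trans hJ.le) hN'
  have bT' := fun h => (TV_le R' (by omega) hw x0' h).1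
  simp only [hJ'] at b0' bT'
  set x := a / 2 ^ (N₁ - g.J) with hxd
  have x1 : 0 ≤ x := by positivity
  obtain ⟨top, ht1, -, ht3⟩ := W.Geo.exists_top g'
  obtain ⟨m, hm, hw1⟩ := exists_tr R.ok.src R'.ok.src R.hu hq.pot hR hR' hm (by omega) hs
  set T₀ := 8 * sc L N₁ / 20 with hT₀
  have hc : m.dep T c := (hm.id.dep _ _).2 (by rw [tdist_self, zero_add])
  have hW : m.In T₀ (ball c (ρ + T₀)) := Iso.in_ball hc (by omega)
  have hφ : m.φ c = c' := by rw [hm.id.hφ]; exact bφ_self _ _ _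
  have hp : ∀ k', (g'.src k').y = m.φ (g.src (ι k')).y := fun k' =>
    (m.pos (hm.id.hκ ▸ (hι _ _).2 rfl)).2
  have d0 : ∀ k, m.dep 0 (g.src k).y := fun k => (hm.id.dep _ _).2 (by have := hy k; omega)
  have p1 : ∀ U : Finset g.P, (stein U ≤ T₀ ∧ ∃ k, (g.src k).y ∈ U) → U ⊆ ball c (ρ + T₀) := by
    rintro U ⟨a1, k, a2⟩ z hz
    have := tdist_le_stein hz a2
    have := tdist_triangle z (g.src k).y c
    have := hy k
    exact mem_ball.2 (by omega)
  have p2 : ∀ U : Finset g'.P, (stein U ≤ T₀ ∧ ∃ k, (g'.src k).y ∈ U) →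
      U ⊆ (ball c (ρ + T₀)).image m.φ := by
    rintro U ⟨a1, k, a2⟩ z hz
    rw [Iso.image_ball (Iso.le hc (by omega)), hφ]
    have := tdist_le_stein hz a2
    have := tdist_triangle z (g'.src k).y c'
    have a3 := m.iso (d0 (ι k)) (Iso.le hc (Nat.zero_le _))
    rw [hφ, ← hp] at a3
    have := hy (ι k)
    exact mem_ball.2 (by omega)
  have p3 : ∀ U ⊆ ball c (ρ + T₀), (stein (U.image m.φ) ≤ T₀ ∧
      ∃ k, (g'.src k).y ∈ U.image m.φ) ↔ stein U ≤ T₀ ∧ ∃ k, (g.src k).y ∈ U := by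
    intro U hU
    rw [Iso.small_iff (hW.sub hU)]
    refine and_congr_right fun _ => ⟨fun ⟨k, hk⟩ => ⟨ι k, ?_⟩, fun ⟨k, hk⟩ => ?_⟩
    · obtain ⟨z, hz, e⟩ := mem_image.1 hk
      rwa [← Iso.inj (Iso.le (hW z (hU hz)) (Nat.zero_le _)) (d0 _) (e.trans (hp k))]
    · obtain ⟨k', rfl⟩ := hι'.2 k
      exact ⟨k', hp k' ▸ mem_image_of_mem _ hk⟩
  have e1 : ∀ j ∈ range N₁, ∑ U ∈ univ.filter (fun U => stein U ≤ T₀ ∧ ∃ k, (g'.src k).y ∈ U),
      cV g' L q u' j U = rho g g' κ (∑ U ∈ univ.filter (fun U => stein U ≤ T₀ ∧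
        ∃ k, (g.src k).y ∈ U), cV g L q u j U) := by
    intro j hj
    have h1 := sc_mono (L := L) (by omega) (mem_range.1 hj).le
    rw [map_sum, Iso.sum_sets (hW.le (Nat.zero_le _)) p1 p2 p3]
    refine sum_congr rfl fun U hU => ?_
    obtain ⟨a1, k, a2⟩ := (mem_filter.1 hU).2
    have a3 := hm.cs (L := L) (by omega) j (fun _ _ _ _ _ => by rw [hJ'])
      (hm.id.In a2 (by have := hy k; omega))
    rw [Φ_eq m (by rw [hm.id.hy]; rfl) hw1 (W.Geo.csC_mem R.ok R.hu L q j U).2, hm.id.hκ] at a3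
    rw [cV, cV, a3, ag_rho, map_sub, map_smul, rho_one]
  set V := WV g L q u N e with hV
  have e2 : WV g' L q u' N' (fun k => e (ι k)) - rho g g' κ V =
      ∑ j ∈ range (N' + 1), ∑ U ∈ univ.filter (Bad g' L N₁ j), cV g' L q u' j U - rho g g' κ
        (∑ j ∈ range (N + 1), ∑ U ∈ univ.filter (Bad g L N₁ j), cV g L q u j U) := by
    rw [hV, WV_eq, WV_eq, split R hL hJ hN, split R' hL (hJ'.trans_lt hJ) hN', map_sub, map_add,
      rho_sum ι hι, sum_congr rfl e1, map_sum _ _ (range N₁)]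
    abel
  have bD : g'.ps (w * sc L g.J) univ (WV g' L q u' N' (fun k => e (ι k)) - rho g g' κ V) ≤
      10 ^ 7 * x := by
    rw [e2]
    refine (RN.pn_sub le_rfl one_pos hβ _ _).trans ((add_le_add ((RN.pn_sum le_rfl one_pos hβ _
      _).trans ((sum_le_sum fun j _ => RN.pn_sum le_rfl one_pos hβ _ _).trans b0'))
      ((ps_rho hβ _).trans ((RN.pn_sum le_rfl one_pos hβ _ _).trans
        ((sum_le_sum fun j _ => RN.pn_sum le_rfl one_pos hβ _ _).trans b0)))).trans ?_)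
    linarith
  have b3 : g'.ps (w * sc L g.J) univ (rho g g' κ (TV g L q u N) - 1) ≤ 3 * (10 ^ 7 * x) := by
    have := (ps_rho (κ := κ) hβ _).trans (TV_le R (by omega) hw x0 (by linarith)).1
    rw [map_sub, rho_one] at this
    linarith
  have c := close hβ (V := rho g g' κ V) (rho_mem _) (sub_mem (WV_mem _) (rho_mem _))
    ((ps_rho hβ _).trans (W_le R hZ hL hw ha (by linarith) hH he)) bD
    ((bT' (by linarith)).trans (by linarith)) b3 hx
  have e0 := gen_lin hZ (conv R') top fun k => e (ι k)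
  simp only [ht1] at e0
  have e3 := top_rho hZ (conv R) ι hι ht1 e
  have e4 : ∀ n, ∏ k', (ob g (ι k') n - e (ι k')) = ∏ k, (ob g k n - e k) := fun n =>
    hι'.prod_comp fun k => ob g k n - e k
  simp only [e4] at e3
  refine le_trans (le_of_eq ?_) ((ht3 1 1 _ R'.ok.sign le_rfl one_pos hβ _).trans c)
  rw [e0, ← e3, map_sub, add_sub_cancel, rho_mul, rho_exp, Fintype.card_of_bijective hι']

end Vale.Agent.P144Z.DV
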